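import Vale.Agent.P145.Defs

/-! Definitions used in the statements for P167. -/

open Set Filter Topology MeasureTheory

namespace Vale.Agent.P167

open Vale.Agent.P145.AT
open Vale.Agent.P153 (IsJordanMap IsTest)

/-- The lattice edges on or inside the polygon: those that border a bounded face. -/
def edge (P : Pol) : Set (V × Bool) := {e | e.1 ∈ P.face ∨ ot e ∈ P.face}

/-- Connection through open edges after all vertices of the polygon have been identified. -/
def Conn (P : Pol) (A : Finset (V × Bool)) : V → V → Prop :=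
  Relation.EqvGen fun x y =>
    (∃ e ∈ A, e.1 = x ∧ tg e = y) ∨ ((∃ i < P.N, P.β i = x) ∧ ∃ j < P.N, P.β j = y)

/-- The number of clusters, isolated vertices included. -/
noncomputable def ncl (P : Pol) (A : Finset (V × Bool)) : ℕ :=
  {C : Set V | ∃ x ∈ P.vert, C = {y | Conn P A x y}}.ncard

/-- The wired random-cluster weight of the set `A` of open edges. -/
noncomputable def fkw (P : Pol) (p q : ℝ) (A : Finset (V × Bool)) : ℝ :=
  p ^ A.card * (1 - p) ^ (edge P \ A).ncard * q ^ ncl P A

/-- The sign choices: a sign for every cluster of `A`, plus for the cluster of the polygon, and a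
sign for every dual cluster of bounded faces; signs outside the graph are set to `1`. -/
def Col (P : Pol) (A : Finset (V × Bool)) : Set Spin :=
  {s | (∀ v, emb v ∉ P.dom → s.1 v = 1) ∧ (∀ f, f ∉ P.face → s.2 f = 1) ∧
    (∀ e ∈ A, s.1 e.1 = s.1 (tg e)) ∧
    ∀ e : V × Bool, e.1 ∈ P.face → ot e ∈ P.face → e ∉ A → s.2 e.1 = s.2 (ot e)}

/-- Expectation: `A` has the wired random-cluster law and, given `A`, the signs are uniform. -/
noncomputable def fkex (P : Pol) (p q : ℝ) (F : Spin → ℝ) : ℝ :=
  (∑ᶠ A ∈ {A : Finset (V × Bool) | ↑A ⊆ edge P},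
      fkw P p q A * ((∑ᶠ s ∈ Col P A, F s) / (Col P A).ncard)) /
    ∑ᶠ A ∈ {A : Finset (V × Bool) | ↑A ⊆ edge P}, fkw P p q A

/-- In every Jordan domain the signed nesting height converges in law to the centred Gaussian
field whose covariance is `a` times the inverse Dirichlet Laplacian. -/
def Nest (p q a : ℝ) : Prop :=
  ∀ (ψ : ℂ → ℂ) (P : ℕ → Pol) (δ : ℕ → ℝ), IsJordanMap ψ → Approx ψ P δ →
    (∀ n, (P n).vert.Finite ∧ (edge (P n)).Finite ∧
      ∀ A : Finset (V × Bool), ↑A ⊆ edge (P n) → (Col (P n) A).Finite ∧ (Col (P n) A).Nonempty ∧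
        ∀ s ∈ Col (P n) A, ∃ H, (P n).IsHt s H) ∧
    ∀ H : ℕ → Spin → V → ℝ,
      (∀ n (A : Finset (V × Bool)), ↑A ⊆ edge (P n) → ∀ s ∈ Col (P n) A, (P n).IsHt s (H n s)) →
      ∀ (k : ℕ) (φ : Fin k → ℂ → ℝ), (∀ i, IsTest ψ (φ i)) →
        (Matrix.of fun i j => a * cov ψ (φ i) (φ j)).PosSemidef ∧
        ∀ F : BoundedContinuousFunction (EuclideanSpace ℝ (Fin k)) ℝ,
          Tendsto (fun n => fkex (P n) p q fun s =>
              F (WithLp.toLp 2 fun i => (P n).field (δ n) (φ i) (H n s))) atTop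
            (𝓝 (∫ z, F z ∂ProbabilityTheory.multivariateGaussian 0
              (Matrix.of fun i j => a * cov ψ (φ i) (φ j))))

end Vale.Agent.P167
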