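import Vale.Agent.P167.Count
import Vale.Agent.P167.Defs
import Vale.Agent.P145.LkAll

/-! P167: the number of clusters and the sign choices. -/

namespace Vale.Agent.P167

open Vale.Agent.P152 Vale.Agent.P145 Vale.Agent.P145.AT Vale.Agent.P145.Lk Finset

variable {P : Pol} {D : Finset Site} {A : Finset Vx}

theorem edge_eq (h : Good P D) : edge P = ↑(vx D) := by
  ext m
  rw [mem_coe, mem_vx, h.coe, h.coe, ← ot_eq]
  rfl

theorem vert_eq (h : Good P D) : P.vert = ↑(inn D ∪ (range P.N).image P.β) := by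
  ext v
  simp only [Pol.vert, Set.mem_ofPred_eq, coe_union, Set.mem_union, mem_coe, h.inn, mem_image,
    mem_range]

theorem end_bd (h : Good P D) {m : Vx} (hm : m ∈ vx D) {v : Site} (hv : End m v)
    (hn : v ∉ inn D) : ∃ i < P.N, P.β i = v :=
  (mem_vx.1 hm).elim (fun k => h.bd _ k v ((sep_self m).cor hv).1 hn)
    fun k => h.bd _ k v ((sep_self m).cor hv).2 hn

/-- the cluster of a vertex -/
def cls (P : Pol) (A : Finset Vx) (x : Site) : Set Site := {y | Conn P A x y}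

theorem cls_eq {x y : Site} : cls P A x = cls P A y ↔ Conn P A x y :=
  ⟨fun e => by
    have : y ∈ cls P A y := Relation.EqvGen.refl y
    rwa [← e] at this, fun k => Set.ext fun _ =>
    ⟨fun j => (k.symm _ _).trans _ _ _ j, fun j => k.trans _ _ _ j⟩⟩

theorem cls_bd {v : Site} (hv : ∃ i < P.N, P.β i = v) : cls P A v = cls P A (P.β 0) :=
  cls_eq.2 (Relation.EqvGen.rel _ _ (Or.inr ⟨hv, 0, by have := P.three; omega, rfl⟩))

theorem cls_edge {m : Vx} (hm : m ∈ A) : cls P A (src m) = cls P A (tgt m) :=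
  cls_eq.2 (Relation.EqvGen.rel _ _ (Or.inl ⟨m, hm, rfl, rfl⟩))

theorem sat (h : Good P D) {T : Finset Site} (hT : T ∈ TT D A) {x y : Site} (k : Conn P A x y) :
    x ∈ T ↔ y ∈ T := by
  obtain ⟨h1, h2⟩ := mem_TT.1 hT
  induction k with
  | rel x y k =>
    rcases k with ⟨m, hm, rfl, rfl⟩ | ⟨⟨i, hi, rfl⟩, j, hj, rfl⟩
    · exact h2 m hm
    · exact iff_of_false (fun e => h.nin i hi (h1 e)) fun e => h.nin j hj (h1 e)
  | refl => rfl
  | symm _ _ _ ih => exact ih.symm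
  | trans _ _ _ _ _ i1 i2 => exact i1.trans i2

theorem ncl_eq (h : Good P D) (hA : A ⊆ vx D) : 2 ^ ncl P A = 2 * (TT D A).card := by
  classical
  obtain ⟨W, hW⟩ : ∃ W : Finset (Set Site),
      W = (inn D ∪ (range P.N).image P.β).image (cls P A) := ⟨_, rfl⟩
  have e1 : ncl P A = W.card := by
    rw [ncl, ← Set.ncard_coe_finset, hW, coe_image, ← vert_eq h]
    congr 1
    ext C
    exact exists_congr fun x => and_congr_right' eq_comm
  have h0 : cls P A (P.β 0) ∈ W := hW ▸ mem_image_of_mem _ (mem_union_right _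
    (mem_image_of_mem _ (mem_range.2 (by have := P.three; omega))))
  rw [e1, ← card_erase_add_one h0, pow_succ', ← card_powerset]
  congr 1
  refine card_nbij' (fun S => (inn D).filter fun v => cls P A v ∈ S) (fun T => T.image (cls P A))
    (fun S hS => ?_) (fun T hT => ?_) (fun S hS => ?_) fun T hT => ?_
  · have hS' := mem_powerset.1 (mem_coe.1 hS)
    have k : ∀ m ∈ A, ∀ v, End m v → cls P A v ∈ S → v ∈ inn D := fun m hm v hv hc =>
      by_contra fun hn => (mem_erase.1 (hS' hc)).1 (cls_bd (end_bd h (hA hm) hv hn))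
    refine mem_coe.2 (mem_TT.2 ⟨filter_subset _ _, fun m hm => ?_⟩)
    have k1 := k m hm _ (end_src m)
    have k2 := k m hm _ (end_tgt m)
    rw [cls_edge hm] at k1
    rw [mem_filter, mem_filter, cls_edge hm]
    tauto
  · have hT' := mem_coe.1 hT
    refine mem_coe.2 (mem_powerset.2 fun C hC => ?_)
    obtain ⟨x, hx, rfl⟩ := mem_image.1 hC
    refine mem_erase.2 ⟨fun e => h.nin 0 (by have := P.three; omega)
      ((mem_TT.1 hT').1 ((sat h hT' (cls_eq.1 e)).1 hx)), ?_⟩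
    exact hW ▸ mem_image_of_mem _ (mem_union_left _ ((mem_TT.1 hT').1 hx))
  · have hS' := mem_powerset.1 (mem_coe.1 hS)
    ext C
    simp only [mem_image, mem_filter]
    refine ⟨fun ⟨x, hx, e⟩ => e ▸ hx.2, fun hC => ?_⟩
    obtain ⟨c1, c2⟩ := mem_erase.1 (hS' hC)
    rw [hW] at c2
    obtain ⟨x, hx, rfl⟩ := mem_image.1 c2
    rcases mem_union.1 hx with k | k
    · exact ⟨x, ⟨k, hC⟩, rfl⟩
    · obtain ⟨i, hi, k⟩ := mem_image.1 k
      exact absurd (cls_bd ⟨i, mem_range.1 hi, k⟩) c1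
  · have hT' := mem_coe.1 hT
    ext v
    simp only [mem_image, mem_filter]
    exact ⟨fun ⟨_, x, hx, e⟩ => (sat h hT' (cls_eq.1 e)).1 hx,
      fun hv => ⟨(mem_TT.1 hT').1 hv, v, hv, rfl⟩⟩

/-- the spins of a pair of sets -/
def mk2 (D : Finset Site) (p : Finset Site × Finset Site) : AT.Spin := mkS D p.1 p.2

theorem sub_AA : TT D A ×ˢ SS D A ⊆ XSum.AA D := fun p hp => by
  obtain ⟨h1, h2⟩ := mem_product.1 hp
  refine XSum.mem_AA.2 ⟨(mem_TT.1 h1).1, (mem_SS.1 h2).1, fun m hm => ?_⟩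
  by_cases k : m ∈ A
  exacts [Or.inl ((mem_TT.1 h1).2 m k), Or.inr ((mem_SS.1 h2).2 m hm k)]

theorem col_iff (h : Good P D) {p : Finset Site × Finset Site} (hp : p ∈ XSum.AA D) :
    mk2 D p ∈ Col P A ↔ p ∈ TT D A ×ˢ SS D A := by
  have hc : mk2 D p ∈ P.Conf := XSum.img h ▸ Set.mem_image_of_mem _ (mem_coe.2 hp)
  obtain ⟨h1, h2, -⟩ := XSum.mem_AA.1 hp
  rw [mem_product, mem_TT, mem_SS, and_iff_right h1, and_iff_right h2, Col, Set.mem_ofPred_eq,
    and_iff_right hc.1, and_iff_right hc.2.1]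
  refine and_congr (forall₂_congr fun m _ => XSum.ite_iff) (forall_congr' fun m => ?_)
  rw [mem_vin, ← h.coe, ← h.coe, ot_eq, and_imp]
  refine forall_congr' fun k1 => forall_congr' fun k2 => forall_congr' fun _ => ?_
  simp only [mk2, mkS, XSum.ite_iff, k1, k2, true_and, not_iff_not, fa]

theorem col_sub : Col P A ⊆ P.Conf := fun s hs => ⟨hs.1, hs.2.1, fun e h1 h2 => by
  rw [XSum.prod_zero]
  by_cases k : e ∈ A
  exacts [Or.inl (hs.2.2.1 e k), Or.inr (hs.2.2.2 e h1 h2 k)]⟩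

theorem col_eq (h : Good P D) : Col P A = mk2 D '' ↑(TT D A ×ˢ SS D A) := by
  ext s
  constructor
  · intro hs
    have hc := col_sub hs
    rw [← XSum.img h] at hc
    obtain ⟨p, hp, rfl⟩ := hc
    exact ⟨p, mem_coe.2 ((col_iff h (mem_coe.1 hp)).1 hs), rfl⟩
  · rintro ⟨p, hp, rfl⟩
    exact (col_iff h (sub_AA (mem_coe.1 hp))).2 (mem_coe.1 hp)

theorem col_inj : Set.InjOn (mk2 D) ↑(TT D A ×ˢ SS D A) :=
  (XSum.inj D).mono (coe_subset.2 sub_AA)

theorem col_card (h : Good P D) : (Col P A).ncard = (TT D A).card * (SS D A).card := by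
  rw [col_eq h, col_inj.ncard_image, Set.ncard_coe_finset, card_product]

theorem col_sum (h : Good P D) (F : AT.Spin → ℝ) :
    ∑ᶠ s ∈ Col P A, F s = ∑ p ∈ TT D A ×ˢ SS D A, F (mk2 D p) := by
  rw [col_eq h, finsum_mem_image col_inj, finsum_mem_coe_finset]

theorem TT_pos : 0 < (TT D A).card :=
  card_pos.2 ⟨∅, mem_TT.2 ⟨empty_subset _, fun _ _ => by simp⟩⟩

theorem SS_pos : 0 < (SS D A).card :=
  card_pos.2 ⟨∅, mem_SS.2 ⟨empty_subset _, fun _ _ _ => by simp⟩⟩

theorem conf_col (h : Good P D) {s : AT.Spin} (hs : s ∈ P.Conf) :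
    ∃ A : Finset Vx, ↑A ⊆ edge P ∧ s ∈ Col P A := by
  refine ⟨(vx D).filter fun m => s.1 m.1 = s.1 (tg m), edge_eq h ▸ coe_subset.2 (filter_subset _ _),
    hs.1, hs.2.1, fun m hm => (mem_filter.1 hm).2, fun m h1 h2 hm => ?_⟩
  exact ((XSum.prod_zero _ _ _ _).1 (hs.2.2 m h1 h2)).resolve_left fun k =>
    hm (mem_filter.2 ⟨mem_vx.2 (Or.inl ((h.coe _).2 h1)), k⟩)

end Vale.Agent.P167
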