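import Vale.Agent.P167.Exact

/-! P167: counting signs on clusters and dual clusters. -/

namespace Vale.Agent.P167

open Vale.Agent.P152 Vale.Agent.P145 Finset

/-- minus sets that are unions of clusters -/
def TT (D : Finset Site) (A : Finset Vx) : Finset (Finset Site) :=
  (inn D).powerset.filter fun T => ∀ m ∈ A, (src m ∈ T ↔ tgt m ∈ T)

/-- plus sets that are unions of dual clusters -/
def SS (D : Finset Site) (A : Finset Vx) : Finset (Finset Site) :=
  D.powerset.filter fun s => ∀ m ∈ vin D, m ∉ A → (fa m ∈ s ↔ fb m ∈ s)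

/-- even subgraphs -/
def EV (D : Finset Site) (A : Finset Vx) : Finset (Finset Vx) :=
  (A ∩ vin D).powerset.filter fun η => ∀ v ∈ inn D, bdz (ind η) v % 2 = 0

/-- sign of a parity -/
def par (n : ℤ) : ℤ := if n % 2 = 0 then 1 else -1

theorem par_add (a b : ℤ) : par (a + b) = par a * par b := by
  unfold par
  split_ifs <;> omega

theorem par_sum {α : Type} (s : Finset α) (g : α → ℤ) : par (∑ a ∈ s, g a) = ∏ a ∈ s, par (g a) := by
  induction s using Finset.cons_induction with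
  | empty => rfl
  | cons a s ha ih => rw [sum_cons, prod_cons, par_add, ih]

theorem par_ite (p : Prop) [Decidable p] : par (if p then 1 else 0) = if p then -1 else 1 := by
  split_ifs <;> rfl

theorem prod_two {α : Type} (s : Finset α) (p : α → Prop) [DecidablePred p] (q : Prop)
    [Decidable q] (g : α → ℤ) (hg : ∀ a ∈ s, g a = if p a then 1 else -1) (hq : q ↔ ∀ a ∈ s, p a) :
    ∏ a ∈ s, (1 + g a) = if q then 2 ^ s.card else 0 := by
  split_ifs with h
  · rw [← prod_const]
    exact prod_congr rfl fun a ha => by rw [hg a ha, if_pos (hq.1 h a ha)]; rfl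
  · rw [hq] at h
    push Not at h
    obtain ⟨a, ha, h⟩ := h
    exact prod_eq_zero ha (by rw [hg a ha, if_neg h]; rfl)

variable {D : Finset Site}

theorem high (D : Finset Site) (A : Finset Vx) :
    2 ^ (A ∩ vin D).card * (TT D A).card = 2 ^ (inn D).card * (EV D A).card := by
  obtain ⟨χ, hχ⟩ : ∃ χ : Finset Site → Vx → ℤ, ∀ T m,
      χ T m = (if src m ∈ T then -1 else 1) * if tgt m ∈ T then -1 else 1 := ⟨_, fun _ _ => rfl⟩
  have key : ∀ (T : Finset Site) (η : Finset Vx),
      ∏ m ∈ η, χ T m = ∏ v ∈ T, par (bdz (ind η) v) := fun T η => by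
    simp only [bdz_ind, par_sum, par_add, par_ite]
    rw [prod_comm]
    exact prod_congr rfl fun m _ => by rw [prod_mul_distrib, prod_ite_eq, prod_ite_eq, hχ]
  have h1 : ∑ T ∈ (inn D).powerset, ∏ m ∈ A ∩ vin D, (1 + χ T m) =
      2 ^ (A ∩ vin D).card * ((TT D A).card : ℤ) := by
    rw [TT, mul_comm, ← nsmul_eq_mul, ← sum_const, sum_filter]
    refine sum_congr rfl fun T hT => prod_two _ (fun m => (src m ∈ T ↔ tgt m ∈ T)) _ _
      (fun m _ => ?_) ⟨fun h m hm => h m (mem_inter.1 hm).1, fun h m hm => ?_⟩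
    · rw [hχ]
      by_cases a : src m ∈ T <;> by_cases b : tgt m ∈ T <;> simp [a, b]
    · by_cases k : m ∈ vin D
      · exact h m (mem_inter.2 ⟨hm, k⟩)
      · exact iff_of_false (fun e => k (vin_of_src (mem_powerset.1 hT e)))
          fun e => k (vin_of_tgt (mem_powerset.1 hT e))
  have h2 : ∑ T ∈ (inn D).powerset, ∏ m ∈ A ∩ vin D, (1 + χ T m) =
      2 ^ (inn D).card * ((EV D A).card : ℤ) := by
    simp only [prod_one_add, key]
    rw [sum_comm, EV, mul_comm, ← nsmul_eq_mul, ← sum_const, sum_filter]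
    refine sum_congr rfl fun η _ => ?_
    rw [← prod_one_add]
    exact prod_two _ (fun v => bdz (ind η) v % 2 = 0) _ _ (fun _ _ => rfl) Iff.rfl
  exact_mod_cast h1.symm.trans h2

/-- edges across which the dual signs differ -/
def cob (D s : Finset Site) : Finset Vx := (vin D).filter fun m => ¬ (fa m ∈ s ↔ fb m ∈ s)

theorem cob_even (s : Finset Site) {v : Site} (hv : v ∈ inn D) : bdz (ind (cob D s)) v % 2 = 0 := by
  have a1 : ((v, true) : Vx) ∈ vin D := vin_of_src hv
  have a2 : ((v, false) : Vx) ∈ vin D := vin_of_src hv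
  have a3 : ((v - (1, 0), true) : Vx) ∈ vin D := vin_of_tgt (by simpa [tgt, dir] using hv)
  have a4 : ((v - (0, 1), false) : Vx) ∈ vin D := vin_of_tgt (by simpa [tgt, dir] using hv)
  have k : ∀ m ∈ vin D, ∀ f g, fa m = f → fb m = g → (ind (cob D s) m + (if f ∈ s then 1 else 0) +
      if g ∈ s then 1 else 0) % 2 = 0 := by
    rintro m hm _ _ rfl rfl
    have e : m ∈ cob D s ↔ ¬ (fa m ∈ s ↔ fb m ∈ s) := mem_filter.trans (and_iff_right hm)
    by_cases p1 : fa m ∈ s <;> by_cases p2 : fb m ∈ s <;> simp [ind, e, p1, p2]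
  have b1 := k _ a1 v (v - (0, 1)) rfl rfl
  have b2 := k _ a2 v (v - (1, 0)) rfl rfl
  have b3 := k _ a3 (v - (1, 0)) (v - (1, 0) - (0, 1)) rfl rfl
  have b4 := k _ a4 (v - (0, 1)) (v - (1, 0) - (0, 1)) rfl (sub_right_comm _ _ _)
  rw [bdz]
  omega

theorem mem_SS {A : Finset Vx} {s : Finset Site} :
    s ∈ SS D A ↔ s ⊆ D ∧ ∀ m ∈ vin D, m ∉ A → (fa m ∈ s ↔ fb m ∈ s) := by
  rw [SS, mem_filter, mem_powerset]

theorem mem_TT {A : Finset Vx} {T : Finset Site} :
    T ∈ TT D A ↔ T ⊆ inn D ∧ ∀ m ∈ A, (src m ∈ T ↔ tgt m ∈ T) := by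
  rw [TT, mem_filter, mem_powerset]

theorem sd_sub {s t : Finset Site} (hs : s ⊆ D) (ht : t ⊆ D) : symmDiff s t ⊆ D :=
  fun _ h => (mem_symmDiff.1 h).elim (fun k => hs k.1) fun k => ht k.1

theorem dual (hD : Cc D) (A : Finset Vx) : (SS D A).card = (SS D ∅).card * (EV D A).card := by
  rw [card_eq_sum_card_fiberwise (f := cob D) (t := EV D A), mul_comm, ← smul_eq_mul, ← sum_const]
  · refine sum_congr rfl fun η hη => ?_
    obtain ⟨h1, h2⟩ := mem_filter.1 hη
    rw [mem_powerset] at h1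
    obtain ⟨s0, a1, a2⟩ := exact hD η h2
    refine card_nbij' (fun s => symmDiff s s0) (fun s => symmDiff s s0) (fun s hs => ?_)
      (fun s hs => ?_) (fun s _ => symmDiff_symmDiff_cancel_right _ _)
      fun s _ => symmDiff_symmDiff_cancel_right _ _
    · obtain ⟨b1, b2⟩ := mem_filter.1 (mem_coe.1 hs)
      refine mem_coe.2 (mem_SS.2 ⟨sd_sub (mem_SS.1 b1).1 a1, fun m hm _ => ?_⟩)
      have c1 := a2 m hm
      rw [← b2, cob, mem_filter] at c1
      simp only [mem_symmDiff]
      tauto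
    · obtain ⟨b1, b2⟩ := mem_SS.1 (mem_coe.1 hs)
      have c : ∀ m ∈ vin D, (m ∈ η ↔ ¬ (fa m ∈ symmDiff s s0 ↔ fb m ∈ symmDiff s s0)) :=
        fun m hm => by
          have c1 := a2 m hm
          have c2 := b2 m hm (notMem_empty m)
          simp only [mem_symmDiff]
          tauto
      refine mem_coe.2 (mem_filter.2 ⟨mem_SS.2 ⟨sd_sub b1 a1, fun m hm k => by_contra fun k' =>
        k (mem_inter.1 (h1 ((c m hm).2 k'))).1⟩, Finset.ext fun m => ?_⟩)
      rw [cob, mem_filter]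
      exact ⟨fun k => (c m k.1).2 k.2, fun k => ⟨(mem_inter.1 (h1 k)).2,
        (c m (mem_inter.1 (h1 k)).2).1 k⟩⟩
  · intro s hs
    refine mem_coe.2 (mem_filter.2 ⟨mem_powerset.2 fun m hm => ?_, fun v hv => cob_even s hv⟩)
    obtain ⟨b1, b2⟩ := mem_filter.1 hm
    exact mem_inter.2 ⟨by_contra fun k => b2 ((mem_SS.1 (mem_coe.1 hs)).2 m b1 k), b1⟩

/-- the planar duality count -/
theorem euler (hD : Cc D) (A : Finset Vx) :
    (SS D ∅).card * (2 ^ (A ∩ vin D).card * (TT D A).card) = 2 ^ (inn D).card * (SS D A).card := by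
  rw [high, dual hD A]
  ring

end Vale.Agent.P167
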