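import Vale.Agent.P145.LLift

/-! P167: even edge sets are boundaries of sets of faces. -/

namespace Vale.Agent.P167

open Vale.Agent.P152 Vale.Agent.P145

/-- sum over the four edges at a vertex -/
def bdz (ζ : Vx → ℤ) (v : Site) : ℤ :=
  ζ (v, true) + ζ (v, false) + ζ (v - (1, 0), true) + ζ (v - (0, 1), false)

theorem bdz_add (ζ ξ : Vx → ℤ) (v : Site) : bdz (ζ + ξ) v = bdz ζ v + bdz ξ v := by
  simp only [bdz, Pi.add_apply]
  ring

theorem bdz_one (m : Vx) (u : Site) : bdz (fun m' => if m = m' then 1 else 0) u =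
    (if src m = u then 1 else 0) + if tgt m = u then 1 else 0 := by
  obtain ⟨x, b⟩ := m
  cases b <;> simp [bdz, src, tgt, dir, eq_sub_iff_add_eq] <;> congr

theorem pot (ζ : Vx → ℤ) (h : ∀ v, bdz ζ v % 2 = 0) :
    ∃ g : Site → ℤ, ∀ m, (g (fa m) + g (fb m) + ζ m) % 2 = 0 := by
  obtain ⟨A, -, hA⟩ := LLift_prim fun x => ζ ((x + 1, 0), false)
  choose B hB0 hB using fun x : ℤ => LLift_prim fun y => ζ ((x, y + 1), true)
  have hc : ∀ x y : ℤ, (ζ ((x + 1, y + 1), true) + ζ ((x + 1, y + 1), false) +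
      ζ ((x, y + 1), true) + ζ ((x + 1, y), false)) % 2 = 0 := fun x y => by
    simpa [bdz] using h (x + 1, y + 1)
  have key : ∀ x y : ℤ,
      (A (x + 1) + B (x + 1) y + (A x + B x y) + ζ ((x + 1, y), false)) % 2 = 0 := by
    intro x y
    induction y using Int.induction_on with
    | zero => rw [hA, hB0, hB0]; omega
    | succ n ih => have := hc x n; rw [hB, hB]; omega
    | pred n ih =>
      have h1 := hc x (-(n : ℤ) - 1)
      have h2 := hB x (-(n : ℤ) - 1)
      have h3 := hB (x + 1) (-(n : ℤ) - 1)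
      rw [sub_add_cancel] at h1 h2 h3
      omega
  refine ⟨fun v => A v.1 + B v.1 v.2, fun ⟨⟨x, y⟩, b⟩ => ?_⟩
  cases b
  · have := key (x - 1) y
    rw [sub_add_cancel] at this
    simpa [fa, fb, dir] using this
  · have := hB x (y - 1)
    rw [sub_add_cancel] at this
    simp only [fa, fb, dir, Bool.not_true, Bool.false_eq_true, if_false, Prod.fst_sub,
      Prod.snd_sub, sub_zero]
    omega

/-- vertices joined to infinity by edges that are not interior -/
def Ray (D : Finset Site) (v : Site) : Prop :=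
  ∃ ζ : Vx → ℤ, (∀ m ∈ vin D, ζ m = 0) ∧ ∀ u, bdz ζ u % 2 = if v = u then 1 else 0

variable {D : Finset Site}

theorem src_ne (m : Vx) : src m ≠ tgt m := by
  obtain ⟨⟨x, y⟩, b⟩ := m
  cases b <;> simp [src, tgt, dir]

theorem ray_step {m : Vx} (hm : m ∉ vin D) : Ray D (src m) ↔ Ray D (tgt m) := by
  have hn := src_ne m
  constructor <;> rintro ⟨ζ, h0, h1⟩ <;>
    refine ⟨ζ + fun m' => if m = m' then 1 else 0, fun m' h => ?_, fun u => ?_⟩
  · rw [Pi.add_apply, h0 m' h, if_neg (by rintro rfl; exact hm h), add_zero]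
  · have := h1 u
    rw [bdz_add, bdz_one]
    split_ifs at this ⊢ with a b b
    · exact absurd (a.trans b.symm) hn
    all_goals omega
  · rw [Pi.add_apply, h0 m' h, if_neg (by rintro rfl; exact hm h), add_zero]
  · have := h1 u
    rw [bdz_add, bdz_one]
    split_ifs at this ⊢ with a b b
    · exact absurd (a.trans b.symm) hn
    all_goals omega

theorem ray_cor {f v : Site} (hf : f ∉ D) (hv : v ∈ cor f) : Ray D v ↔ Ray D f := by
  have a1 := ray_step (D := D) (m := (f, true)) fun h => hf (mem_vin.1 h).1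
  have a2 := ray_step (D := D) (m := (f, false)) fun h => hf (mem_vin.1 h).1
  have a3 := ray_step (D := D) (m := (f + (1, 0), false)) fun h =>
    hf (by simpa [fb, dir] using (mem_vin.1 h).2)
  have e : f + (1, 0) + (0, 1) = f + (1, 1) := by rw [add_assoc]; rfl
  simp only [src, tgt, dir, if_true, Bool.false_eq_true, if_false, e] at a1 a2 a3
  simp only [cor, Finset.mem_insert, Finset.mem_singleton] at hv
  rcases hv with rfl | rfl | rfl | rfl <;> tauto

theorem ray_out (hD : Cc D) {v : Site} (hv : v ∉ inn D) : Ray D v := by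
  obtain ⟨x0, hx⟩ : ∃ x0 : ℤ, ∀ f ∈ D, x0 < f.1 := by
    obtain ⟨b, hb⟩ := (D.image Prod.fst).bddBelow
    exact ⟨b - 1, fun f hf => by
      have := hb (Finset.mem_coe.2 (Finset.mem_image_of_mem Prod.fst hf)); omega⟩
  have h0 : ((x0, 0) : Site) ∉ D := fun h => lt_irrefl _ (hx _ h)
  have r0 : Ray D (x0, 0) := by
    refine ⟨fun m => if m.2 = true ∧ m.1.2 = 0 ∧ m.1.1 < x0 then 1 else 0,
      fun m hm => if_neg fun k => ?_, fun ⟨x, y⟩ => ?_⟩
    · have := hx _ (mem_vin.1 hm).1
      simp only [fa] at this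
      omega
    · simp only [bdz, true_and, Bool.false_eq_true, false_and, if_false, Prod.fst_sub,
        Prod.snd_sub, sub_zero, Prod.mk.injEq]
      split_ifs <;> omega
  rw [mem_inn_cor] at hv
  push Not at hv
  obtain ⟨f, c1, c2⟩ := hv
  rw [ray_cor c2 c1]
  refine Lk.ind (P := fun f => Ray D f) (hD _ h0 f c2) r0 fun m a b ha hs hb ih => ?_
  rw [← ray_cor hb (hs.cor (end_src m)).2, ray_cor ha.mem (hs.cor (end_src m)).1]
  exact ih

theorem ray_set (O : Finset Site) (h : ∀ v ∈ O, Ray D v) :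
    ∃ ζ : Vx → ℤ, (∀ m ∈ vin D, ζ m = 0) ∧ ∀ u, bdz ζ u % 2 = if u ∈ O then 1 else 0 := by
  induction O using Finset.induction_on with
  | empty => exact ⟨0, fun _ _ => rfl, fun u => by simp [bdz]⟩
  | insert v O hv ih =>
    obtain ⟨ζ, a1, a2⟩ := ih fun w hw => h w (Finset.mem_insert_of_mem hw)
    obtain ⟨ξ, b1, b2⟩ := h v (Finset.mem_insert_self _ _)
    refine ⟨ζ + ξ, fun m hm => by rw [Pi.add_apply, a1 m hm, b1 m hm, add_zero], fun u => ?_⟩
    have c1 := a2 u
    have c2 := b2 u
    rw [bdz_add]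
    by_cases e : v = u
    · subst e
      rw [if_neg hv] at c1
      rw [if_pos rfl] at c2
      rw [if_pos (Finset.mem_insert_self _ _)]
      omega
    · rw [if_neg e] at c2
      simp only [Finset.mem_insert, Ne.symm e, false_or]
      omega

/-- indicator of a set of edges -/
def ind (η : Finset Vx) (m : Vx) : ℤ := if m ∈ η then 1 else 0

theorem bdz_ind (η : Finset Vx) (u : Site) : bdz (ind η) u =
    ∑ m ∈ η, ((if src m = u then 1 else 0) + if tgt m = u then 1 else 0) := by
  have e : ∀ m', ind η m' = ∑ m ∈ η, if m = m' then 1 else 0 := fun m' => by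
    rw [Finset.sum_ite_eq']; rfl
  simp only [← bdz_one, bdz, e, Finset.sum_add_distrib]

theorem exact (hD : Cc D) (η : Finset Vx) (h : ∀ v ∈ inn D, bdz (ind η) v % 2 = 0) :
    ∃ s ⊆ D, ∀ m ∈ vin D, (m ∈ η ↔ ¬ (fa m ∈ s ↔ fb m ∈ s)) := by
  obtain ⟨ζ, a1, a2⟩ := ray_set (D := D)
    ((η.image src ∪ η.image tgt).filter fun v => bdz (ind η) v % 2 = 1) fun v hv =>
      ray_out hD fun k => by
        have h1 := (Finset.mem_filter.1 hv).2
        have h2 := h v k
        omega
  obtain ⟨g, hg⟩ := pot (ind η + ζ) fun v => by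
    have h1 := a2 v
    rw [bdz_add]
    split_ifs at h1 with k
    · have h2 := (Finset.mem_filter.1 k).2
      omega
    · by_contra h2
      refine k (Finset.mem_filter.2 ⟨by_contra fun h3 => ?_, by omega⟩)
      rw [Finset.mem_union, not_or] at h3
      rw [bdz_ind, Finset.sum_eq_zero fun m hm => ?_] at h2
      · omega
      · rw [if_neg fun e => h3.1 (Finset.mem_image.2 ⟨m, hm, e⟩),
          if_neg fun e => h3.2 (Finset.mem_image.2 ⟨m, hm, e⟩), add_zero]
  refine ⟨D.filter fun f => g f % 2 = 0, Finset.filter_subset _ _, fun m hm => ?_⟩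
  have h1 := hg m
  rw [Pi.add_apply, a1 m hm, ind] at h1
  simp only [Finset.mem_filter, (mem_vin.1 hm).1, (mem_vin.1 hm).2, true_and]
  split_ifs at h1 with k <;> simp only [k, true_iff, false_iff, not_not] <;> omega

end Vale.Agent.P167
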