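import Vale.Agent.P167.PcStm3

/-! P167, percolation: factorization over the orbits. -/

open Finset
open scoped Classical

namespace Vale.Agent.P167.Pc

open Vale.Agent.P152

namespace Abs

theorem cos_sum {K : Type} [Fintype K] [DecidableEq K] (A : K → ℝ) :
    ∑ η : K → Bool, Complex.exp (Complex.I * (∑ q, sg (η q) * A q : ℝ)) =
      (∏ q, 2 * Real.cos (A q) : ℝ) := by
  have e : ∀ η : K → Bool, Complex.exp (Complex.I * (∑ q, sg (η q) * A q : ℝ)) =
      ∏ q, Complex.exp (Complex.I * (sg (η q) * A q : ℝ)) := fun η => by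
    rw [← Complex.exp_sum, ← mul_sum, Complex.ofReal_sum]
  simp only [e]
  rw [← Fintype.piFinset_univ, ← prod_univ_sum (fun _ : K => (univ : Finset Bool))
    fun q b => Complex.exp (Complex.I * (sg b * A q : ℝ)), Complex.ofReal_prod]
  refine prod_congr rfl fun q _ => ?_
  rw [Fintype.sum_bool]
  push_cast
  rw [Complex.two_cos]
  simp [sg, mul_comm]

theorem core {Q : Type} [Fintype Q] (c : Q → Prop) (B : (Q → Bool) → Prop) (h1 : B fun _ => true)
    (h2 : ∀ η η', (∀ q, ¬c q → η q = η' q) → B η → B η') :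
    ∃ T : ℕ, 1 ≤ T ∧ T ≤ 2 ^ (univ.filter fun q => ¬c q).card ∧ ∀ A : Q → ℝ, ∃ z : ℂ, ‖z‖ ≤ T ∧
      ((∀ q, ¬c q → A q = 0) → z = T) ∧
      (∑ η : Q → Bool, if B η then Complex.exp (Complex.I * (∑ q, sg (η q) * A q : ℝ)) else 0) =
        (∏ q ∈ univ.filter c, 2 * Real.cos (A q) : ℝ) * z := by
  obtain ⟨φ, p1, p2⟩ : ∃ φ : ({q // c q} → Bool) × ({q // ¬c q} → Bool) ≃ (Q → Bool),
      (∀ η (q : {q // c q}), φ η q = η.1 q) ∧ ∀ η (q : {q // ¬c q}), φ η q = η.2 q :=
    ⟨(Equiv.piEquivPiSubtypeProd c fun _ => Bool).symm, fun η q => by simp [q.2],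
      fun η q => by simp [q.2]⟩
  obtain ⟨S, hS⟩ : ∃ S : Finset ({q // ¬c q} → Bool), ∀ η, B (φ η) ↔ η.2 ∈ S := by
    refine ⟨univ.filter fun η => B (φ (fun _ => true, η)), fun η => ?_⟩
    rw [mem_filter_univ]
    exact ⟨h2 _ _ fun q hq => (p2 _ ⟨q, hq⟩).trans (p2 (fun _ => true, η.2) ⟨q, hq⟩).symm,
      h2 _ _ fun q hq => (p2 _ ⟨q, hq⟩).trans (p2 η ⟨q, hq⟩).symm⟩
  refine ⟨S.card, card_pos.2 ⟨_, (hS (φ.symm fun _ => true)).1 (by simpa using h1)⟩, ?_, fun A =>
    ⟨∑ η ∈ S, Complex.exp (Complex.I * (∑ q : {q // ¬c q}, sg (η q) * A q : ℝ)), ?_, fun h => ?_,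
      ?_⟩⟩
  · refine (card_le_univ S).trans (le_of_eq ?_)
    rw [Fintype.card_fun, Fintype.card_bool, Fintype.card_subtype]
  · refine (norm_sum_le _ _).trans (le_of_eq ?_)
    simp only [Complex.norm_exp_I_mul_ofReal, sum_const, nsmul_eq_mul, mul_one]
  · have e : ∀ η : {q // ¬c q} → Bool, ∑ q : {q // ¬c q}, sg (η q) * A q = 0 := fun η =>
      sum_eq_zero fun q _ => by rw [h q q.2, mul_zero]
    simp [e]
  · have e : ∏ q ∈ univ.filter c, 2 * Real.cos (A q) = ∏ q : {q // c q}, 2 * Real.cos (A q) :=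
      prod_subtype (univ.filter c) (fun q => mem_filter_univ q) _
    have e' := cos_sum fun q : {q // c q} => A q
    rw [← φ.sum_comp, Fintype.sum_prod_type, e, ← e', sum_mul]
    refine sum_congr rfl fun η _ => ?_
    simp only [hS]
    rw [sum_ite_mem, univ_inter, mul_sum]
    refine sum_congr rfl fun η' _ => ?_
    rw [← Complex.exp_add, ← mul_add, ← Complex.ofReal_add,
      ← Fintype.sum_subtype_add_sum_subtype c]
    simp only [p1, p2]

theorem inv_cls {E X : Type} {g : E → E} {f : E → X} (h : ∀ e, f (g e) = f e) {e e' : E}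
    (k : Cls g e e') : f e = f e' := by
  have i : ∀ (n : ℕ) x, f (g^[n] x) = f x := fun n x => by
    induction n with
    | zero => rfl
    | succ n ih => rw [Function.iterate_succ_apply', h, ih]
  obtain ⟨a, b, k⟩ := k
  rw [← i a e, k, i]

end Abs

open Abs in
theorem s_abs (h : S_bas1) : S_abs := by
  intro E _ g c B hc h1 h2
  obtain ⟨he, hg⟩ := h.2.1 E g
  obtain ⟨Q, _, mk, out, m1, m2⟩ : ∃ (Q : Type) (_ : Fintype Q) (mk : E → Q) (out : Q → E),
      (∀ q, mk (out q) = q) ∧ ∀ e e', mk e = mk e' ↔ Cls g e e' :=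
    ⟨Quotient ⟨_, he⟩, Fintype.ofFinite _, Quotient.mk _, Quotient.out, Quotient.out_eq,
      fun _ _ => Quotient.eq⟩
  have m3 : ∀ e, Cls g (out (mk e)) e := fun e => (m2 _ _).1 (m1 _)
  have m4 : ∀ e, c (out (mk e)) ↔ c e := fun e =>
    iff_of_eq (inv_cls (f := c) (fun e => propext (hc e)) (m3 e))
  have m5 : ∀ (η : Q → Bool) e, η (mk (g e)) = η (mk e) := fun η e => by
    rw [(m2 _ _).2 (hg e)]
  have m6 : ∀ q e, Cls g (out q) e ↔ mk e = q := fun q e => by
    rw [← m2, m1, eq_comm]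
  obtain ⟨T, t1, t2, t3⟩ := core (fun q => c (out q)) (fun η => B fun e => η (mk e)) h1
    fun η η' k => h2 _ _ (m5 η) (m5 η') fun e k' => k _ (mt (m4 e).1 k')
  refine ⟨T, t1, t2.trans (Nat.pow_le_pow_right two_pos ?_), fun a => ?_⟩
  · refine card_le_card_of_injOn (fun q => {e' | Cls g (out q) e'}) (fun q hq => ?_)
      fun q _ q' _ k => ?_
    · exact mem_coe.2 (mem_image_of_mem _ ((mem_filter_univ _).2 (mem_filter.1 (mem_coe.1 hq)).2))
    · have k' : out q ∈ {e' | Cls g (out q') e'} := by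
        have k2 : {e' | Cls g (out q) e'} = {e' | Cls g (out q') e'} := k
        rw [← k2]
        exact he.refl _
      rw [← (m6 _ _).1 k', m1]
  obtain ⟨z, z1, z2, z3⟩ := t3 fun q => ∑ e ∈ univ.filter (Cls g (out q)), a e
  refine ⟨z, z1, fun k => z2 fun q hq => k _ hq, ?_⟩
  have e1 : ∏ q ∈ univ.filter fun q => c (out q),
      2 * Real.cos (∑ e ∈ univ.filter (Cls g (out q)), a e) =
      ∏ l ∈ (univ.filter c).image fun e => univ.filter (Cls g e), 2 * Real.cos (∑ e ∈ l, a e) := by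
    refine prod_nbij (fun q => univ.filter (Cls g (out q))) (fun q hq => ?_) (fun q _ q' _ k => ?_)
      (fun l hl => ?_) fun _ _ => rfl
    · exact mem_image_of_mem _ ((mem_filter_univ _).2 (mem_filter.1 hq).2)
    · have k' : out q ∈ univ.filter (Cls g (out q')) := by
        have k2 : univ.filter (Cls g (out q)) = univ.filter (Cls g (out q')) := k
        rw [← k2]
        exact (mem_filter_univ _).2 (he.refl _)
      rw [← (m6 _ _).1 ((mem_filter_univ _).1 k'), m1]
    · obtain ⟨e, k, rfl⟩ := mem_image.1 (mem_coe.1 hl)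
      refine ⟨mk e, mem_coe.2 ((mem_filter_univ _).2 ((m4 e).2 ((mem_filter_univ _).1 k))), ?_⟩
      exact filter_congr fun e' _ => ⟨he.trans (he.symm (m3 e)), he.trans (m3 e)⟩
  rw [← e1, ← z3]
  symm
  refine sum_of_injOn (fun (η : Q → Bool) e => η (mk e)) (fun η _ η' _ k => funext fun q => ?_)
    (fun _ _ => mem_coe.2 (mem_univ _)) (fun ε _ k => if_neg fun k' => k ?_) fun η _ => ?_
  · simpa only [m1] using congrFun k (out q)
  · exact ⟨fun q => ε (out q), mem_coe.2 (mem_univ _), funext fun e => inv_cls k'.1 (m3 e)⟩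
  · have e2 : ∑ q, sg (η q) * ∑ e ∈ univ.filter (Cls g (out q)), a e =
        ∑ e, sg (η (mk e)) * a e := by
      rw [← sum_fiberwise univ mk]
      refine sum_congr rfl fun q _ => ?_
      rw [mul_sum]
      exact sum_congr (filter_congr fun e _ => m6 q e) fun e k => by
        rw [(mem_filter_univ _).1 k]
    simp only [m5, implies_true, true_and, e2]

end Vale.Agent.P167.Pc
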