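import Vale.Agent.P167.PcStm2

/-! P167, percolation: long loops are rare. -/

open MeasureTheory Filter Topology

namespace Vale.Agent.P167.Pc

open Vale.Agent.P152

namespace Arm

instance prob : IsProbabilityMeasure perc := by
  unfold perc
  infer_instance

theorem int (hi : S_int) {G : Bond → ℝ} (h : Loc G) : Measurable G ∧ Integrable G perc := by
  obtain ⟨S, hS⟩ := h
  obtain ⟨h1, ⟨b, hb⟩, -⟩ := hi S G hS
  exact ⟨h1, .of_bound h1.aestronglyMeasurable b (Eventually.of_forall hb)⟩

theorem le_one (p : Prop) : 0 ≤ 1 - chi p := by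
  unfold chi
  split_ifs <;> norm_num

theorem one (hn : S_nop) (hb : S_bad) (hv : S_inv) (hg : S_gl) (hi : S_int) (e : Edge) :
    Tendsto (fun N => ∫ ω, (1 - chi (Good {e} N ω)) ∂perc) atTop (𝓝 0) := by
  obtain ⟨x, C, hx⟩ := hb e
  have hm : MeasurePreserving om perc perc :=
    hv (fun v => (v.1 - v.2, v.1 + v.2 - 1)) true fun u v h => by
      simp only [Prod.ext_iff] at h ⊢
      omega
  refine squeeze_zero' (Eventually.of_forall fun N => integral_nonneg fun ω => le_one _) ?_
    ((hn x).comp (tendsto_sub_atTop_nat C))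
  filter_upwards [eventually_ge_atTop C] with N hN
  obtain ⟨m1, m2⟩ := int hi (hg {e} 0 N).1
  obtain ⟨S, hS⟩ := arm_loc nn_sd true x (N - C)
  have hl : Loc fun s => ind (Arm NNa true x (N - C)) (col s) :=
    ⟨S, fun s s' h => hS _ _ fun y hy => by simp only [col, h y hy]⟩
  have k := integral_map (μ := perc) (f := fun ω => 1 - chi (Good {e} N ω))
    hm.measurable.aemeasurable (m1.const_sub 1).aestronglyMeasurable
  rw [hm.map_eq] at k
  rw [k]
  refine integral_mono (hm.integrable_comp_of_integrable ((integrable_const 1).sub m2))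
    (int hi hl).2 fun s => ?_
  simp only [chi, ind]
  by_cases h : Good {e} N (om s)
  · rw [if_pos h]
    split_ifs <;> norm_num
  · rw [if_neg h, if_pos (hx s (N - C) (by rwa [Nat.sub_add_cancel hN])), sub_zero]

end Arm

theorem s_arm (hn : S_nop) (hb : S_bad) (hv : S_inv) (hg : S_gl) (hi : S_int) : S_arm := by
  intro W
  have h1 := tendsto_finsetSum W fun e _ => Arm.one hn hb hv hg hi e
  rw [Finset.sum_const_zero] at h1
  have h2 : Tendsto (fun N => ∫ ω, (1 - chi (Good W N ω)) ∂perc) atTop (𝓝 0) := by
    refine squeeze_zero (fun N => integral_nonneg fun ω => Arm.le_one _) (fun N => ?_) h1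
    have i1 : ∀ e : Edge, Integrable (fun ω => 1 - chi (Good {e} N ω)) perc :=
      fun e => (integrable_const (1 : ℝ)).sub (Arm.int hi (hg {e} 0 N).1).2
    rw [← integral_finsetSum _ fun e _ => i1 e]
    refine integral_mono ((integrable_const 1).sub (Arm.int hi (hg W 0 N).1).2)
      (integrable_finsetSum _ fun e _ => i1 e) fun ω => ?_
    by_cases h : Good W N ω
    · simp only [show chi (Good W N ω) = 1 from if_pos h, sub_self]
      exact Finset.sum_nonneg fun e _ => Arm.le_one _
    · obtain ⟨e, he, hk⟩ : ∃ e ∈ W, ¬Good {e} N ω := by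
        by_contra hc
        exact h fun e he => (by_contra fun k => hc ⟨e, he, k⟩ : Good {e} N ω) e
          (Finset.mem_singleton_self e)
      refine le_trans ?_ (Finset.single_le_sum (fun e _ => Arm.le_one (Good {e} N ω)) he)
      simp only [chi, if_neg h, if_neg hk, le_refl]
  have h3 := h2.const_sub 1
  rw [sub_zero] at h3
  refine h3.congr fun N => ?_
  rw [integral_sub (integrable_const 1) (Arm.int hi (hg W 0 N).1).2]
  simp

end Vale.Agent.P167.Pc
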