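import Vale.Agent.P167.PcStm2

/-! P167, percolation: a long loop gives a long arm. -/

namespace Vale.Agent.P167.Pc

open Vale.Agent.P152

namespace Bad

/-- the odd face along the edge -/
def rt (e : Edge) : Site :=
  if (e.1.1 + e.1.2) % 2 = 0 then (if e.2 then e.1 - (0, 1) else e.1 - (1, 0)) else e.1

def st (f : Site) : Site := (f.1 - f.2, f.1 + f.2)

def bs (v : Site) : Site := (v.1 - v.2, v.1 + v.2 - 1)

theorem rt_spec (e : Edge) : ((rt e).1 + (rt e).2) % 2 = 1 ∧ e.1.1 - 1 ≤ (rt e).1 ∧
    (rt e).1 ≤ e.1.1 ∧ e.1.2 - 1 ≤ (rt e).2 ∧ (rt e).2 ≤ e.1.2 := by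
  unfold rt
  split_ifs <;> (try simp only [Prod.fst_sub, Prod.snd_sub]) <;> omega

theorem col_st (s : Bond) (e : Edge) : col s (st (rt e)) = true := by
  have := (rt_spec e).1
  rw [col, if_pos]
  simp only [st, Int.odd_iff]
  omega

theorem col_bs (s : Bond) (v : Site) : col s (bs v) = s (bs v) := by
  rw [col, if_neg, if_neg] <;> simp only [bs, Int.odd_iff, Int.even_iff] <;> omega

theorem geo (ω : Bond) (e : Edge) : (ω (hd pz e) = true → rt (nx pz ω e) = rt e) ∧
    (ω (hd pz e) = false →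
      NNa (st (rt e)) (bs (hd pz e)) ∧ NNa (bs (hd pz e)) (st (rt (nx pz ω e)))) := by
  obtain ⟨⟨a, b⟩, d⟩ := e
  refine ⟨fun k => ?_, fun k => ?_⟩ <;> unfold nx <;> rw [k] <;> cases d <;>
    by_cases h : (a + b) % 2 = 0 <;>
    simp only [hd, rf, pz, Int.even_iff, h, rt, NNa, st, bs, decide_true, decide_false,
      beq_self_eq_true, if_true, if_false, Bool.false_eq_true, Bool.true_eq_false,
      Bool.false_beq, Bool.true_beq, Bool.not_true, Prod.mk_add_mk, Prod.mk_sub_mk] <;>
    (try split_ifs) <;> simp only [Prod.mk.injEq, and_true] <;> omega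

theorem step (s : Bond) (e : Edge) : Relation.ReflTransGen (Stp NNa (col s) true) (st (rt e))
    (st (rt (nx pz (om s) e))) := by
  obtain ⟨h1, h2⟩ := geo (om s) e
  cases k : om s (hd pz e)
  · have c : col s (bs (hd pz e)) = true := by
      rw [col_bs]
      simpa [om, bs] using k
    exact (Relation.ReflTransGen.single ⟨(h2 k).1, col_st s _, c⟩).tail ⟨(h2 k).2, c, col_st s _⟩
  · rw [h1 k]

theorem iter (s : Bond) (e : Edge) (k : ℕ) : Relation.ReflTransGen (Stp NNa (col s) true)
    (st (rt e)) (st (rt ((nx pz (om s))^[k] e))) := by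
  induction k with
  | zero => exact Relation.ReflTransGen.refl
  | succ k ih =>
    rw [Function.iterate_succ_apply']
    exact ih.trans (step s _)

end Bad

open Bad in
theorem s_bad : S_bad := by
  intro e
  refine ⟨st (rt e), (|(st (rt e)).1| + |(st (rt e)).2| + 2).toNat, fun s R h => ?_⟩
  simp only [Good, Finset.mem_singleton, forall_eq, not_forall] at h
  obtain ⟨k, hk⟩ := h
  refine ⟨col_st s e, _, ?_, iter s e k⟩
  have := rt_spec ((nx pz (om s))^[k] e)
  generalize (nx pz (om s))^[k] e = e' at hk this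
  generalize st (rt e) = x at hk
  simp only [sd, st, abs_eq_max_neg] at hk ⊢
  omega

end Vale.Agent.P167.Pc
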