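import Vale.Agent.P167.PcStm3

/-! P167, percolation: no flux of a contractible loop through a column. -/

open Finset

namespace Vale.Agent.P167.Pc

open Vale.Agent.P152

theorem s_balA (hb : S_bas) (hp : S_per) (hA : S_torA) (hf : S_flux) : S_balA := by
  classical
  rintro M L _ _ hM hL ω _ x ⟨e, rfl, fin⟩
  obtain ⟨b1, b2, b3, b4, -, b6⟩ := hb
  have el : loop (lf M L ω) e = {e' | Cls (nx pz (lf M L ω)) e e'} := Set.ext fun e' => b4 _ e e'
  obtain ⟨n, n1, n2, n3, -⟩ := hp _ (nx pz (lf M L ω)) e (b1 _ _ pz _ b3).1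
    (fin.subset fun e' ⟨k, hk⟩ => (b4 _ e e').2 ⟨k, 0, hk⟩)
  have bj := (hA M L hM hL ω).2 e fin
  rw [el, n3] at bj
  have b := bj.comp n2.bijOn_image
  rw [← hf (lf M L ω) e (n + 1) {i | (i : ZMod M) = x} n1]
  symm
  refine sum_nbij (pe M L ∘ fun k => (nx pz (lf M L ω))^[k] e) (fun k hk => ?_) ?_ ?_
    fun k _ => ?_
  · exact mem_filter.2 ⟨mem_univ _, b.mapsTo (Nat.lt_succ_iff.1 (mem_range.1 hk))⟩
  · exact b.injOn.mono fun k hk => Nat.lt_succ_iff.1 (mem_range.1 hk)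
  · intro e' h
    obtain ⟨k, k1, k2⟩ := b.surjOn (mem_filter.1 h).2
    exact ⟨k, mem_range.2 (Nat.lt_succ_iff.2 k1), k2⟩
  · rw [Function.comp_apply, (((b6 M L hM hL).2.2 ω) _).1]
    rfl

end Vale.Agent.P167.Pc
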