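import Vale.Agent.P167.PcStm3

/-! P167: the successor map is a bijection, orbits, the checkerboard. -/

namespace Vale.Agent.P167.Pc

open Vale.Agent.P152

namespace Bas1

variable {A B : Type} [Ring A] [Ring B]

/-- tail of an edge in the reference orientation -/
def tl (par : A × B → Bool) (e : (A × B) × Bool) : A × B :=
  if rf par e then e.1 else e.1 + (if e.2 then (1, 0) else (0, 1))

/-- previous edge of the loop -/
def pr (par ω : A × B → Bool) (e : (A × B) × Bool) : (A × B) × Bool :=
  if e.2 then (if rf par e = ω (tl par e) then (tl par e - (0, 1), false) else (tl par e, false))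
  else (if rf par e = ω (tl par e) then (tl par e, true) else (tl par e - (1, 0), true))

theorem bij (par ω : A × B → Bool) (h : Chk par) : Function.Bijective (nx par ω) := by
  have h1 : ∀ x, par (x + (1, 0)) = !par x := fun x => (h x).1
  have h2 : ∀ x, par (x + (0, 1)) = !par x := fun x => (h x).2
  have h3 : ∀ x, par (x - (1, 0)) = !par x := fun x => by
    have := h1 (x - (1, 0))
    rw [sub_add_cancel] at this
    rw [this, Bool.not_not]
  have h4 : ∀ x, par (x - (0, 1)) = !par x := fun x => by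
    have := h2 (x - (0, 1))
    rw [sub_add_cancel] at this
    rw [this, Bool.not_not]
  refine Function.bijective_iff_has_inverse.2 ⟨pr par ω, ?_, ?_⟩
  · rintro ⟨x, _ | _⟩ <;> cases hp : par x <;> cases hw : ω x <;> cases hw1 : ω (x + (1, 0)) <;>
      cases hw2 : ω (x + (0, 1)) <;>
      simp [nx, pr, rf, hd, tl, hp, hw, hw1, hw2, h1, h2, h3, h4]
  · rintro ⟨x, _ | _⟩ <;> cases hp : par x <;> cases hw : ω x <;> cases hw1 : ω (x + (1, 0)) <;>
      cases hw2 : ω (x + (0, 1)) <;>
      simp [nx, pr, rf, hd, tl, hp, hw, hw1, hw2, h1, h2, h3, h4]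

theorem eqv (E : Type) (g : E → E) : Equivalence (Cls g) := by
  refine ⟨fun e => ⟨0, 0, rfl⟩, fun ⟨a, b, h⟩ => ⟨b, a, h.symm⟩, ?_⟩
  rintro x y z ⟨a, b, h⟩ ⟨c, d, k⟩
  refine ⟨c + a, b + d, ?_⟩
  rw [Function.iterate_add_apply, h, ← Function.iterate_add_apply, add_comm,
    Function.iterate_add_apply, k, ← Function.iterate_add_apply]

theorem chk : Chk pz := fun x => by
  have e1 : (x + (1, 0)).1 + (x + (1, 0)).2 = x.1 + x.2 + 1 := by
    simp only [Prod.fst_add, Prod.snd_add]; ring
  have e2 : (x + (0, 1)).1 + (x + (0, 1)).2 = x.1 + x.2 + 1 := by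
    simp only [Prod.fst_add, Prod.snd_add]; ring
  simp only [pz, e1, e2, Int.even_add_one, decide_not, and_self]

end Bas1

theorem s_bas1 : S_bas1 :=
  ⟨fun _ _ _ _ par ω h => Bas1.bij par ω h, fun E g => ⟨Bas1.eqv E g, fun _ => ⟨1, 0, rfl⟩⟩,
    Bas1.chk⟩

end Vale.Agent.P167.Pc
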