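import Vale.Agent.P167.PcStm3

namespace Vale.Agent.P167.Pc

open Vale.Agent.P152

namespace Bas2

variable (ω : Bond) (x y : ℤ)

theorem te (h : (x + y) % 2 = 0) : nx pz ω ((x, y), true) =
    if ω (x + 1, y) = true then ((x + 1, y - 1), false) else ((x + 1, y), false) := by
  have : pz (x, y) = true := by simp only [pz, Int.even_iff, decide_eq_true_eq]; exact h
  cases hω : ω (x + 1, y) <;> simp [nx, hd, rf, this, hω]

theorem td (h : (x + y) % 2 = 1) : nx pz ω ((x, y), true) =
    if ω (x, y) = true then ((x, y), false) else ((x, y - 1), false) := by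
  have : pz (x, y) = false := by
    simp only [pz, Int.even_iff, decide_eq_false_iff_not]; omega
  cases hω : ω (x, y) <;> simp [nx, hd, rf, this, hω]

theorem fe (h : (x + y) % 2 = 0) : nx pz ω ((x, y), false) =
    if ω (x, y) = true then ((x - 1, y), true) else ((x, y), true) := by
  have : pz (x, y) = true := by simp only [pz, Int.even_iff, decide_eq_true_eq]; exact h
  cases hω : ω (x, y) <;> simp [nx, hd, rf, this, hω]

theorem fd (h : (x + y) % 2 = 1) : nx pz ω ((x, y), false) =
    if ω (x, y + 1) = true then ((x, y + 1), true) else ((x - 1, y + 1), true) := by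
  have : pz (x, y) = false := by
    simp only [pz, Int.even_iff, decide_eq_false_iff_not]; omega
  cases hω : ω (x, y + 1) <;> simp [nx, hd, rf, this, hω]

theorem arc_nx (e e' : Edge) (h : Arc ω e e') : nx pz ω e = e' ∨ nx pz ω e' = e := by
  obtain ⟨⟨x, y⟩, i, j, hi, hj, rfl, rfl, h⟩ := h
  simp only [Prod.mk_add_mk, Int.odd_iff] at h ⊢
  rcases Int.emod_two_eq_zero_or_one (x + y) with hp | hp
  · have hω : ¬ ω (x + i, y + j) = true := fun h' => by have := h.1 h'; omega
    rcases hi with rfl | rfl <;> rcases hj with rfl | rfl <;> simp only [add_zero] at hω ⊢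
    · right; rw [fe ω x y hp, if_neg hω]
    · left; rw [td ω x (y + 1) (by omega), if_neg hω, add_sub_cancel_right]
    · left; rw [te ω x y hp, if_neg hω]
    · right; rw [fd ω (x + 1) y (by omega), if_neg hω, add_sub_cancel_right]
  · have hω : ω (x + i, y + j) = true := h.2 hp
    rcases hi with rfl | rfl <;> rcases hj with rfl | rfl <;> simp only [add_zero] at hω ⊢
    · left; rw [td ω x y hp, if_pos hω]
    · right; rw [fd ω x y hp, if_pos hω]
    · right; rw [fe ω (x + 1) y (by omega), if_pos hω, add_sub_cancel_right]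
    · left; rw [te ω x (y + 1) (by omega), if_pos hω, add_sub_cancel_right]

theorem mk (a b i j : ℤ) (hi : i = 0 ∨ i = 1) (hj : j = 0 ∨ j = 1) {u v u' v' c d : ℤ}
    (h1 : u = a) (h2 : v = b + j) (h3 : u' = a + i) (h4 : v' = b) (h5 : c = a + i)
    (h6 : d = b + j) (h : ω (c, d) = true ↔ (a + b) % 2 = 1) :
    Arc ω ((u, v), true) ((u', v'), false) := by
  subst h1 h2 h3 h4 h5 h6
  exact ⟨(u, v'), i, j, hi, hj, by simp, by simp, by simpa [Int.odd_iff] using h⟩

theorem nx_arc (e : Edge) : Arc ω e (nx pz ω e) ∨ Arc ω (nx pz ω e) e := by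
  obtain ⟨⟨x, y⟩, b⟩ := e
  rcases Int.emod_two_eq_zero_or_one (x + y) with hp | hp <;> cases b
  · right
    rw [fe ω x y hp]
    split_ifs with hω
    · exact mk ω (x - 1) y 1 0 (by simp) (by simp) rfl (by ring) (by ring) rfl (c := x) (d := y)
        (by ring) (by ring) (iff_of_true hω (by omega))
    · exact mk ω x y 0 0 (by simp) (by simp) rfl (by ring) (by ring) rfl (c := x) (d := y)
        (by ring) (by ring) (iff_of_false hω (by omega))
  · left
    rw [te ω x y hp]
    split_ifs with hω
    · exact mk ω x (y - 1) 1 1 (by simp) (by simp) rfl (by ring) (by ring) rfl (c := x + 1)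
        (d := y) (by ring) (by ring) (iff_of_true hω (by omega))
    · exact mk ω x y 1 0 (by simp) (by simp) rfl (by ring) (by ring) rfl (c := x + 1) (d := y)
        (by ring) (by ring) (iff_of_false hω (by omega))
  · right
    rw [fd ω x y hp]
    split_ifs with hω
    · exact mk ω x y 0 1 (by simp) (by simp) rfl (by ring) (by ring) rfl (c := x) (d := y + 1)
        (by ring) (by ring) (iff_of_true hω (by omega))
    · exact mk ω (x - 1) y 1 1 (by simp) (by simp) rfl (by ring) (by ring) rfl (c := x)
        (d := y + 1) (by ring) (by ring) (iff_of_false hω (by omega))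
  · left
    rw [td ω x y hp]
    split_ifs with hω
    · exact mk ω x y 0 0 (by simp) (by simp) rfl (by ring) (by ring) rfl (c := x) (d := y)
        (by ring) (by ring) (iff_of_true hω (by omega))
    · exact mk ω x (y - 1) 0 1 (by simp) (by simp) rfl (by ring) (by ring) rfl (c := x) (d := y)
        (by ring) (by ring) (iff_of_false hω (by omega))

theorem iter (e : Edge) (a : ℕ) : Relation.EqvGen (Arc ω) e ((nx pz ω)^[a] e) := by
  induction a with
  | zero => exact Relation.EqvGen.refl _
  | succ a ih =>
    rw [Function.iterate_succ_apply']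
    refine Relation.EqvGen.trans _ _ _ ih ?_
    rcases nx_arc ω ((nx pz ω)^[a] e) with h | h
    · exact Relation.EqvGen.rel _ _ h
    · exact Relation.EqvGen.symm _ _ (Relation.EqvGen.rel _ _ h)

end Bas2

theorem s_bas2 (h : S_bas1) : S_bas2 := by
  intro ω e e'
  obtain ⟨hq, hg⟩ := h.2.1 Edge (nx pz ω)
  constructor
  · intro he
    change Relation.EqvGen (Arc ω) e e' at he
    induction he with
    | rel a b hab =>
      rcases Bas2.arc_nx ω a b hab with rfl | rfl
      · exact hg _
      · exact hq.symm (hg _)
    | refl a => exact hq.refl a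
    | symm a b _ ih => exact hq.symm ih
    | trans a b c _ _ ih1 ih2 => exact hq.trans ih1 ih2
  · rintro ⟨a, b, hab⟩
    have h1 := Bas2.iter ω e a
    rw [hab] at h1
    exact Relation.EqvGen.trans _ _ _ h1 (Relation.EqvGen.symm _ _ (Bas2.iter ω e' b))

end Vale.Agent.P167.Pc
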