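import Vale.Agent.P167.PcStm3

/-! P167, percolation: translations and projections to the torus. -/

namespace Vale.Agent.P167.Pc

open Vale.Agent.P152

namespace Bas3

theorem pz_add (x t : ℤ × ℤ) (h : Even (t.1 + t.2)) : pz (x + t) = pz x := by
  unfold pz
  rw [decide_eq_decide, Prod.fst_add, Prod.snd_add, Int.even_iff, Int.even_iff]
  rw [Int.even_iff] at h
  omega

theorem chk : Chk pz := fun x => by
  unfold pz
  rw [← decide_not, decide_eq_decide, decide_eq_decide, Int.even_iff, Int.even_iff, Int.even_iff]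
  simp only [Prod.fst_add, Prod.snd_add]
  omega

theorem val_par (M : ℕ) [NeZero M] (h : Even M) (x : ℤ) :
    (((x : ZMod M).val : ℕ) : ℤ) % 2 = x % 2 := by
  obtain ⟨k, hk⟩ := h
  rw [ZMod.val_intCast]
  exact Int.emod_emod_of_dvd _ ⟨k, by rw [hk]; push_cast; ring⟩

theorem pt_pv (M L : ℕ) [NeZero M] [NeZero L] (hM : Even M) (hL : Even L) (x : ℤ × ℤ) :
    pt M L (pv M L x) = pz x := by
  have h1 := val_par M hM x.1
  have h2 := val_par L hL x.2
  unfold pt pz pv
  rw [decide_eq_decide, Nat.even_iff, Int.even_iff]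
  simp only []
  omega

theorem pv_add (M L : ℕ) (x y : ℤ × ℤ) : pv M L (x + y) = pv M L x + pv M L y := by
  simp [pv]

theorem pv_sub (M L : ℕ) (x y : ℤ × ℤ) : pv M L (x - y) = pv M L x - pv M L y := by
  simp [pv]

theorem pv_x (M L : ℕ) : pv M L (1, 0) = (1, 0) := by simp [pv]

theorem pv_y (M L : ℕ) : pv M L (0, 1) = (0, 1) := by simp [pv]

end Bas3

theorem s_bas3 : S_bas3 := by
  refine ⟨fun ω t e h => ?_, fun M L _ _ hM hL => ⟨fun x => ?_, Bas3.pt_pv M L hM hL, fun ω e => ?_⟩⟩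
  · have h1 : rf pz (e.1 + t, e.2) = rf pz e := congrArg (fun b => e.2 == b) (Bas3.pz_add _ _ h)
    have h2 : hd pz (e.1 + t, e.2) = hd pz e + t := by
      unfold hd
      rw [h1]
      split_ifs <;> first | rfl | exact add_right_comm _ _ _
    refine ⟨h1, h2, ?_⟩
    unfold nx
    rw [h1, h2]
    split_ifs <;> first | rfl | exact Prod.ext (add_sub_right_comm _ _ _) rfl
  · obtain ⟨a, ha⟩ := ZMod.intCast_surjective x.1
    obtain ⟨b, hb⟩ := ZMod.intCast_surjective x.2
    obtain rfl : x = pv M L (a, b) := Prod.ext ha.symm hb.symm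
    rw [← Bas3.pv_x, ← Bas3.pv_y, ← Bas3.pv_add, ← Bas3.pv_add, Bas3.pt_pv M L hM hL,
      Bas3.pt_pv M L hM hL, Bas3.pt_pv M L hM hL]
    exact Bas3.chk _
  · have h1 : rf (pt M L) (pe M L e) = rf pz e :=
      congrArg (fun b => e.2 == b) (Bas3.pt_pv M L hM hL e.1)
    have h2 : hd (pt M L) (pe M L e) = pv M L (hd pz e) := by
      unfold hd
      rw [h1]
      obtain ⟨x, _ | _⟩ := e <;> split_ifs <;>
        simp_all [pe, Bas3.pv_add, Bas3.pv_x, Bas3.pv_y]
    refine ⟨h1, ?_, ?_⟩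
    · unfold kap
      rw [h2]
      rfl
    · unfold nx
      rw [h1, h2, show ω (pv M L (hd pz e)) = lf M L ω (hd pz e) from rfl,
        show (pe M L e).2 = e.2 from rfl]
      split_ifs <;> simp only [pe, Bas3.pv_sub, Bas3.pv_x, Bas3.pv_y]

end Vale.Agent.P167.Pc
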