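import Vale.Agent.P167.PcStm3

/-! P167, percolation: the weight of one six vertex configuration as a sum over bonds. -/

open MeasureTheory Filter Topology Finset

namespace Vale.Agent.P167.Pc

open Vale.Agent.P152

namespace Bk1

noncomputable section

section gen

variable {A B : Type} [Ring A] [Ring B]

/-- the two incoming edges at a vertex -/
def inc (par : A × B → Bool) (v : A × B) (i : Bool) : (A × B) × Bool :=
  if par v then (if i then (v, false) else (v - (0, 1), false))
  else (if i then (v, true) else (v - (1, 0), true))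

/-- the outgoing edge that follows an incoming edge -/
def out (par : A × B → Bool) (v : A × B) (i b : Bool) : (A × B) × Bool :=
  if par v then (if (!i) = b then (v, true) else (v - (1, 0), true))
  else (if (!i) = b then (v - (0, 1), false) else (v, false))

theorem par_l {par : A × B → Bool} (h : Chk par) (v : A × B) : par (v - (1, 0)) = !par v := by
  have := (h (v - (1, 0))).1
  rw [sub_add_cancel] at this
  rw [this, Bool.not_not]

theorem par_d {par : A × B → Bool} (h : Chk par) (v : A × B) : par (v - (0, 1)) = !par v := by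
  have := (h (v - (0, 1))).2
  rw [sub_add_cancel] at this
  rw [this, Bool.not_not]

theorem rf_inc {par : A × B → Bool} (h : Chk par) (v : A × B) (i : Bool) :
    rf par (inc par v i) = !i := by
  unfold rf inc
  cases hp : par v <;> cases i <;> simp [par_l h, par_d h, hp]

theorem hd_inc {par : A × B → Bool} (h : Chk par) (v : A × B) (i : Bool) :
    hd par (inc par v i) = v := by
  unfold hd
  rw [rf_inc h]
  unfold inc
  cases hp : par v <;> cases i <;> simp

theorem inc_hd {par : A × B → Bool} (h : Chk par) (e : (A × B) × Bool) :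
    inc par (hd par e) (!rf par e) = e := by
  obtain ⟨x, b⟩ := e
  unfold inc hd rf
  cases hp : par x <;> cases b <;> simp [hp, (h x).1, (h x).2]

/-- vertices with a choice of an incoming edge are the edges -/
def eqv {par : A × B → Bool} (h : Chk par) : (A × B) × Bool ≃ (A × B) × Bool where
  toFun p := inc par p.1 p.2
  invFun e := (hd par e, !rf par e)
  left_inv p := by simp only [hd_inc h, rf_inc h, Bool.not_not]
  right_inv e := inc_hd h e

theorem nx_inc {par : A × B → Bool} (h : Chk par) (ω : A × B → Bool) (v : A × B) (i : Bool) :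
    nx par ω (inc par v i) = out par v i (ω v) := by
  unfold nx
  rw [rf_inc h, hd_inc h]
  unfold inc out
  cases hp : par v <;> cases i <;> simp

theorem kap_inc {par : A × B → Bool} (h : Chk par) (ω : A × B → Bool) (v : A × B) (i : Bool) :
    kap par ω (inc par v i) = if ω v then -1 else 1 := by
  unfold kap
  rw [hd_inc h]

/-- the local phase -/
def ph (par : A × B → Bool) (ε : (A × B) × Bool → Bool) (v : A × B) (b : Bool) : ℝ :=
  ∑ i : Bool, sg (ε (inc par v i)) * (Real.pi / 12 * ((if b then -1 else 1 : ℤ) : ℝ))

/-- the local weight -/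
def W (par : A × B → Bool) (ε : (A × B) × Bool → Bool) (v : A × B) (b : Bool) : ℂ :=
  if ε (out par v true b) = ε (inc par v true) ∧ ε (out par v false b) = ε (inc par v false) then
    Complex.exp (Complex.I * (ph par ε v b : ℝ)) else 0

theorem summand [Fintype A] [Fintype B] {par : A × B → Bool} (h : Chk par)
    (ε : (A × B) × Bool → Bool) (ω : A × B → Bool) {_ : Decidable (∀ e, ε (nx par ω e) = ε e)} :
    (if ∀ e, ε (nx par ω e) = ε e then
      Complex.exp (Complex.I * (∑ e, sg (ε e) * (Real.pi / 12 * kap par ω e) : ℝ)) else 0) =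
      ∏ v, W par ε v (ω v) := by
  by_cases ha : ∀ e, ε (nx par ω e) = ε e
  · rw [if_pos ha]
    have h1 : ∀ v, W par ε v (ω v) = Complex.exp (Complex.I * (ph par ε v (ω v) : ℝ)) := by
      intro v
      unfold W
      rw [if_pos]
      exact ⟨by rw [← nx_inc h, ha], by rw [← nx_inc h, ha]⟩
    have h2 : ∑ e, sg (ε e) * (Real.pi / 12 * kap par ω e) = ∑ v, ph par ε v (ω v) := by
      rw [← (eqv h).sum_comp, Fintype.sum_prod_type]
      refine Finset.sum_congr rfl (fun v _ => Finset.sum_congr rfl (fun i _ => ?_))
      change sg (ε (inc par v i)) * (Real.pi / 12 * kap par ω (inc par v i)) = _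
      rw [kap_inc h]
    rw [h2, Finset.prod_congr rfl (fun v _ => h1 v), ← Complex.exp_sum, Complex.ofReal_sum,
      Finset.mul_sum]
  · rw [if_neg ha]
    obtain ⟨e, he⟩ := not_forall.mp ha
    refine (Finset.prod_eq_zero (Finset.mem_univ (hd par e)) ?_).symm
    unfold W
    rw [if_neg]
    intro hh
    apply he
    rw [← nx_inc h, ← nx_inc h] at hh
    rw [← inc_hd h e]
    cases rf par e
    · exact hh.1
    · exact hh.2

theorem trig : Complex.exp (Complex.I * ((Real.pi / 6 : ℝ) : ℂ)) +
    Complex.exp (Complex.I * ((-(Real.pi / 6) : ℝ) : ℂ)) = (√3 : ℝ) := by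
  have h := Complex.two_cos ((Real.pi / 6 : ℝ) : ℂ)
  rw [← Complex.ofReal_cos, Real.cos_pi_div_six] at h
  rw [mul_comm Complex.I, mul_comm Complex.I, Complex.ofReal_neg, ← h]
  push_cast
  ring

theorem ph_eq (par : A × B → Bool) (ε : (A × B) × Bool → Bool) (v : A × B) (b : Bool) :
    ph par ε v b = if ε (inc par v true) = ε (inc par v false) then
      (if ε (inc par v true) = b then -(Real.pi / 6) else Real.pi / 6) else 0 := by
  unfold ph sg
  rw [Fintype.sum_bool]
  cases ε (inc par v true) <;> cases ε (inc par v false) <;> cases b <;> simp <;> ring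

theorem loc {par : A × B → Bool} (h : Chk par) (ε : (A × B) × Bool → Bool) (v : A × B) :
    (vwt √3 (ε (v - (1, 0), true) == rf par (v - (1, 0), true)) (ε (v, true) == rf par (v, true))
      (ε (v - (0, 1), false) == rf par (v - (0, 1), false))
      (ε (v, false) == rf par (v, false)) : ℂ) = ∑ b, W par ε v b := by
  have t1 := trig
  have t2 := (add_comm _ _).trans trig
  rw [Fintype.sum_bool]
  unfold W
  rw [ph_eq, ph_eq]
  unfold rf inc out vwt
  simp only [par_l h, par_d h]
  cases par v <;> simp only [Bool.false_eq_true, Bool.true_eq_false, if_true, if_false,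
    Bool.not_true, Bool.not_false] <;>
  cases ε (v - (1, 0), true) <;> cases ε (v, true) <;> cases ε (v - (0, 1), false) <;>
  cases ε (v, false) <;> first | exact t1.symm | exact t2.symm | simp

end gen

end

end Bk1

theorem s_bk1 (h : S_bas) : S_bk1 := by
  intro M L _ _ hM hL ε
  have hc : Chk (pt M L) := (h.2.2.2.2.2 M L hM hL).1
  refine Eq.trans ?_ (Finset.sum_congr rfl (fun ω _ => (Bk1.summand hc ε ω).symm))
  rw [← Fintype.piFinset_univ, ← Finset.prod_univ_sum]
  unfold twt
  rw [Complex.ofReal_prod]
  refine Finset.prod_congr rfl (fun v _ => ?_)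
  have h1 : (v.1 - 1, v.2) = v - (1, 0) := Prod.ext rfl (sub_zero _).symm
  have h2 : (v.1, v.2 - 1) = v - (0, 1) := Prod.ext (sub_zero _).symm rfl
  rw [h1, h2]
  exact Bk1.loc hc ε v

end Vale.Agent.P167.Pc
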