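import Vale.Agent.P167.PcStm3

/-! P167, percolation: the identity of Baxter, Kelland and Wu on the torus. -/

open MeasureTheory Filter Topology Finset

namespace Vale.Agent.P167.Pc

open Vale.Agent.P152

namespace Bkw

theorem sg_beq (a b : Bool) : sg (a == b) = sg a * sg b := by
  cases a <;> cases b <;> simp [sg]

theorem invol {E : Type} (r : E → Bool) :
    Function.Involutive (fun (ε : E → Bool) (e : E) => ε e == r e) := by
  intro ε
  funext e
  show ((ε e == r e) == r e) = ε e
  cases ε e <;> cases r e <;> rfl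

end Bkw

theorem s_bkw (h : S_bas) (h1 : S_bk1) : S_bkw := by
  classical
  intro M L _ _ hM hL W j
  have hr : ∀ e : Edge, rf (pt M L) (pe M L e) = rf pz e := fun e =>
    ((h.2.2.2.2.2 M L hM hL).2.2 (fun _ => true) e).1
  rw [← Equiv.sum_comp (Bkw.invol (rf (pt M L))).toPerm]
  unfold SS
  rw [Finset.sum_comm]
  refine Finset.sum_congr rfl (fun ε _ => ?_)
  simp only [Function.Involutive.coe_toPerm]
  have hl : ∀ e : Edge, sg (lift M L (fun e => ε e == rf (pt M L) e) e) =
      sg (ε (pe M L e)) * sg (rf pz e) := by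
    intro e
    rw [← hr e, ← Bkw.sg_beq]
    rfl
  simp only [hl]
  by_cases hb : Bal M L (fun e => ε e == rf (pt M L) e)
  · rw [if_pos hb, h1 M L hM hL ε, Finset.sum_mul]
    refine Finset.sum_congr rfl (fun ω _ => ?_)
    by_cases hc : ∀ e, ε (nx (pt M L) ω e) = ε e
    · rw [if_pos hc, if_pos ⟨hc, hb⟩, ← Complex.exp_add, Complex.ofReal_add, mul_add]
    · rw [if_neg hc, if_neg (fun hh => hc hh.1), zero_mul]
  · rw [if_neg hb]
    exact (Finset.sum_eq_zero (fun ω _ => if_neg (fun hh => hb hh.2))).symm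

end Vale.Agent.P167.Pc
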