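import Vale.Agent.P167.PcStm3

/-! P167, the turning number of a closed path. -/

open Finset

namespace Vale.Agent.P167.Pc

open Vale.Agent.P152

namespace Closed

/-- indicator of the lower half plane -/
def psi (u : ℤ × ℤ) : ℤ := if u.2 < 0 then 1 else 0

theorem crs_eq {u v : ℤ × ℤ} (hu : u.2 = 0 → u.1 < 0) (hv : v.2 = 0 → v.1 < 0)
    (h : v.2 = u.2 + 1 ∨ v.2 = u.2 - 1) : crs u v = psi v - psi u := by
  unfold crs psi
  split_ifs <;> omega

theorem par {p : ℕ → ℤ × ℤ} (hd : ∀ i, Dg (p (i + 1) - p i)) (i : ℕ) :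
    ((p i).1 + (p i).2 - ((p 0).1 + (p 0).2)) % 2 = 0 := by
  induction i with
  | zero => simp
  | succ i ih =>
    have := hd i
    simp only [Dg, Prod.fst_sub, Prod.snd_sub] at this
    omega

end Closed

theorem s_closed (h : S_sec) : S_closed := by
  intro p n σ hσ hd hp hi hx h1 h0
  have a1 := congrArg Prod.fst h1
  have a2 := congrArg Prod.snd h1
  have b1 := congrArg Prod.fst h0
  have b2 := congrArg Prod.snd h0
  simp only [Prod.fst_sub, Prod.snd_sub] at a1 a2 b1 b2
  obtain _ | m := n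
  · omega
  have k := h p m (fun i _ => hd i) hi
  have hU : ∑ i ∈ range m, crs (p (i + 1) - p 0) (p (i + 2) - p 0) = 0 := by
    refine sum_eq_zero fun i _ => ?_
    have c1 := hx (i + 1)
    have c2 := hx (i + 2)
    simp only [crs, Prod.fst_sub, Prod.snd_sub]
    split_ifs <;> omega
  have hw : ∀ i ≤ m, (p (m + 1) - p i).2 = 0 → (p (m + 1) - p i).1 < 0 := fun i him e => by
    have c1 := hx i
    have c2 := Closed.par hd i
    have c3 := Closed.par hd (m + 1)
    simp only [Prod.fst_sub, Prod.snd_sub] at e ⊢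
    by_contra c
    have : p i = p (m + 1) := Prod.ext (by omega) (by omega)
    have := hi (Set.mem_Iic.2 (by omega)) (Set.mem_Iic.2 le_rfl) this
    omega
  have hV : ∑ i ∈ range m, crs (p (m + 1) - p i) (p (m + 1) - p (i + 1)) =
      Closed.psi (p (m + 1) - p m) - Closed.psi (p (m + 1) - p 0) := by
    rw [← sum_range_sub (fun i => Closed.psi (p (m + 1) - p i))]
    refine sum_congr rfl fun i him => ?_
    have c := mem_range.1 him
    refine Closed.crs_eq (hw i (by omega)) (hw (i + 1) (by omega)) ?_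
    have := (hd i).2
    simp only [Prod.snd_sub] at this ⊢
    omega
  have e0 : p (m + 2) = p 0 := by rw [← hp 0, zero_add]
  have e1 : p (m + 1 + 2) = p 1 := by rw [← hp 1]; congr 1; omega
  have ne : ¬ ((p m).1 = (p 0).1 ∧ (p m).2 = (p 0).2) := fun c => by
    have := hi (Set.mem_Iic.2 (by omega)) (Set.mem_Iic.2 (by omega)) (Prod.ext c.1 c.2)
    subst this
    rw [zero_add] at b2
    omega
  have d := hd m
  rw [sum_range_succ, sum_range_succ, k, hU, hV, h1]
  simp only [cp, e0, e1, h0, h1, Prod.fst_sub, Prod.snd_sub, Dg, qd, Closed.psi] at d ⊢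
  obtain ⟨d1 | d1, d2 | d2⟩ := d <;> rcases hσ with rfl | rfl <;> split_ifs <;> omega

end Vale.Agent.P167.Pc
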