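import Vale.Agent.P167.PcStm3

/-! Counting and summing over the classes of a map. -/

open MeasureTheory Filter Topology Finset

namespace Vale.Agent.P167.Pc

open Vale.Agent.P152

namespace Cls

theorem iter_inv {E : Type} {g : E → E} {h : E → ℝ} (hh : ∀ e, h (g e) = h e) (a : ℕ) (e : E) :
    h (g^[a] e) = h e := by
  induction a with
  | zero => rfl
  | succ a ih => rw [Function.iterate_succ_apply', hh, ih]

theorem cls_eq {E : Type} {r : E → E → Prop} (hr : Equivalence r) (e e' : E) :
    {x | r e' x} = {x | r e x} ↔ r e e' := by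
  constructor
  · intro h
    have : e' ∈ {x | r e' x} := hr.refl e'
    rw [h] at this
    exact this
  · intro h
    ext x
    exact ⟨fun hx => hr.trans h hx, fun hx => hr.trans (hr.symm h) hx⟩

end Cls

theorem s_cls (h : S_bas1) : S_cls := by
  classical
  intro E _ g c
  have hr : Equivalence (Cls g) := (h.2.1 E g).1
  have hf : ∀ e : E, univ.filter (fun e' => {x | Cls g e' x} = {x | Cls g e x}) =
      univ.filter (Cls g e) := fun e => by
    ext e'
    simp only [mem_filter, mem_univ, true_and]
    exact Cls.cls_eq hr e e'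
  refine ⟨fun n hn => ?_, fun u F hu h0 hF => ?_⟩
  · rw [mul_comm, ← Finset.card_univ]
    refine le_trans ?_ (Finset.card_filter_le univ
      (fun e' => {x | Cls g e' x} ∈ (univ.filter c).image fun e => {e' | Cls g e e'}))
    refine Finset.mul_card_image_le_card_of_maps_to (f := fun e => {x | Cls g e x})
      (fun e he => (mem_filter.1 he).2) n ?_
    intro s hs
    obtain ⟨e, he, rfl⟩ := mem_image.1 hs
    refine (hn e (mem_filter.1 he).2).trans (card_le_card ?_)
    intro e' he'
    have h1 := (Cls.cls_eq hr e e').2 (mem_filter.1 he').2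
    refine mem_filter.2 ⟨mem_filter.2 ⟨mem_univ _, ?_⟩, h1⟩
    rw [h1]
    exact hs
  · rw [← Finset.sum_fiberwise_of_maps_to (s := univ) (t := univ.image fun e => {x | Cls g e x})
      (g := fun e => {x | Cls g e x}) (fun e he => mem_image_of_mem _ he)]
    refine sum_eq_zero fun s hs => ?_
    obtain ⟨e, -, rfl⟩ := mem_image.1 hs
    rw [hf e]
    have hc : ∀ e' ∈ univ.filter (Cls g e), u e' * F e' = u e * F e' := by
      intro e' he'
      obtain ⟨a, b, hab⟩ := (mem_filter.1 he').2
      rw [← Cls.iter_inv hu a e, hab, Cls.iter_inv hu b e']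
    rw [sum_congr rfl hc, ← mul_sum]
    by_cases hce : c e
    · rw [hF e hce, mul_zero]
    · rw [h0 e hce, zero_mul]

end Vale.Agent.P167.Pc
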