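import Vale.Agent.P167.PcStm3

/-! P167, percolation: removal of the truncation. -/

open MeasureTheory Filter Topology Finset

namespace Vale.Agent.P167.Pc

open Vale.Agent.P152

namespace Cut

theorem prob : IsProbabilityMeasure perc := by
  unfold perc
  infer_instance

theorem mono {W : Finset Edge} {N N' : ℕ} {ω : Bond} (h : Good W N ω) (hN : N ≤ N') :
    Good W N' ω := by
  intro e he k
  have h1 := h e he k
  have h2 : (N : ℤ) ≤ N' := by exact_mod_cast hN
  exact ⟨h1.1.trans h2, h1.2.trans h2⟩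

theorem chi_one {p : Prop} (h : p) : chi p = 1 := by simp [chi, h]

theorem chi_zero {p : Prop} (h : ¬p) : chi p = 0 := by simp [chi, h]

theorem chi_abs (p : Prop) : |chi p| ≤ 1 := by
  by_cases h : p
  · simp [chi_one h]
  · simp [chi_zero h]

theorem meas (hi : S_int) {G : Bond → ℝ} (h : Loc G) : Measurable G := by
  obtain ⟨S, hS⟩ := h
  exact (hi S G hS).1

theorem ae_good (ha : S_arm) (hg : S_gl) (hi : S_int) (W : Finset Edge) :
    ∀ᵐ ω ∂perc, ∃ N, Good W N ω := by
  have := prob
  have hm : ∀ N, Measurable fun ω => chi (Good W N ω) := fun N => meas hi (hg W 0 N).1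
  have hG : ∀ N, MeasurableSet {ω | Good W N ω} := by
    intro N
    have e : {ω | Good W N ω} = (fun ω => chi (Good W N ω)) ⁻¹' {1} := by
      ext ω
      by_cases h : Good W N ω
      · simp [h, chi]
      · simp [h, chi]
    rw [e]
    exact hm N (measurableSet_singleton 1)
  have hint : ∀ N, ∫ ω, chi (Good W N ω) ∂perc = perc.real {ω | Good W N ω} := by
    intro N
    rw [← integral_indicator_one (hG N)]
    refine integral_congr_ae (Eventually.of_forall fun ω => ?_)
    show chi (Good W N ω) = _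
    by_cases h : Good W N ω
    · rw [chi_one h, Set.indicator_of_mem (by exact h)]; rfl
    · rw [chi_zero h, Set.indicator_of_notMem (by exact h)]
  have hle : ∀ N, perc.real {ω | ¬∃ N, Good W N ω} ≤ 1 - ∫ ω, chi (Good W N ω) ∂perc := by
    intro N
    rw [hint, ← probReal_compl_eq_one_sub (hG N)]
    exact measureReal_mono fun ω h h' => h ⟨N, h'⟩
  have hlim : Tendsto (fun N => 1 - ∫ ω, chi (Good W N ω) ∂perc) atTop (𝓝 (1 - 1)) :=
    tendsto_const_nhds.sub (ha W)
  have h0 : perc.real {ω | ¬∃ N, Good W N ω} ≤ 1 - 1 := ge_of_tendsto' hlim hle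
  rw [ae_iff, ← measureReal_eq_zero_iff]
  exact le_antisymm (by linarith) measureReal_nonneg

end Cut

theorem s_cut (ha : S_arm) (hg : S_gl) (hi : S_int) : S_cut := by
  intro W j Φ hΦ
  have := Cut.prob
  have hae := Cut.ae_good ha hg hi W
  have hfin : ∀ᵐ ω ∂perc, ∀ e ∈ W, (loop ω e).Finite := by
    filter_upwards [hae] with ω h
    obtain ⟨N, hN⟩ := h
    exact ((hg W j N).2.2 ω).2 hN
  have hm : ∀ N, AEStronglyMeasurable (fun ω => chi (Good W N ω) * PW W j ω) perc := fun N =>
    (Cut.meas hi (hg W j N).2.1).aestronglyMeasurable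
  have hlim : ∀ᵐ ω ∂perc, Tendsto (fun N => chi (Good W N ω) * PW W j ω) atTop (𝓝 (Φ ω)) := by
    filter_upwards [hae, hfin] with ω h h'
    obtain ⟨N, hN⟩ := h
    refine tendsto_const_nhds.congr' ?_
    filter_upwards [eventually_ge_atTop N] with N' hN'
    rw [Cut.chi_one (Cut.mono hN hN'), one_mul, hΦ ω h']
  have hb : ∀ N ω, ‖chi (Good W N ω) * PW W j ω‖ ≤ 2 ^ W.card := by
    intro N ω
    rw [Real.norm_eq_abs, abs_mul]
    have h1 := Cut.chi_abs (Good W N ω)
    have h2 := ((hg W j N).2.2 ω).1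
    calc _ ≤ 1 * 2 ^ W.card := mul_le_mul h1 h2 (abs_nonneg _) zero_le_one
      _ = _ := one_mul _
  refine ⟨hfin, ?_, ?_⟩
  · refine Integrable.of_bound (aestronglyMeasurable_of_tendsto_ae atTop hm hlim) (2 ^ W.card) ?_
    filter_upwards [hfin] with ω h
    rw [hΦ ω h, Real.norm_eq_abs]
    exact ((hg W j 0).2.2 ω).1
  · exact tendsto_integral_of_dominated_convergence (fun _ => (2 : ℝ) ^ W.card) hm
      (integrable_const _) (fun N => Eventually.of_forall (hb N)) hlim

end Vale.Agent.P167.Pc
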