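import Vale.Agent.P167.PcStm3

/-! P167, percolation: the entropy bound. -/

open Finset

namespace Vale.Agent.P167.Pc

open Vale.Agent.P152

namespace Ent

theorem one (h : S_entA) {V U ι : Type} [Fintype V] [DecidableEq V] [Fintype U] [DecidableEq U]
    [Fintype ι] (φ : ι → U → V) (T : (V → Bool) → ℝ) (H : (U → Bool) → ℝ) (K b a s : ℝ)
    (hφ : Function.Injective (Function.uncurry φ)) (hT : ∀ ω, 1 ≤ T ω ∧ T ω ≤ Real.exp K)
    (hH : ∀ η, |H η| ≤ b) (ha : ∀ i, ∑ ω, T ω * H (ω ∘ φ i) = a * ∑ ω, T ω) (hs : 0 < s)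
    (hb : s * b ≤ 1) :
    Fintype.card ι * s * (a - (∑ η, H η) / 2 ^ Fintype.card U)
      ≤ K + Fintype.card ι * (s * b) ^ 2 := by
  have pV : (0:ℝ) < 2 ^ Fintype.card V := by positivity
  have pU : (0:ℝ) < 2 ^ Fintype.card U := by positivity
  have hZ : (2:ℝ) ^ Fintype.card V ≤ ∑ ω, T ω := by
    simpa using card_nsmul_le_sum univ T 1 fun ω _ => (hT ω).1
  have Z0 : 0 < ∑ ω, T ω := pV.trans_le hZ
  have J := convexOn_exp.map_sum_le (t := univ) (w := fun ω => T ω / ∑ ω, T ω)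
    (p := fun ω => ∑ i, s * H (ω ∘ φ i))
    (fun ω _ => div_nonneg (zero_le_one.trans (hT ω).1) Z0.le)
    (by rw [← sum_div, div_self Z0.ne']) fun _ _ => Set.mem_univ _
  have e1 : ∑ ω, (T ω / ∑ ω, T ω) • ∑ i, s * H (ω ∘ φ i) = Fintype.card ι * s * a := by
    have : ∀ i, ∑ ω, (T ω / ∑ ω, T ω) * (s * H (ω ∘ φ i)) = s * a := fun i => by
      rw [sum_congr rfl (g := fun ω => s / (∑ ω, T ω) * (T ω * H (ω ∘ φ i))) fun ω _ => by ring,
        ← mul_sum, ha i]
      field_simp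
    simp only [smul_eq_mul, mul_sum]
    rw [sum_comm, sum_congr rfl fun i _ => this i, sum_const, card_univ, nsmul_eq_mul, mul_assoc]
  have e2 : ∑ ω, (T ω / ∑ ω, T ω) • Real.exp (∑ i, s * H (ω ∘ φ i)) ≤ Real.exp K *
      ((∑ η, Real.exp (s * H η)) / 2 ^ Fintype.card U) ^ Fintype.card ι := by
    rw [← h V U ι φ (fun η => Real.exp (s * H η)) hφ, ← mul_div_assoc, mul_sum, sum_div]
    refine sum_le_sum fun ω _ => ?_
    rw [smul_eq_mul, Real.exp_sum, mul_div_right_comm]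
    exact mul_le_mul_of_nonneg_right (div_le_div₀ (Real.exp_pos _).le (hT ω).2 pV hZ)
      (prod_nonneg fun _ _ => (Real.exp_pos _).le)
  have e3 : (∑ η, Real.exp (s * H η)) / 2 ^ Fintype.card U ≤
      Real.exp (s * ((∑ η, H η) / 2 ^ Fintype.card U) + (s * b) ^ 2) := by
    refine le_trans ?_ (Real.add_one_le_exp _)
    have : ∑ η, Real.exp (s * H η) ≤ ∑ η, (s * H η + ((s * b) ^ 2 + 1)) := by
      refine sum_le_sum fun η _ => ?_
      have a1 : |s * H η| ≤ s * b := by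
        rw [abs_mul, abs_of_pos hs]
        exact mul_le_mul_of_nonneg_left (hH η) hs.le
      have a2 := (abs_le.1 (Real.abs_exp_sub_one_sub_id_le (a1.trans hb))).2
      have a3 : (s * H η) ^ 2 ≤ (s * b) ^ 2 := sq_le_sq' (abs_le.1 a1).1 (abs_le.1 a1).2
      linarith
    rw [sum_add_distrib, ← mul_sum, sum_const, card_univ, nsmul_eq_mul, Fintype.card_fun,
      Fintype.card_bool, Nat.cast_pow, Nat.cast_ofNat] at this
    rw [div_le_iff₀ pU]
    refine this.trans (le_of_eq ?_)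
    field_simp
    ring
  rw [e1] at J
  have e4 := (J.trans e2).trans (mul_le_mul_of_nonneg_left (pow_le_pow_left₀
    (div_nonneg (sum_nonneg fun _ _ => (Real.exp_pos _).le) pU.le) e3 _) (Real.exp_pos _).le)
  rw [← Real.exp_nat_mul, ← Real.exp_add, Real.exp_le_exp] at e4
  linarith

end Ent

theorem s_ent (h : S_entA) : S_ent := by
  intro V U ι _ _ _ _ _ φ T H K b a s hφ hT hH ha hs hb
  rcases abs_choice (a - (∑ η, H η) / 2 ^ Fintype.card U) with e | e
  · rw [e]
    exact Ent.one h φ T H K b a s hφ hT hH ha hs hb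
  · have := Ent.one h φ T (fun η => -H η) K b (-a) s hφ hT (fun η => by simpa using hH η)
      (fun i => by simp only [mul_neg, sum_neg_distrib, ha i, neg_mul]) hs hb
    rw [sum_neg_distrib, neg_div] at this
    rw [e]
    linarith

end Vale.Agent.P167.Pc
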