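import Vale.Agent.P167.PcStm3

/-! P167, percolation: independence of disjoint windows. -/

open Finset

namespace Vale.Agent.P167.Pc

theorem s_entA2 : S_entA := by
  classical
  intro V U ι _ _ _ _ _ φ f hφ
  let R := {v // v ∉ Set.range (Function.uncurry φ)}
  let e0 : (ι × U) ⊕ R ≃ V :=
    ((Equiv.ofInjective _ hφ).sumCongr (Equiv.refl R)).trans (Equiv.Set.sumCompl _)
  let e : ((ι → U → Bool) × (R → Bool)) ≃ (V → Bool) :=
    (((Equiv.curry ι U Bool).symm.prodCongr (Equiv.refl _)).trans
      (Equiv.sumArrowEquivProdArrow _ _ _).symm).trans (e0.arrowCongr (Equiv.refl Bool))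
  have he : ∀ x i, e x ∘ φ i = x.1 i := fun x i => by
    funext u
    have : φ i u = e0 (Sum.inl (i, u)) := rfl
    simp only [Function.comp, this, e, Equiv.trans_apply, Equiv.arrowCongr_apply, Equiv.coe_refl,
      Equiv.symm_apply_apply, id]
    rfl
  have hc : Fintype.card V = Fintype.card U * Fintype.card ι + Fintype.card R := by
    rw [← Fintype.card_congr e0, Fintype.card_sum, Fintype.card_prod, mul_comm]
  have hp : ∑ x : ι → U → Bool, ∏ i, f (x i) = (∑ η, f η) ^ Fintype.card ι := by
    rw [← Fintype.piFinset_univ, ← Finset.prod_univ_sum, prod_const, card_univ]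
  rw [← e.sum_comp]
  simp only [he]
  rw [Fintype.sum_prod_type]
  simp only [sum_const, card_univ, Fintype.card_fun, Fintype.card_bool, nsmul_eq_mul]
  rw [← mul_sum, hp, hc, pow_add, pow_mul, div_pow]
  push_cast
  field_simp

end Vale.Agent.P167.Pc
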