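import Vale.Agent.P167.PcStm3

/-! P167, percolation: evaluation of the sum over the orientations. -/

open MeasureTheory Filter Topology Finset

namespace Vale.Agent.P167.Pc

open Vale.Agent.P152

namespace Fac

theorem iter {E : Type} {g : E → E} {c : E → Prop} (h : ∀ e, c (g e) ↔ c e) (k : ℕ) (e : E) :
    c (g^[k] e) ↔ c e := by
  induction k with
  | zero => rfl
  | succ k ih => rw [Function.iterate_succ_apply', h, ih]

theorem cls {E : Type} {g : E → E} {c : E → Prop} (h : ∀ e, c (g e) ↔ c e) {e e' : E}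
    (hc : Cls g e e') : c e ↔ c e' := by
  obtain ⟨a, b, hab⟩ := hc
  rw [← iter h a e, hab, iter h b e']

theorem sum_eq {α β : Type} [AddCommMonoid β] (i₁ i₂ : Fintype α) (p : α → Prop)
    (d₁ d₂ : ∀ a, Decidable (p a)) (f : α → β) :
    ∑ a ∈ @univ α i₁, @ite β (p a) (d₁ a) (f a) 0 =
      ∑ a ∈ @univ α i₂, @ite β (p a) (d₂ a) (f a) 0 := by
  rw [Subsingleton.elim i₁ i₂, Subsingleton.elim d₁ d₂]

theorem image_eq {α β : Type} (d₁ d₂ : DecidableEq β) (s : Finset α) (f : α → β) :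
    @image α β d₁ f s = @image α β d₂ f s := by
  rw [Subsingleton.elim d₁ d₂]

end Fac

open Fac

open Classical in
theorem s_fac (ha : S_abs) (ht : S_tor) (hb : S_bal) (hA : S_facA) (hB : S_facB) (hC : S_facC)
    (hg : S_gl) : S_fac := by
  intro M L _ _ hM hL hLM ω
  obtain ⟨t1, -, t3, t4⟩ := ht M L hM hL hLM ω
  obtain ⟨b1, b2⟩ := hb M L hM hL hLM ω
  obtain ⟨T, h1, h2, h3⟩ := ha _ (nx (pt M L) ω) (Ctr M L ω)
    (fun ε => Bal M L fun e => ε e == rf (pt M L) e) t1 b1 b2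
  have key : ∀ (W : Finset Edge) (j : Edge → ℝ), ∃ z : ℂ, ‖z‖ ≤ T ∧
      ((∀ w ∈ W, Ctr M L ω (pe M L w)) → z = T) ∧ SS M L W j ω =
      (∏ l ∈ (univ.filter (Ctr M L ω)).image fun e => univ.filter (Cls (nx (pt M L) ω) e),
        2 * Real.cos (∑ e ∈ l, aW M L W j ω e) : ℝ) * z := by
    intro W j
    obtain ⟨z, z1, z2, z3⟩ := h3 (aW M L W j ω)
    refine ⟨z, z1, fun hW => z2 fun e he => ?_, ?_⟩
    · have e1 : ∀ e' ∈ univ.filter (Cls (nx (pt M L) ω) e),
          aW M L W j ω e' = Real.pi / 12 * kap (pt M L) ω e' := fun e' he' => by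
        rw [aW, sum_eq_zero, add_zero]
        intro w hw
        rw [mem_filter] at hw he'
        exact absurd ((cls t1 he'.2).2 (hw.2 ▸ hW w hw.1)) he
      rw [sum_congr rfl e1, ← mul_sum, ← Int.cast_sum, t3 e he, Int.cast_zero, mul_zero]
    · rw [(hA M L hM hL ω).1 W j]
      exact (sum_eq _ _ _ _ _ _).trans (z3.trans (by rw [image_eq]))
  refine ⟨T, by exact_mod_cast h1, ?_, ?_, fun W j => ⟨?_, fun N hN hG => ?_⟩⟩
  · exact_mod_cast h2.trans (Nat.pow_le_pow_right two_pos t4)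
  · obtain ⟨z, -, z2, z3⟩ := key ∅ 0
    rw [z3, (hB M L hM hL hLM ω ∅ 0).2 rfl, z2 (by simp)]
    simp
  · obtain ⟨z, z1, -, z3⟩ := key W j
    rw [z3, norm_mul, Complex.norm_real, Real.norm_eq_abs]
    exact mul_le_mul (hB M L hM hL hLM ω W j).1 z1 (norm_nonneg _) (by positivity)
  · obtain ⟨z, -, z2, z3⟩ := key W j
    rw [z3, hC M L hM hL hLM ω W j N hN hG,
      z2 fun w hw => ⟨w, rfl, ((hg W j N).2.2 _).2 hG w hw⟩]
    simp

end Vale.Agent.P167.Pc
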