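import Vale.Agent.P167.PcStm3

/-! P167, percolation: phases of the torus edges and turning numbers of contractible loops. -/

open MeasureTheory Filter Topology Finset

namespace Vale.Agent.P167.Pc

open Vale.Agent.P152

namespace FacA

theorem fib {X Y : Type} [Fintype Y] (W : Finset X) (p : X → Y) (s : Y → ℝ) (j r : X → ℝ)
    {d : ∀ e, DecidablePred fun w => p w = e} :
    ∑ e, s e * ∑ w ∈ W.filter (fun w => p w = e), j w * r w =
      ∑ w ∈ W, j w * (s (p w) * r w) := by
  simp only [Finset.sum_filter, Finset.mul_sum]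
  rw [Finset.sum_comm]
  refine Finset.sum_congr rfl fun w _ => ?_
  rw [Finset.sum_eq_single (p w) (fun e _ h => by rw [if_neg (Ne.symm h), mul_zero])
    (fun h => (h (mem_univ _)).elim), if_pos rfl]
  ring

theorem loop_eq {ω : Bond} {e e' : Edge} (h : e' ∈ loop ω e) : loop ω e' = loop ω e :=
  Set.ext fun _ => ⟨fun h' => Relation.EqvGen.trans _ _ _ h h',
    fun h' => Relation.EqvGen.trans _ _ _ (Relation.EqvGen.symm _ _ h) h'⟩

end FacA

theorem s_facA (hb : S_bas) (hA : S_torA) (h3 : S_w3) (ht : S_turn) : S_facA := by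
  classical
  intro M L _ _ hM hL ω
  refine ⟨fun W j => ?_, fun e' hf => ⟨?_, ?_⟩⟩
  · unfold SS aW
    refine Finset.sum_congr rfl fun ε _ => ?_
    simp only [mul_add, Finset.sum_add_distrib]
    rw [FacA.fib W (pe M L) (fun e => sg (ε e)) j (fun w => sg (rf pz w))]
  · have hb' := (hA M L hM hL ω).2 e' hf
    rw [finsum_mem_eq_finite_toFinset_sum _ hf]
    symm
    refine Finset.sum_nbij (pe M L) (fun e he => ?_) (fun a ha b hb => ?_) (fun e he => ?_)
      fun e _ => ((hb.2.2.2.2.2 M L hM hL).2.2 ω e).2.1.symm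
    · exact Finset.mem_filter.2 ⟨mem_univ _, hb'.1 (hf.mem_toFinset.1 he)⟩
    · exact hb'.2.1 (hf.mem_toFinset.1 ha) (hf.mem_toFinset.1 hb)
    · obtain ⟨a, h1, h2⟩ := hb'.2.2 (Finset.mem_filter.1 he).2
      exact ⟨a, hf.mem_toFinset.2 h1, h2⟩
  · obtain ⟨x, h1, h2⟩ := h3 _ e' hf
    have h4 := FacA.loop_eq h1
    have h5 := ht (lf M L ω) x (by rwa [h4]) (by rwa [h4])
    rw [h4] at h5
    rw [h5]
    split_ifs
    · exact Or.inl rfl
    · exact Or.inr rfl

end Vale.Agent.P167.Pc
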