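import Vale.Agent.P167.PcStm3

/-! P167, percolation: the product over the contractible classes. -/

open MeasureTheory Filter Topology Finset

namespace Vale.Agent.P167.Pc

open Vale.Agent.P152

namespace FacC

lemma prod_im {α β γ : Type} [DecidableEq β] [DecidableEq γ] (W : Finset α) (f : α → β)
    (f2 : α → γ) (F : β → ℝ) (F2 : γ → ℝ) (h : ∀ a ∈ W, ∀ b ∈ W, f a = f b ↔ f2 a = f2 b)
    (hF : ∀ a ∈ W, F (f a) = F2 (f2 a)) : ∏ l ∈ W.image f, F l = ∏ l ∈ W.image f2, F2 l := by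
  classical
  induction W using Finset.induction_on with
  | empty => simp
  | insert a W _ ih =>
    have ih' := ih (fun x hx y hy => h x (mem_insert_of_mem hx) y (mem_insert_of_mem hy))
      fun x hx => hF x (mem_insert_of_mem hx)
    have e : f a ∈ W.image f ↔ f2 a ∈ W.image f2 := by
      simp only [mem_image]
      exact exists_congr fun b => and_congr_right fun hb =>
        h b (mem_insert_of_mem hb) a (mem_insert_self _ _)
    rw [image_insert, image_insert]
    by_cases c : f a ∈ W.image f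
    · rw [insert_eq_of_mem c, insert_eq_of_mem (e.1 c), ih']
    · rw [prod_insert c, prod_insert (mt e.2 c), ih', hF a (mem_insert_self _ _)]

lemma cast_inj {n N : ℕ} (h : 2 * N < n) {a b : ℤ} (ha : |a| ≤ N) (hb : |b| ≤ N)
    (e : (a : ZMod n) = (b : ZMod n)) : a = b := by
  have h1 := (ZMod.intCast_eq_intCast_iff_dvd_sub a b n).1 e
  have h2 : |b - a| < (n : ℤ) := by
    rw [abs_le] at ha hb
    rw [abs_lt]
    constructor <;> omega
  have := Int.eq_zero_of_abs_lt_dvd h1 h2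
  omega

lemma key {M L N : ℕ} (h : 2 * N < L) (hL : L ≤ M) {e e' : Edge}
    (h1 : |e.1.1| ≤ N ∧ |e.1.2| ≤ N) (h2 : |e'.1.1| ≤ N ∧ |e'.1.2| ≤ N)
    (q : pe M L e = pe M L e') : e = e' := by
  simp only [pe, pv, Prod.mk.injEq] at q
  exact Prod.ext (Prod.ext (cast_inj (h.trans_le hL) h1.1 h2.1 q.1.1) (cast_inj h h1.2 h2.2 q.1.2))
    q.2

lemma box (hb : S_bas) (hp : S_per) {W : Finset Edge} {N : ℕ} {ω : Bond} (hg : Good W N ω)
    {w : Edge} (hw : w ∈ W) :
    (loop ω w).Finite ∧ ∀ e ∈ loop ω w, |e.1.1| ≤ N ∧ |e.1.2| ≤ N := by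
  have hf : {e' | ∃ k, (nx pz ω)^[k] w = e'}.Finite := by
    refine Set.Finite.subset (((Set.finite_Icc (-(N : ℤ)) N).prod
      (Set.finite_Icc (-(N : ℤ)) N)).prod (Set.finite_univ (α := Bool))) ?_
    rintro _ ⟨k, rfl⟩
    exact ⟨⟨abs_le.1 (hg w hw k).1, abs_le.1 (hg w hw k).2⟩, trivial⟩
  obtain ⟨n, -, -, h3, -⟩ := hp _ (nx pz ω) w (hb.1 ℤ ℤ pz ω hb.2.2.1).1 hf
  have e : loop ω w = (fun k => (nx pz ω)^[k] w) '' Set.Iic n := by
    rw [← h3]
    exact Set.ext fun e' => hb.2.2.2.1 ω w e'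
  rw [e]
  refine ⟨(Set.finite_Iic n).image _, ?_⟩
  rintro _ ⟨k, -, rfl⟩
  exact hg w hw k

open Classical in
lemma sum_aW (M L : ℕ) (W : Finset Edge) (j : Edge → ℝ) (ω : ZMod M × ZMod L → Bool)
    (l : Finset ((ZMod M × ZMod L) × Bool)) : ∑ e ∈ l, aW M L W j ω e =
      Real.pi / 12 * (∑ e ∈ l, kap (pt M L) ω e : ℤ) +
        ∑ w ∈ W, if pe M L w ∈ l then j w * sg (rf pz w) else 0 := by
  simp only [aW, sum_add_distrib, sum_filter]
  rw [sum_comm, Int.cast_sum, mul_sum]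
  congr 1
  exact sum_congr rfl fun w _ => by simp

end FacC

open FacC Classical in
theorem s_facC (hb : S_bas) (hp : S_per) (hT : S_torA) (hA : S_facA) : S_facC := by
  intro M L _ _ hM hL hLM ω W j N hN hg
  have eG := (hb.2.1 _ (nx (pt M L) ω)).1
  have eg := (hb.2.1 _ (nx pz (lf M L ω))).1
  have hl := hb.2.2.2.1 (lf M L ω)
  have self : ∀ w, w ∈ loop (lf M L ω) w := fun w => (hl w w).2 (eg.refl w)
  have cls : ∀ w ∈ W, ∀ w' ∈ W,
      Cls (nx (pt M L) ω) (pe M L w) (pe M L w') ↔ w' ∈ loop (lf M L ω) w := by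
    intro w hw w' hw'
    obtain ⟨f1, f2⟩ := box hb hp hg hw
    have B := (hT M L hM hL ω).2 w f1
    refine ⟨fun c => ?_, fun c => B.mapsTo c⟩
    obtain ⟨e, he, q⟩ := B.surjOn c
    rwa [← key hN hLM (f2 e he) ((box hb hp hg hw').2 w' (self w')) q]
  have feq : ∀ a b, Cls (nx (pt M L) ω) a b →
      univ.filter (Cls (nx (pt M L) ω) a) = univ.filter (Cls (nx (pt M L) ω) b) := fun a b c =>
    filter_congr fun e _ => ⟨eG.trans (eG.symm c), eG.trans c⟩
  rw [← prod_subset (s₁ := W.image fun w => univ.filter (Cls (nx (pt M L) ω) (pe M L w)))]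
  · refine prod_im W _ _ _ _ (fun a ha b hb' => ⟨fun c => ?_, fun c => ?_⟩) fun w hw => ?_
    · have c1 : pe M L b ∈ univ.filter (Cls (nx (pt M L) ω) (pe M L a)) := by
        rw [c]
        exact mem_filter.2 ⟨mem_univ _, eG.refl _⟩
      have c2 := (hl a b).1 ((cls a ha b hb').1 (mem_filter.1 c1).2)
      exact Set.ext fun e => by
        rw [hl, hl]
        exact ⟨eg.trans (eg.symm c2), eg.trans c2⟩
    · exact feq _ _ ((cls a ha b hb').2 (c ▸ self b))
    · rw [sum_aW, ((hA M L hM hL ω).2 w (box hb hp hg hw).1).1]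
      congr 3
      refine sum_congr rfl fun w' hw' => ?_
      simp only [mem_filter, mem_univ, true_and, cls w hw w' hw', ul]
      split_ifs <;> simp
  · intro l hl'
    obtain ⟨w, hw, rfl⟩ := mem_image.1 hl'
    exact mem_image.2 ⟨pe M L w, mem_filter.2 ⟨mem_univ _, w, rfl, (box hb hp hg hw).1⟩, rfl⟩
  · intro l h1 h2
    obtain ⟨_, he, rfl⟩ := mem_image.1 h1
    obtain ⟨e, rfl, hf⟩ := (mem_filter.1 he).2
    obtain ⟨a1, a2⟩ := (hA M L hM hL ω).2 e hf
    rw [sum_aW, a1, sum_eq_zero fun w hw => if_neg fun c =>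
      h2 (mem_image.2 ⟨w, hw, (feq _ _ (mem_filter.1 c).2).symm⟩), add_zero]
    rcases a2 with a | a
    · rw [a, show Real.pi / 12 * ((4 : ℤ) : ℝ) = Real.pi / 3 by push_cast; ring,
        Real.cos_pi_div_three]
      norm_num
    · rw [a, show Real.pi / 12 * ((-4 : ℤ) : ℝ) = -(Real.pi / 3) by push_cast; ring, Real.cos_neg,
        Real.cos_pi_div_three]
      norm_num

end Vale.Agent.P167.Pc
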