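import Vale.Agent.P167.PcStm3

/-! P167: the Harris inequality. -/

open MeasureTheory Finset

namespace Vale.Agent.P167.Pc

open Vale.Agent.P152

namespace Fkg

theorem fin {X : Type} [Fintype X] [DistribLattice X] {f g : X → ℝ} (hf : Monotone f)
    (hg : Monotone g) {a b : ℝ} (ha : ∀ x, |f x| ≤ a) (hb : ∀ x, |g x| ≤ b) :
    (∑ x, f x) * ∑ x, g x ≤ Fintype.card X * ∑ x, f x * g x := by
  have k := fkg (μ := fun _ : X => (1 : ℝ)) (f := fun x => f x + a) (g := fun x => g x + b)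
    (fun _ => zero_le_one) (fun x => neg_le_iff_add_nonneg.1 (abs_le.1 (ha x)).1)
    (fun x => neg_le_iff_add_nonneg.1 (abs_le.1 (hb x)).1) (hf.add_const a) (hg.add_const b)
    fun _ _ => le_rfl
  simp only [one_mul, add_mul, mul_add, sum_add_distrib, sum_const, card_univ, nsmul_eq_mul,
    mul_one, ← sum_mul, ← mul_sum] at k
  linarith

end Fkg

theorem s_fkg (h : S_int) : S_fkg := by
  classical
  rintro F G ⟨A, hA⟩ ⟨B, hB⟩ mF mG
  have a : ∀ ω ω' : Bond, (∀ v ∈ A ∪ B, ω v = ω' v) → F ω = F ω' :=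
    fun ω ω' e => hA ω ω' fun v hv => e v (mem_union_left _ hv)
  have b : ∀ ω ω' : Bond, (∀ v ∈ A ∪ B, ω v = ω' v) → G ω = G ω' :=
    fun ω ω' e => hB ω ω' fun v hv => e v (mem_union_right _ hv)
  generalize A ∪ B = S at a b
  obtain ⟨-, ⟨x, hx⟩, e1⟩ := h S F a
  obtain ⟨-, ⟨y, hy⟩, e2⟩ := h S G b
  obtain ⟨-, -, e3⟩ := h S (fun ω => F ω * G ω) fun ω ω' e => by rw [a ω ω' e, b ω ω' e]
  have m : Monotone fun (η : S → Bool) (v : ℤ × ℤ) => if h : v ∈ S then η ⟨v, h⟩ else true :=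
    fun η η' e v => by
      beta_reduce
      split_ifs
      exacts [e _, le_rfl]
  have k := Fkg.fin (mF.comp m) (mG.comp m) (fun _ => hx _) fun _ => hy _
  rw [Fintype.card_fun, Fintype.card_bool, Fintype.card_coe] at k
  rw [e1, e2, e3, div_mul_div_comm, div_le_div_iff₀ (by positivity) (by positivity)]
  push_cast at k
  have p : (0 : ℝ) ≤ 2 ^ S.card := by positivity
  have := mul_le_mul_of_nonneg_right k p
  simp only [Function.comp] at this
  linarith

end Vale.Agent.P167.Pc
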