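import Vale.Agent.P167.PcStm3

/-! P167, percolation: the flux of a closed path through a set of columns vanishes. -/

open MeasureTheory Filter Topology Finset

namespace Vale.Agent.P167.Pc

open Vale.Agent.P152

namespace Flux

theorem prim (c : ℤ → ℝ) : ∃ Ψ : ℤ → ℝ, ∀ i, Ψ (i + 1) - Ψ i = c i := by
  refine ⟨fun i => ∑ j ∈ Ico 0 i, c j - ∑ j ∈ Ico i 0, c j, fun i => ?_⟩
  rcases le_or_gt 0 i with h | h
  · have e : Ico 0 (i + 1) = insert i (Ico 0 i) := by
      ext j
      simp only [mem_Ico, mem_insert]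
      omega
    beta_reduce
    rw [e, sum_insert (by simp), Ico_eq_empty_of_le (show 0 ≤ i + 1 by omega),
      Ico_eq_empty_of_le h]
    ring
  · have e : Ico i 0 = insert i (Ico (i + 1) 0) := by
      ext j
      simp only [mem_Ico, mem_insert]
      omega
    beta_reduce
    rw [e, sum_insert (by simp), Ico_eq_empty_of_le (show i + 1 ≤ 0 by omega),
      Ico_eq_empty_of_le h.le]
    ring

/-- first coordinate of the tail -/
def tx (e : Edge) : ℤ := if rf pz e then e.1.1 else e.1.1 + if e.2 then 1 else 0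

theorem tx_nx (ω : Bond) (e : Edge) : tx (nx pz ω e) = (hd pz e).1 := by
  obtain ⟨⟨x, y⟩, b⟩ := e
  cases b
  · have h : Even ((hd pz ((x, y), false)).1 + (hd pz ((x, y), false)).2) := by
      by_cases h : Even (x + y)
      · simp [hd, rf, pz, h]
      · simp only [hd, rf, pz, h]
        simp only [Int.even_iff] at h ⊢
        simp
        omega
    unfold nx
    generalize hd pz ((x, y), false) = v at h ⊢
    have h' : ¬Even (v.1 - 1 + v.2) := by
      simp only [Int.even_iff] at h ⊢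
      omega
    simp only [Bool.false_eq_true, if_false]
    split_ifs
    · simp [tx, rf, pz, h]
    · simp [tx, rf, pz, h']
  · unfold nx
    simp only [if_true]
    split_ifs <;> simp [tx]

theorem step (S : Set ℤ) (Ψ : ℤ → ℝ) (h : ∀ i, Ψ (i + 1) - Ψ i = chi (i ∈ S)) (e : Edge) :
    chi (e.2 = true ∧ e.1.1 ∈ S) * sg (rf pz e) = Ψ (hd pz e).1 - Ψ (tx e) := by
  obtain ⟨⟨x, y⟩, b⟩ := e
  have h1 := h x
  unfold hd tx
  by_cases hx : x ∈ S <;> cases b <;> cases rf pz _ <;> simp [chi, sg, hx] at h1 ⊢ <;> linarith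

end Flux

theorem s_flux : S_flux := by
  intro ω e n S he
  obtain ⟨Ψ, hΨ⟩ := Flux.prim fun i => chi (i ∈ S)
  have h : ∀ k ∈ range n, chi (((nx pz ω)^[k] e).2 = true ∧ ((nx pz ω)^[k] e).1.1 ∈ S) *
      sg (rf pz ((nx pz ω)^[k] e)) =
      Ψ (Flux.tx ((nx pz ω)^[k + 1] e)) - Ψ (Flux.tx ((nx pz ω)^[k] e)) := fun k _ => by
    rw [Flux.step S Ψ hΨ, Function.iterate_succ_apply', Flux.tx_nx]
  rw [sum_congr rfl h, sum_range_sub (fun k => Ψ (Flux.tx ((nx pz ω)^[k] e))), he]
  simp

end Vale.Agent.P167.Pc
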