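import Vale.Agent.P167.PcStm3

/-! The characteristic function of the limit field. -/

open MeasureTheory ProbabilityTheory Filter Topology
open scoped Classical

namespace Vale.Agent.P167.Pc

open Vale.Agent.P152

namespace Gauss

theorem gauss {S : Matrix (Fin 1) (Fin 1) ℝ} (hS : S.PosSemidef) :
    ∫ z, Real.cos (z 0) ∂multivariateGaussian (0 : EuclideanSpace ℝ (Fin 1)) S =
      Real.exp (-(S 0 0) / 2) := by
  have h1 := charFun_multivariateGaussian (μ := 0) hS (EuclideanSpace.single 0 1)
  have hi : Integrable (fun z : EuclideanSpace ℝ (Fin 1) => Complex.exp ((z 0 : ℝ) * Complex.I))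
      (multivariateGaussian (0 : EuclideanSpace ℝ (Fin 1)) S) :=
    Integrable.of_bound (Continuous.aestronglyMeasurable (by fun_prop)) 1
      (ae_of_all _ fun z => (Complex.norm_exp_ofReal_mul_I _).le)
  have h2 : ∫ z, Complex.exp ((z 0 : ℝ) * Complex.I)
      ∂multivariateGaussian (0 : EuclideanSpace ℝ (Fin 1)) S =
      ((Real.exp (-(S 0 0) / 2) : ℝ) : ℂ) := by
    rw [charFun_apply] at h1
    simpa [EuclideanSpace.inner_single_right, Matrix.mulVec, dotProduct, neg_div] using h1
  have h3 := integral_re hi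
  rw [h2] at h3
  simpa only [RCLike.re_to_complex, Complex.exp_ofReal_mul_I_re, Complex.ofReal_re] using h3

end Gauss

theorem s_gauss : S_gauss := by
  intro P σ h f hf
  obtain ⟨h1, h2⟩ := h 1 (fun _ => f) fun _ => hf
  have h3 := h2 (BoundedContinuousFunction.ofNormedAddCommGroup
    (fun z : EuclideanSpace ℝ (Fin 1) => Real.cos (z 0)) (by fun_prop) 1
    fun z => Real.abs_cos_le_one _)
  exact h3.mono_right (le_of_eq (congrArg 𝓝 (Gauss.gauss h1)))

end Vale.Agent.P167.Pc
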