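import Vale.Agent.P167.PcStm3

/-! P167, percolation: locality of the truncated observables. -/

open MeasureTheory Filter Topology Finset

namespace Vale.Agent.P167.Pc

open Vale.Agent.P152

namespace Gl

/-- the box -/
noncomputable def bx (N : ℕ) : Finset (ℤ × ℤ) :=
  Icc (-(N : ℤ) - 1) (N + 1) ×ˢ Icc (-(N : ℤ) - 1) (N + 1)

theorem mem_bx {N : ℕ} {x : ℤ × ℤ} :
    x ∈ bx N ↔ (-(N : ℤ) - 1 ≤ x.1 ∧ x.1 ≤ N + 1) ∧ -(N : ℤ) - 1 ≤ x.2 ∧ x.2 ≤ N + 1 := by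
  simp only [bx, mem_product, mem_Icc]

theorem hd_mem {N : ℕ} {e : Edge} (h : |e.1.1| ≤ N ∧ |e.1.2| ≤ N) : hd pz e ∈ bx N := by
  rw [abs_le, abs_le] at h
  rw [mem_bx]
  unfold hd
  split_ifs <;> (try simp only [Prod.fst_add, Prod.snd_add]) <;> omega

theorem nx_congr {ω ω' : Bond} {e : Edge} (h : ω (hd pz e) = ω' (hd pz e)) :
    nx pz ω e = nx pz ω' e := by
  unfold nx
  rw [h]

theorem kap_congr {ω ω' : Bond} {e : Edge} (h : ω (hd pz e) = ω' (hd pz e)) :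
    kap pz ω e = kap pz ω' e := by
  unfold kap
  rw [h]

theorem iter_eq {N : ℕ} {ω ω' : Bond} (h : ∀ v ∈ bx N, ω v = ω' v) {e : Edge}
    (he : ∀ k, |((nx pz ω)^[k] e).1.1| ≤ N ∧ |((nx pz ω)^[k] e).1.2| ≤ N) (k : ℕ) :
    (nx pz ω')^[k] e = (nx pz ω)^[k] e := by
  induction k with
  | zero => rfl
  | succ k ih =>
    rw [Function.iterate_succ_apply', Function.iterate_succ_apply', ih]
    exact (nx_congr (h _ (hd_mem (he k)))).symm

theorem good_congr {W : Finset Edge} {N : ℕ} {ω ω' : Bond} (h : ∀ v ∈ bx N, ω v = ω' v)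
    (hg : Good W N ω) : Good W N ω' := fun e he k => by
  rw [iter_eq h (hg e he) k]
  exact hg e he k

theorem orb_fin {N : ℕ} {ω : Bond} {e : Edge}
    (he : ∀ k, |((nx pz ω)^[k] e).1.1| ≤ N ∧ |((nx pz ω)^[k] e).1.2| ≤ N) :
    {e' | ∃ k, (nx pz ω)^[k] e = e'}.Finite := by
  refine (bx N ×ˢ (univ : Finset Bool)).finite_toSet.subset ?_
  rintro _ ⟨k, rfl⟩
  have h := he k
  rw [abs_le, abs_le] at h
  rw [mem_coe, mem_product, mem_bx]
  refine ⟨?_, mem_univ _⟩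
  omega

theorem loop_eq (hb : S_bas) (hp : S_per) {N : ℕ} {ω : Bond} {e : Edge}
    (he : ∀ k, |((nx pz ω)^[k] e).1.1| ≤ N ∧ |((nx pz ω)^[k] e).1.2| ≤ N) :
    loop ω e = {e' | ∃ k, (nx pz ω)^[k] e = e'} := by
  obtain ⟨n, -, -, h, -⟩ := hp Edge (nx pz ω) e (hb.1 ℤ ℤ pz ω hb.2.2.1).1 (orb_fin he)
  ext e'
  rw [hb.2.2.2.1]
  constructor
  · intro hc
    have : e' ∈ {e' | Cls (nx pz ω) e e'} := hc
    rw [h] at this
    obtain ⟨k, -, hk⟩ := this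
    exact ⟨k, hk⟩
  · rintro ⟨k, hk⟩
    exact ⟨k, 0, hk⟩

theorem pw_congr (hb : S_bas) (hp : S_per) {W : Finset Edge} (j : Edge → ℝ) {N : ℕ} {ω ω' : Bond}
    (h : ∀ v ∈ bx N, ω v = ω' v) (hg : Good W N ω) : PW W j ω = PW W j ω' := by
  classical
  have hg' := good_congr h hg
  have hl : ∀ e ∈ W, loop ω e = loop ω' e := fun e he => by
    rw [loop_eq hb hp (hg e he), loop_eq hb hp (hg' e he)]
    simp only [iter_eq h (hg e he)]
  unfold PW
  refine prod_congr (image_congr fun e he => hl e he) fun l hlm => ?_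
  obtain ⟨e, he, rfl⟩ := mem_image.1 hlm
  have : ∑ᶠ e' ∈ loop ω' e, kap pz ω e' = ∑ᶠ e' ∈ loop ω' e, kap pz ω' e' := by
    refine finsum_mem_congr rfl fun e' he' => ?_
    rw [loop_eq hb hp (hg' e he)] at he'
    obtain ⟨k, rfl⟩ := he'
    exact kap_congr (h _ (hd_mem (hg' e he k)))
  rw [this]

theorem pw_le (W : Finset Edge) (j : Edge → ℝ) (ω : Bond) : |PW W j ω| ≤ 2 ^ W.card := by
  classical
  unfold PW
  rw [abs_prod]
  refine (prod_le_prod (g := fun _ => (2 : ℝ)) (fun l _ => abs_nonneg _) fun l _ => ?_).trans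
    ((prod_const _).le.trans (pow_le_pow_right₀ one_le_two card_image_le))
  rw [abs_mul, abs_two]
  have := Real.abs_cos_le_one (Real.pi / 12 * (∑ᶠ e ∈ l, kap pz ω e : ℤ) + ∑ e ∈ W, j e * ul l e)
  linarith

end Gl

theorem s_gl (hb : S_bas) (hp : S_per) : S_gl := by
  intro W j N
  have hc : ∀ ω ω' : Bond, (∀ v ∈ Gl.bx N, ω v = ω' v) → (Good W N ω ↔ Good W N ω') :=
    fun ω ω' h => ⟨Gl.good_congr h, Gl.good_congr fun v hv => (h v hv).symm⟩
  refine ⟨⟨Gl.bx N, fun ω ω' h => ?_⟩, ⟨Gl.bx N, fun ω ω' h => ?_⟩, fun ω => ⟨Gl.pw_le W j ω,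
    fun hg e he => ?_⟩⟩
  · show chi (Good W N ω) = chi (Good W N ω')
    rw [propext (hc ω ω' h)]
  · show chi (Good W N ω) * PW W j ω = chi (Good W N ω') * PW W j ω'
    by_cases hg : Good W N ω
    · rw [Gl.pw_congr hb hp j h hg, propext (hc ω ω' h)]
    · have hg' : ¬Good W N ω' := fun h' => hg ((hc ω ω' h).2 h')
      simp [chi, hg, hg']
  · rw [Gl.loop_eq hb hp (hg e he)]
    exact Gl.orb_fin (hg e he)

end Vale.Agent.P167.Pc
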