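import Vale.Agent.P167.PcStm3

/-! P167, percolation: independence and finite energy. -/

open MeasureTheory Filter Topology Finset
open scoped BigOperators

namespace Vale.Agent.P167.Pc

open Vale.Agent.P152

namespace Ind

theorem fin_ind {E : Type} [Fintype E] [DecidableEq E] (A : E → Prop) [DecidablePred A]
    (f g : (E → Bool) → ℝ) (hf : ∀ ω ω', (∀ v, A v → ω v = ω' v) → f ω = f ω')
    (hg : ∀ ω ω', (∀ v, ¬A v → ω v = ω' v) → g ω = g ω') :
    𝔼 ω, f ω * g ω = (𝔼 ω, f ω) * 𝔼 ω, g ω := by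
  let m : (E → Bool) × (E → Bool) → (E → Bool) × (E → Bool) := fun p =>
    (fun v => if A v then p.1 v else p.2 v, fun v => if A v then p.2 v else p.1 v)
  have hm : Function.Involutive m := fun p => by
    ext v <;> by_cases h : A v <;> simp [m, h]
  have h1 : 𝔼 ω, f ω * g ω = 𝔼 p : (E → Bool) × (E → Bool), f p.1 * g p.1 := by
    rw [← univ_product_univ, expect_product]
    simp
  have h2 : (𝔼 ω, f ω) * 𝔼 ω, g ω = 𝔼 p : (E → Bool) × (E → Bool), f p.1 * g p.2 := by
    rw [← univ_product_univ, expect_product, expect_mul_expect]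
  rw [h1, h2]
  refine Fintype.expect_equiv hm.toPerm _ _ fun p => ?_
  rw [hf p.1 (m p).1 fun v h => by simp [m, h], hg p.1 (m p).2 fun v h => by simp [m, h]]
  rfl

theorem int_eq (h : S_int) (S : Finset (ℤ × ℤ)) (G : Bond → ℝ)
    (hG : ∀ ω ω' : Bond, (∀ v ∈ S, ω v = ω' v) → G ω = G ω') :
    ∫ ω, G ω ∂perc = 𝔼 η : S → Bool, G fun v => if h : v ∈ S then η ⟨v, h⟩ else true := by
  rw [(h S G hG).2.2, Fintype.expect_eq_sum_div_card]
  simp

theorem intg (h : S_int) (S : Finset (ℤ × ℤ)) (G : Bond → ℝ)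
    (hG : ∀ ω ω' : Bond, (∀ v ∈ S, ω v = ω' v) → G ω = G ω') : Integrable G perc := by
  obtain ⟨h1, ⟨b, h2⟩, -⟩ := h S G hG
  have : IsProbabilityMeasure perc := by unfold perc; infer_instance
  exact Integrable.of_bound h1.aestronglyMeasurable b (Eventually.of_forall h2)

end Ind

theorem s_ind (h : S_int) : S_ind := by
  intro S S' F G hd hF hG
  have hF' : ∀ ω ω' : Bond, (∀ v ∈ S ∪ S', ω v = ω' v) → F ω = F ω' :=
    fun ω ω' e => hF ω ω' fun v hv => e v (mem_union_left _ hv)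
  have hG' : ∀ ω ω' : Bond, (∀ v ∈ S ∪ S', ω v = ω' v) → G ω = G ω' :=
    fun ω ω' e => hG ω ω' fun v hv => e v (mem_union_right _ hv)
  rw [Ind.int_eq h (S ∪ S') _ fun ω ω' e => by rw [hF' ω ω' e, hG' ω ω' e],
    Ind.int_eq h _ F hF', Ind.int_eq h _ G hG']
  refine Ind.fin_ind (fun v : (S ∪ S' : Finset (ℤ × ℤ)) => v.1 ∈ S) _ _
    (fun η η' e => hF _ _ fun v hv => ?_) fun η η' e => hG _ _ fun v hv => ?_
  · rw [dif_pos (mem_union_left _ hv), dif_pos (mem_union_left _ hv)]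
    exact e _ hv
  · rw [dif_pos (mem_union_right _ hv), dif_pos (mem_union_right _ hv)]
    exact e _ (Finset.disjoint_right.1 hd hv)

theorem s_fe (h : S_int) : S_fe := by
  intro R G ⟨S, hS⟩ h0
  let I : Bond → ℝ := fun ω => if ∀ v ∈ R, ω v = true then 1 else 0
  let H : Bond → ℝ := fun ω => G fun v => if v ∈ R then true else ω v
  have hI : ∀ ω ω' : Bond, (∀ v ∈ R, ω v = ω' v) → I ω = I ω' := fun ω ω' e =>
    if_congr (forall₂_congr fun v hv => by rw [e v hv]) rfl rfl
  have hH : ∀ ω ω' : Bond, (∀ v ∈ S \ R, ω v = ω' v) → H ω = H ω' := fun ω ω' e =>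
    hS _ _ fun v hv => by
      by_cases hr : v ∈ R
      · rw [if_pos hr, if_pos hr]
      · rw [if_neg hr, if_neg hr, e v (mem_sdiff.2 ⟨hv, hr⟩)]
  have h1 := s_ind h R (S \ R) I H disjoint_sdiff hI hH
  have hI0 : ∀ ω, 0 ≤ I ω := fun ω => by simp only [I]; split_ifs <;> norm_num
  have h2 : ∫ ω, I ω * H ω ∂perc ≤ ∫ ω, G ω ∂perc := by
    refine integral_mono_of_nonneg (Eventually.of_forall fun ω => mul_nonneg (hI0 ω) (h0 _))
      (Ind.intg h S G hS) (Eventually.of_forall fun ω => ?_)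
    by_cases e : ∀ v ∈ R, ω v = true
    · simp only [I, H, if_pos e, one_mul]
      refine le_of_eq (congrArg G (funext fun v => ?_))
      split_ifs with hv
      exacts [(e v hv).symm, rfl]
    · simp only [I, if_neg e, zero_mul]
      exact h0 ω
  have h3 : 1 / 2 ^ R.card ≤ ∫ ω, I ω ∂perc := by
    rw [(h R I hI).2.2]
    refine div_le_div_of_nonneg_right ?_ (by positivity)
    refine le_trans (le_of_eq ?_) (single_le_sum (fun η _ => hI0 _) (mem_univ fun _ => true))
    simp [I]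
  have h4 : 0 ≤ ∫ ω, H ω ∂perc := integral_nonneg fun ω => h0 _
  have h5 := (mul_le_mul_of_nonneg_right h3 h4).trans (h1.symm.le.trans h2)
  rw [one_div, inv_mul_le_iff₀ (by positivity)] at h5
  exact h5

end Vale.Agent.P167.Pc
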