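import Vale.Agent.P167.PcStm3

open Finset

namespace Vale.Agent.P167.Pc

open Vale.Agent.P152

namespace Inf

theorem shift (f : ℕ → ℤ) (n : ℕ) (c : ℤ) (h : ∀ k, f (k + n) = f k + c) (r q : ℕ) :
    f (r + q * n) = f r + q * c := by
  induction q with
  | zero => simp
  | succ q ih =>
    rw [show r + (q + 1) * n = r + q * n + n by ring, h, ih]
    push_cast
    ring

theorem lip (f : ℕ → ℤ) (h : ∀ k, f (k + 1) - f k = 1 ∨ f (k + 1) - f k = -1) (k : ℕ) :
    |f k - f 0| ≤ k := by
  induction k with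
  | zero => simp
  | succ k ih =>
    rw [abs_le] at ih ⊢
    push_cast
    rcases h k with h | h <;> constructor <;> linarith [ih.1, ih.2]

theorem dir (t : ℤ × ℤ) (ht : t ≠ 0) : ∃ a b : ℤ, |a| + |b| = 1 ∧ 1 ≤ a * t.1 + b * t.2 := by
  rcases lt_trichotomy t.1 0 with h | h | h
  · exact ⟨-1, 0, by simp, by omega⟩
  · rcases lt_trichotomy t.2 0 with h' | h' | h'
    · exact ⟨0, -1, by simp, by omega⟩
    · exact absurd (Prod.ext h h') ht
    · exact ⟨0, 1, by simp, by omega⟩
  · exact ⟨1, 0, by simp, by omega⟩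

theorem tele (κ : ℕ → ℤ) (i N : ℕ) : ∑ k ∈ range N, (κ (i + k) + κ (i + k + 1)) =
    2 * ∑ k ∈ range (i + N + 1), κ k - 2 * ∑ k ∈ range i, κ k - κ (i + N) - κ i := by
  induction N with
  | zero =>
    simp only [range_zero, sum_empty, add_zero, sum_range_succ]
    ring
  | succ N ih =>
    rw [sum_range_succ, ih, ← add_assoc i N 1, sum_range_succ _ (i + N + 1)]
    ring

theorem turn (ho : S_open) (p : ℕ → ℤ × ℤ) (κ : ℕ → ℤ) (n : ℕ) (hn : 0 < n) (t : ℤ × ℤ)
    (ht : t ≠ 0) (h1 : ∀ k, (p (k + n)).1 = (p k).1 + 2 * t.1)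
    (h2 : ∀ k, (p (k + n)).2 = (p k).2 + 2 * t.2) (hκ : ∀ k, κ (k + n) = κ k)
    (hκ1 : ∀ k, |κ k| ≤ 1) (hd : ∀ k, Dg (p (k + 1) - p k)) (hi : Function.Injective p)
    (hc : ∀ i, cp p i = κ i + κ (i + 1)) : ∑ k ∈ range n, κ k = 0 := by
  obtain ⟨a, b, hab, hτ⟩ := dir t ht
  set τ := a * t.1 + b * t.2 with hτd
  let f : ℕ → ℤ := fun k => a * (p k).1 + b * (p k).2
  have hf : ∀ r q, f (r + q * n) = f r + q * (2 * τ) := shift f n _ fun k => by
    simp only [f, h1, h2, hτd]
    ring
  let A : ℕ → ℤ := fun k => ∑ i ∈ range k, κ i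
  have hA1 : ∀ k, A (k + n) = A k + A n := fun k => by
    induction k with
    | zero => simp [A]
    | succ k ih =>
      simp only [A] at ih ⊢
      rw [show k + 1 + n = k + n + 1 by ring, sum_range_succ, sum_range_succ, ih, hκ]
      ring
  have hA := shift A n _ hA1
  have hne : (range n).Nonempty := ⟨0, mem_range.2 hn⟩
  obtain ⟨i0, hi0, hmin⟩ := exists_min_image (range n) f hne
  obtain ⟨i1, hi1, hmax⟩ := exists_max_image (range n) f hne
  rw [mem_range] at hi0 hi1
  have hdec : ∀ k, f k = f (k % n) + (k / n : ℕ) * (2 * τ) := fun k => by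
    rw [← hf, Nat.mod_add_div']
  have hlo : ∀ k, f i0 ≤ f k := fun k => by
    have := hmin (k % n) (mem_range.2 (Nat.mod_lt k hn))
    have h0 : (0 : ℤ) ≤ (k / n : ℕ) * (2 * τ) := by positivity
    rw [hdec k]
    linarith
  have hhi : ∀ m k, k ≤ i1 + m * n → f k ≤ f (i1 + m * n) := fun m k hk => by
    have := hmax (k % n) (mem_range.2 (Nat.mod_lt k hn))
    have h3 : k / n < m + 1 := by
      rw [Nat.div_lt_iff_lt_mul hn]
      calc k ≤ i1 + m * n := hk
        _ < (m + 1) * n := by rw [add_mul, one_mul]; omega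
    have h4 : ((k / n : ℕ) : ℤ) ≤ m := by exact_mod_cast Nat.lt_succ_iff.1 h3
    have h5 : ((k / n : ℕ) : ℤ) * (2 * τ) ≤ m * (2 * τ) :=
      mul_le_mul_of_nonneg_right h4 (by linarith)
    rw [hdec k, hf]
    linarith
  have key : ∀ m : ℕ, |2 * (((m + 1 : ℕ) : ℤ) * A n)| ≤ 42 + 2 * |A i0| + 2 * |A i1| := fun m => by
    obtain ⟨N, hN⟩ : ∃ N, i0 + N + 1 = i1 + (m + 1) * n :=
      ⟨i1 + (m + 1) * n - i0 - 1, by rw [add_mul, one_mul]; omega⟩
    have h := ho (fun k => p (i0 + k)) N a b hab (fun i _ => hd (i0 + i))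
      (fun x _ y _ e => Nat.add_left_cancel (hi e)) fun i hi => ⟨hlo (i0 + i), by
        have := hhi (m + 1) (i0 + i) (by omega)
        rw [← hN] at this
        exact this⟩
    have e : ∑ i ∈ range N, cp (fun k => p (i0 + k)) i =
        ∑ k ∈ range N, (κ (i0 + k) + κ (i0 + k + 1)) := sum_congr rfl fun i _ => by
      rw [← hc]
      rfl
    rw [e, tele, hN] at h
    have h6 := hA i1 (m + 1)
    simp only [A] at h6 ⊢
    rw [h6] at h
    have k1 := abs_le.1 (hκ1 (i0 + N))
    have k2 := abs_le.1 (hκ1 i0)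
    have k3 := abs_le.1 h
    have k4 := le_abs_self (∑ i ∈ range i0, κ i)
    have k5 := neg_abs_le (∑ i ∈ range i0, κ i)
    have k6 := le_abs_self (∑ i ∈ range i1, κ i)
    have k7 := neg_abs_le (∑ i ∈ range i1, κ i)
    rw [abs_le]
    constructor <;> linarith [k1.1, k1.2, k2.1, k2.2, k3.1, k3.2]
  by_contra hne0
  have h7 : 1 ≤ |A n| := Int.one_le_abs hne0
  have h8 := key (42 + 2 * |A i0| + 2 * |A i1|).toNat
  have h9 : (0 : ℤ) ≤ 42 + 2 * |A i0| + 2 * |A i1| := by positivity
  rw [abs_mul, abs_mul, Nat.cast_add, Int.toNat_of_nonneg h9, Nat.cast_one,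
    abs_of_nonneg (by linarith : (0 : ℤ) ≤ 42 + 2 * |A i0| + 2 * |A i1| + 1), abs_two] at h8
  nlinarith

end Inf

open Inf in
theorem s_inf (hb : S_bas) (hm : S_mid) (ho : S_open) : S_inf := by
  intro ω e n t ht hev hω he
  have hw : (fun v => ω (v + t)) = ω := funext hω
  have htr := fun x => hb.2.2.2.2.1 ω t x hev
  have hg : Function.Injective (nx pz ω) := (hb.1 ℤ ℤ pz ω hb.2.2.1).1
  have hs : ∀ k, (nx pz ω)^[k + n] e = (((nx pz ω)^[k] e).1 + t, ((nx pz ω)^[k] e).2) := fun k => by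
    induction k with
    | zero => simpa using he
    | succ k ih =>
      rw [show k + 1 + n = k + n + 1 by ring, Function.iterate_succ_apply', ih, (htr _).2.2, hw,
        Function.iterate_succ_apply']
  let p : ℕ → ℤ × ℤ := fun k => md ((nx pz ω)^[k] e)
  have h1 : ∀ k, (p (k + n)).1 = (p k).1 + 2 * t.1 := fun k => by
    simp only [p, hs, md, Prod.fst_add]
    ring
  have h2 : ∀ k, (p (k + n)).2 = (p k).2 + 2 * t.2 := fun k => by
    simp only [p, hs, md, Prod.snd_add]
    ring
  have hd' : ∀ k, Dg (p (k + 1) - p k) := fun k => by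
    simp only [p, Function.iterate_succ_apply']
    exact (hm.2 ω _).1
  have hn : 0 < n := by
    rcases Nat.eq_zero_or_pos n with h | h
    · subst h
      have a1 := h1 0
      have a2 := h2 0
      exact absurd (Prod.ext (by simpa using a1) (by simpa using a2)) ht
    · exact h
  have hq : ∀ i q, p i = p (i + q) → q = 0 := fun i q h => by
    have h3 := hm.1 h
    rw [Function.iterate_add_apply] at h3
    have h4 : Function.IsPeriodicPt (nx pz ω) q e := ((hg.iterate i) h3).symm
    have h5 : p (0 + q * n) = p 0 := by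
      simp only [p, zero_add]
      rw [(h4.mul_const n).eq]
      rfl
    have a1 := shift (fun k => (p k).1) n _ h1 0 q
    have a2 := shift (fun k => (p k).2) n _ h2 0 q
    simp only [h5] at a1 a2
    by_contra hq0
    have hq1 : (q : ℤ) ≠ 0 := by exact_mod_cast hq0
    refine ht (Prod.ext ?_ ?_)
    · have : (q : ℤ) * (2 * t.1) = 0 := by linarith
      simpa [hq0] using this
    · have : (q : ℤ) * (2 * t.2) = 0 := by linarith
      simpa [hq0] using this
  have hi : Function.Injective p := fun i j h => by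
    rcases le_total i j with l | l
    · obtain ⟨q, rfl⟩ := Nat.exists_eq_add_of_le l
      rw [hq i q h, add_zero]
    · obtain ⟨q, rfl⟩ := Nat.exists_eq_add_of_le l
      rw [hq j q h.symm, add_zero]
  refine ⟨turn ho p (fun k => kap pz ω ((nx pz ω)^[k] e)) n hn t ht h1 h2 (fun k => ?_)
    (fun k => ?_) hd' hi (hm.2 ω e).2, ?_, ?_⟩
  · simp only [hs, kap]
    rw [(htr _).2.1, hω]
  · simp only [kap]
    split_ifs <;> simp
  · have a := lip (fun k => (p k).1) (fun k => (hd' k).1) n
    have b := h1 0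
    rw [zero_add] at b
    simp only [b, add_sub_cancel_left, abs_mul, abs_two] at a
    exact a
  · have a := lip (fun k => (p k).2) (fun k => (hd' k).2) n
    have b := h2 0
    rw [zero_add] at b
    simp only [b, add_sub_cancel_left, abs_mul, abs_two] at a
    exact a

end Vale.Agent.P167.Pc
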