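import Vale.Agent.P167.PcStm3

open MeasureTheory Filter Topology Finset

namespace Vale.Agent.P167.Pc

open Vale.Agent.P152

theorem s_int : S_int := by
  intro S G hG
  obtain ⟨G0, h0⟩ : ∃ G0 : (S → Bool) → ℝ,
      G0 = fun η => G fun v => if h : v ∈ S then η ⟨v, h⟩ else true := ⟨_, rfl⟩
  have e : G = fun ω => G0 (S.restrict ω) := by
    funext ω
    rw [h0]
    exact hG _ _ fun v hv => by simp [hv]
  have m0 : Measurable G0 := measurable_of_finite G0
  refine ⟨?_, ?_, ?_⟩
  · rw [e]
    exact m0.comp (Finset.measurable_restrict S)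
  · obtain ⟨b, hb⟩ := (Set.finite_range fun η => |G0 η|).bddAbove
    exact ⟨b, fun ω => by rw [e]; exact hb ⟨_, rfl⟩⟩
  · have h1 : ∫ ω, G ω ∂perc =
        ∫ η, G0 η ∂(Measure.pi fun _ : S => (PMF.uniformOfFintype Bool).toMeasure) := by
      rw [e]
      exact integral_restrict_infinitePi _ m0.aestronglyMeasurable
    rw [h1, integral_fintype Integrable.of_finite, ← h0, Finset.sum_div]
    refine Finset.sum_congr rfl fun η _ => ?_
    rw [measureReal_def, Measure.pi_singleton]
    simp [PMF.toMeasure_apply_singleton, PMF.uniformOfFintype_apply, div_eq_inv_mul]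

end Vale.Agent.P167.Pc
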