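import Vale.Agent.P167.PcStm3

/-! P167, percolation: invariance of the measure. -/

open MeasureTheory

namespace Vale.Agent.P167.Pc

open Vale.Agent.P152

namespace Inv

theorem flip (b : Bool) : ((PMF.uniformOfFintype Bool).toMeasure).map (fun x => xor b x) =
    (PMF.uniformOfFintype Bool).toMeasure := by
  refine Measure.ext_of_singleton fun x => ?_
  rw [Measure.map_apply (measurable_of_countable _) (measurableSet_singleton x)]
  have e : (fun y => xor b y) ⁻¹' {x} = {xor b x} := by
    ext y
    cases b <;> cases x <;> cases y <;> simp
  rw [e, PMF.toMeasure_apply_singleton _ _ (measurableSet_singleton _),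
    PMF.toMeasure_apply_singleton _ _ (measurableSet_singleton _), PMF.uniformOfFintype_apply,
    PMF.uniformOfFintype_apply]

end Inv

theorem s_inv : S_inv := by
  intro g b hg
  have h1 : MeasurePreserving (fun (s : Bond) v => s (g v)) perc perc :=
    ⟨measurable_pi_lambda _ fun v => measurable_pi_apply (g v),
      Measure.map_infinitePi_infinitePi_of_inj
        (P := fun _ : ℤ × ℤ => (PMF.uniformOfFintype Bool).toMeasure) hg⟩
  have h2 : MeasurePreserving (fun (s : Bond) v => xor b (s v)) perc perc := by
    refine ⟨measurable_pi_lambda _ fun v =>
      (measurable_of_countable fun x => xor b x).comp (measurable_pi_apply v), ?_⟩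
    have e := Measure.infinitePi_map_pi (fun _ : ℤ × ℤ => (PMF.uniformOfFintype Bool).toMeasure)
      (f := fun _ x => xor b x) fun _ => measurable_of_countable _
    simp only [Inv.flip] at e
    exact e
  exact h2.comp h1

end Vale.Agent.P167.Pc
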