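import Vale.Agent.P167.PcStm3

/-! P167, percolation: the limit at a fixed mesh and the conclusion. -/

open MeasureTheory Filter Topology Finset

namespace Vale.Agent.P167.Pc

open Vale.Agent.P152

theorem s_lim (ht : S_tex) : S_lim := by
  intro P hP W j N
  obtain ⟨a, h1, h2⟩ := hP.2 (fun o => Real.cos (∑ e ∈ W, j e * sg (o e)))
    ⟨W, fun o o' h => congrArg Real.cos (Finset.sum_congr rfl fun e he => by rw [h e he])⟩
  refine le_of_forall_pos_le_add fun ε hε => ?_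
  obtain ⟨L0, hL⟩ := ht W j N ε hε
  refine le_of_tendsto ((h2.sub_const _).abs) ?_
  filter_upwards [eventually_ge_atTop L0] with l hl
  have hm : Tendsto (fun m : ℕ => 2 * m + 1) atTop atTop :=
    tendsto_atTop_mono (fun m => by simp only [id]; omega) tendsto_id
  refine le_of_tendsto ((((h1 l).comp hm).sub_const _).abs) ?_
  filter_upwards [eventually_ge_atTop l] with m hm
  exact hL (2 * m + 1 + 1) (2 * l + 2) ⟨m + 1, by ring⟩ ⟨l + 1, by ring⟩ (by omega) (by omega)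

/-- the statement -/
def Goal : Prop := (∀ᵐ ω ∂perc, ∀ e, (loop ω e).Finite) ∧ ∀ f : ℝ × ℝ → ℝ, IsTest f →
  (∀ δ > 0, (∀ ω, {l ∈ loops ω | mass δ f l ≠ 0}.Finite) ∧ Integrable (Phi δ f) perc) ∧
  Tendsto (fun δ => ∫ ω, Phi δ f ω ∂perc) (𝓝[>] 0)
    (𝓝 (Real.exp (-(3 / (2 * Real.pi)) * gcov f f)))

theorem goal_of (hG : ∃ P : Measure Ori, IsLimit √3 P ∧ ∃ σ : ℝ,
      σ ^ 2 = 1 / Real.arcsin (√3 / 2) ∧ ConvGFF P σ)
    (hl : S_lim) (hc : S_cut) (ha : S_arm) (hr : S_rep) (hp : S_phi) (hg : S_gauss) : Goal := by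
  obtain ⟨P, hP, σ, hσ, hG⟩ := hG
  refine ⟨ae_all_iff.2 fun e => ?_, fun f hf => ⟨fun δ hδ => ?_, ?_⟩⟩
  · filter_upwards [(hc {e} 0 _ fun _ _ => rfl).1] with ω h using h e (mem_singleton_self e)
  · obtain ⟨X, g, W, j, h⟩ := hr δ hδ f hf
    exact ⟨fun ω => (hp δ f X g W j h ω).1, (hc W j _ fun ω => (hp δ f X g W j h ω).2).2.1⟩
  · have e : Real.arcsin (√3 / 2) = Real.pi / 3 := by
      rw [← Real.sin_pi_div_three]
      exact Real.arcsin_sin (by linarith [Real.pi_pos]) (by linarith [Real.pi_pos])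
    have e2 : -(σ ^ 2 * gcov f f) / 2 = -(3 / (2 * Real.pi)) * gcov f f := by
      rw [hσ, e]; field_simp
    have t := hg P σ hG f hf
    rw [e2] at t
    refine t.congr' ?_
    filter_upwards [self_mem_nhdsWithin] with δ hδ
    obtain ⟨X, g, W, j, h⟩ := hr δ hδ f hf
    have h1 := (hc W j _ fun ω => (hp δ f X g W j h ω).2).2.2
    have h2 : Tendsto (fun N => 2 ^ W.card * (1 - ∫ ω, chi (Good W N ω) ∂perc)) atTop (𝓝 0) := by
      simpa using ((ha W).const_sub 1).const_mul ((2 : ℝ) ^ W.card)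
    have h3 := le_of_tendsto_of_tendsto' ((h1.const_sub _).abs) h2 (hl P hP W j)
    simp only [h.ht]
    exact sub_eq_zero.1 (abs_nonpos_iff.1 h3)

end Vale.Agent.P167.Pc
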