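import Vale.Agent.P167.PcStm3

/-! P167, percolation: the tilt is not seen locally. -/

open MeasureTheory Filter Topology Finset

namespace Vale.Agent.P167.Pc

open Vale.Agent.P152

namespace Loc

theorem inj1 {n K k : ℕ} (hK : 2 * k < K) {u u' : ℤ} (h1 : -(k : ℤ) ≤ u ∧ u ≤ k)
    (h2 : -(k : ℤ) ≤ u' ∧ u' ≤ k) {i i' : Fin (n / K)}
    (h : ((u + K * (i : ℕ) : ℤ) : ZMod n) = ((u' + K * (i' : ℕ) : ℤ) : ZMod n)) :
    u = u' ∧ i = i' := by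
  have b : ∀ j : Fin (n / K), (K : ℤ) * (j : ℕ) + K ≤ n ∧ 0 ≤ (K : ℤ) * (j : ℕ) := fun j => by
    have e1 : K * ((j : ℕ) + 1) ≤ n :=
      (Nat.mul_le_mul_left K j.2).trans (Nat.mul_div_le n K)
    have e2 : (K : ℤ) * ((j : ℕ) + 1) ≤ n := by exact_mod_cast e1
    exact ⟨by linarith, by positivity⟩
  have hK' : 2 * (k : ℤ) < K := by exact_mod_cast hK
  have b1 := b i
  have b2 := b i'
  have e := Int.eq_zero_of_abs_lt_dvd ((ZMod.intCast_eq_intCast_iff_dvd_sub _ _ _).1 h)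
    (abs_lt.2 ⟨by linarith, by linarith⟩)
  have d : (K : ℤ) ∣ u - u' := ⟨(i' : ℕ) - (i : ℕ), by linarith⟩
  have e2 := Int.eq_zero_of_abs_lt_dvd d (abs_lt.2 ⟨by linarith, by linarith⟩)
  have e3 : (K : ℤ) * (i : ℕ) = K * (i' : ℕ) := by linarith
  have e4 : ((i : ℕ) : ℤ) = (i' : ℕ) := mul_left_cancel₀ (by linarith) e3
  exact ⟨by linarith, Fin.ext (by exact_mod_cast e4)⟩

theorem num {p q A K s b ε D : ℝ} (hp : 0 < p) (hq : 0 < q) (hs : 0 < s) (hA : A ≤ 2 * K * p)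
    (h1 : 4 * K ≤ q * (s * ε)) (h2 : s * b ^ 2 ≤ ε / 2)
    (h : p * q * s * D ≤ A + p * q * (s * b) ^ 2) : D ≤ ε := by
  have h3 : 0 < p * q * s := by positivity
  have h4 := mul_le_mul_of_nonneg_left h1 hp.le
  have h5 := mul_le_mul_of_nonneg_left h2 h3.le
  refine le_of_mul_le_mul_left ?_ h3
  nlinarith

theorem shift {V : Type} [AddGroup V] [Fintype V] [DecidableEq V] (c : V) (F : (V → Bool) → ℝ) :
    ∑ ω : V → Bool, F (fun v => ω (v + c)) = ∑ ω, F ω :=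
  Equiv.sum_comp (⟨fun ω v => ω (v + c), fun ω v => ω (v - c), fun ω => by simp,
    fun ω => by simp⟩ : (V → Bool) ≃ (V → Bool)) F

theorem pv_add (M L : ℕ) (x y : ℤ × ℤ) : pv M L (x + y) = pv M L x + pv M L y := by
  simp [pv]

theorem box (S : Finset (ℤ × ℤ)) : ∃ k : ℕ, ∀ v ∈ S,
    (-(k : ℤ) ≤ v.1 ∧ v.1 ≤ k) ∧ -(k : ℤ) ≤ v.2 ∧ v.2 ≤ k := by
  refine ⟨S.sup fun v => v.1.natAbs + v.2.natAbs, fun v hv => ?_⟩
  have h : v.1.natAbs + v.2.natAbs ≤ S.sup fun v => v.1.natAbs + v.2.natAbs :=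
    Finset.le_sup (f := fun v : ℤ × ℤ => v.1.natAbs + v.2.natAbs) hv
  omega

end Loc

open Loc in
theorem s_loc (he : S_ent) (hi : S_int) : S_loc := by
  rintro G ⟨S, hS⟩ ε hε
  obtain ⟨-, ⟨b0, hb0⟩, hint⟩ := hi S G hS
  obtain ⟨k, hk⟩ := box S
  obtain ⟨b, hb1, hb⟩ : ∃ b : ℝ, 0 < b ∧ ∀ ω, |G ω| ≤ b :=
    ⟨max b0 1, lt_max_of_lt_right one_pos, fun ω => (hb0 ω).trans (le_max_left _ _)⟩
  obtain ⟨s, hs, hs1, hs2⟩ : ∃ s : ℝ, 0 < s ∧ s * b ≤ 1 ∧ s * b ^ 2 ≤ ε / 2 :=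
    ⟨min (1 / b) (ε / 2 / b ^ 2), lt_min (by positivity) (by positivity),
      (le_div_iff₀ hb1).1 (min_le_left _ _), (le_div_iff₀ (by positivity)).1 (min_le_right _ _)⟩
  obtain ⟨K, hK, hK2⟩ : ∃ K : ℕ, 2 * k < K ∧ Even (K : ℤ) :=
    ⟨2 * k + 2, by omega, ⟨k + 1, by push_cast; ring⟩⟩
  have hK0 : 0 < K := by omega
  obtain ⟨n, hn⟩ := exists_nat_ge (4 * (K : ℝ) / (s * ε))
  refine ⟨(n + 1) * K, fun M L _ _ hL hLM T hT hTs => ?_⟩
  have hq : n + 1 ≤ L / K := (Nat.le_div_iff_mul_le hK0).2 hL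
  have hp : n + 1 ≤ M / K := (Nat.le_div_iff_mul_le hK0).2 (hL.trans hLM)
  have hpos : 0 < ∑ ω, T ω := sum_pos (fun ω _ => one_pos.trans_le (hT ω).1) univ_nonempty
  have key := he (ZMod M × ZMod L) S (Fin (M / K) × Fin (L / K))
    (fun i u => pv M L ((u : ℤ × ℤ) + ((K : ℤ) * (i.1 : ℕ), (K : ℤ) * (i.2 : ℕ)))) T
    (fun η => G fun v => if h : v ∈ S then η ⟨v, h⟩ else true) (M * Real.log 2) b
    ((∑ ω, T ω * G (lf M L ω)) / ∑ ω, T ω) s ?_ ?_ (fun η => hb _) ?_ hs hs1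
  · rw [Fintype.card_coe, ← hint, Fintype.card_prod, Fintype.card_fin, Fintype.card_fin,
      Nat.cast_mul] at key
    refine num (K := K) (Nat.cast_pos.2 (by omega)) (Nat.cast_pos.2 (by omega)) hs ?_ ?_ hs2 key
    · have e1 : M ≤ 2 * K * (M / K) := by
        have e2 := Nat.lt_mul_div_succ M hK0
        have e3 : K * 1 ≤ K * (M / K) := Nat.mul_le_mul_left K (by omega)
        nlinarith
      have e4 : (M : ℝ) ≤ 2 * K * (M / K : ℕ) := by exact_mod_cast e1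
      have e5 : Real.log 2 ≤ 1 := by linarith [Real.log_le_sub_one_of_pos two_pos]
      exact (mul_le_of_le_one_right (Nat.cast_nonneg M) e5).trans e4
    · have e1 : (n : ℝ) ≤ (L / K : ℕ) := Nat.cast_le.2 (by omega)
      exact (div_le_iff₀ (by positivity)).1 (hn.trans e1)
  · rintro ⟨i, u⟩ ⟨i', u'⟩ h
    have h1 := inj1 hK (hk _ u.2).1 (hk _ u'.2).1 (congrArg Prod.fst h)
    have h2 := inj1 hK (hk _ u.2).2 (hk _ u'.2).2 (congrArg Prod.snd h)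
    exact Prod.ext (Prod.ext h1.2 h2.2) (Subtype.ext (Prod.ext h1.1 h2.1))
  · intro ω
    rw [Real.exp_nat_mul, Real.exp_log two_pos]
    exact hT ω
  · intro i
    rw [div_mul_cancel₀ _ hpos.ne', ← shift
      (pv M L ((K : ℤ) * (i.1 : ℕ), (K : ℤ) * (i.2 : ℕ))) fun ω => T ω * G (lf M L ω)]
    refine sum_congr rfl fun ω _ => ?_
    rw [hTs _ ω ((hK2.mul_right _).add (hK2.mul_right _))]
    refine congrArg (T ω * ·) (hS _ _ fun v hv => ?_)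
    rw [dif_pos hv]
    exact congrArg ω (pv_add M L _ _)

end Vale.Agent.P167.Pc
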