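import Vale.Agent.P167.PcStm3

namespace Vale.Agent.P167.Pc

open Vale.Agent.P152

namespace Mid

def s (b : Bool) : ℤ := if b then 1 else -1

theorem pz_sub1 (x y : ℤ) : pz (x - 1, y) = !pz (x, y) := by
  have : x - 1 + y = x + y - 1 := by ring
  simp only [pz, this, Int.even_sub_one, decide_not]

theorem pz_sub2 (x y : ℤ) : pz (x, y - 1) = !pz (x, y) := by
  have : x + (y - 1) = x + y - 1 := by ring
  simp only [pz, this, Int.even_sub_one, decide_not]

theorem pz_add1 (x y : ℤ) : pz (x + 1, y) = !pz (x, y) := by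
  have : x + 1 + y = x + y + 1 := by ring
  simp only [pz, this, Int.even_add_one, decide_not]

theorem pz_add2 (x y : ℤ) : pz (x, y + 1) = !pz (x, y) := by
  have : x + (y + 1) = x + y + 1 := by ring
  simp only [pz, this, Int.even_add_one, decide_not]

theorem hor (ω : Bond) (x y : ℤ) (e : Edge) (he : e = ((x, y), true)) :
    md (nx pz ω e) - md e = (s (rf pz e), -(s (rf pz e) * s (ω (hd pz e)))) ∧
      (nx pz ω e).2 = false ∧ s (rf pz (nx pz ω e)) = -(s (rf pz e) * s (ω (hd pz e))) := by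
  subst he
  cases hp : pz (x, y) <;> cases hw : ω (hd pz ((x, y), true)) <;>
    simp only [hd, rf, hp] at hw <;>
    simp at hw <;>
    simp [nx, hd, rf, hp, hw, md, s, pz_sub2, pz_add1] <;> omega

theorem ver (ω : Bond) (x y : ℤ) (e : Edge) (he : e = ((x, y), false)) :
    md (nx pz ω e) - md e = (s (rf pz e) * s (ω (hd pz e)), s (rf pz e)) ∧
      (nx pz ω e).2 = true ∧ s (rf pz (nx pz ω e)) = s (rf pz e) * s (ω (hd pz e)) := by
  subst he
  cases hp : pz (x, y) <;> cases hw : ω (hd pz ((x, y), false)) <;>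
    simp only [hd, rf, hp] at hw <;>
    simp at hw <;>
    simp [nx, hd, rf, hp, hw, md, s, pz_sub1, pz_add2] <;> omega

theorem hor' (ω : Bond) (e : Edge) (he : e.2 = true) :
    md (nx pz ω e) - md e = (s (rf pz e), -(s (rf pz e) * s (ω (hd pz e)))) ∧
      (nx pz ω e).2 = false ∧ s (rf pz (nx pz ω e)) = -(s (rf pz e) * s (ω (hd pz e))) :=
  hor ω e.1.1 e.1.2 e (Prod.ext rfl he)

theorem ver' (ω : Bond) (e : Edge) (he : e.2 = false) :
    md (nx pz ω e) - md e = (s (rf pz e) * s (ω (hd pz e)), s (rf pz e)) ∧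
      (nx pz ω e).2 = true ∧ s (rf pz (nx pz ω e)) = s (rf pz e) * s (ω (hd pz e)) :=
  ver ω e.1.1 e.1.2 e (Prod.ext rfl he)

theorem dg (ω : Bond) (e : Edge) : Dg (md (nx pz ω e) - md e) := by
  cases he : e.2
  · rw [(ver' ω e he).1]
    cases rf pz e <;> cases ω (hd pz e) <;> simp [Dg, s]
  · rw [(hor' ω e he).1]
    cases rf pz e <;> cases ω (hd pz e) <;> simp [Dg, s]

theorem cross (ω : Bond) (e : Edge) :
    (md (nx pz ω e) - md e).1 * (md (nx pz ω (nx pz ω e)) - md (nx pz ω e)).2 -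
      (md (nx pz ω e) - md e).2 * (md (nx pz ω (nx pz ω e)) - md (nx pz ω e)).1 =
      kap pz ω e + kap pz ω (nx pz ω e) := by
  cases he : e.2
  · obtain ⟨h1, h2, h3⟩ := ver' ω e he
    rw [h1, (hor' ω _ h2).1, h3, kap, kap]
    cases rf pz e <;> cases ω (hd pz e) <;> cases ω (hd pz (nx pz ω e)) <;> simp [s]
  · obtain ⟨h1, h2, h3⟩ := hor' ω e he
    rw [h1, (ver' ω _ h2).1, h3, kap, kap]
    cases rf pz e <;> cases ω (hd pz e) <;> cases ω (hd pz (nx pz ω e)) <;> simp [s]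

end Mid

theorem s_mid : S_mid := by
  refine ⟨?_, fun ω e => ⟨Mid.dg ω e, fun i => ?_⟩⟩
  · rintro ⟨⟨x, y⟩, b⟩ ⟨⟨x', y'⟩, b'⟩ h
    cases b <;> cases b' <;> simp [md] at h ⊢ <;> omega
  · simp only [cp, show i + 2 = i + 1 + 1 from rfl, Function.iterate_succ_apply']
    exact Mid.cross ω _

end Vale.Agent.P167.Pc
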