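import Vale.Agent.P167.PcStm2

/-! P167, percolation: no infinite arm. -/

open MeasureTheory Filter Topology

namespace Vale.Agent.P167.Pc

open Vale.Agent.P152

namespace Nop

theorem prob : IsProbabilityMeasure perc := by
  unfold perc
  infer_instance

theorem meas_int (hi : S_int) {F : Col → ℝ} (hF : CLoc F) :
    Measurable (fun s : Bond => F (col s)) ∧ Integrable (fun s : Bond => F (col s)) perc := by
  obtain ⟨A, hA⟩ := hF
  obtain ⟨hm, ⟨b, hb⟩, -⟩ := hi A (fun s => F (col s)) fun s s' e => hA _ _ fun x hx => by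
    unfold col
    rw [e x hx]
  haveI := prob
  exact ⟨hm, Integrable.of_bound hm.aestronglyMeasurable b (Eventually.of_forall hb)⟩

theorem ind_nonneg {α : Type} (A : Set α) (a : α) : 0 ≤ ind A a := by
  unfold ind
  split_ifs
  · exact zero_le_one
  · exact le_rfl

theorem col_dual (s : Bond) (y : Site) :
    col (fun v => xor true (s (v + (1, 1)))) y = !col s (y + (1, 1)) := by
  unfold col
  simp only [Prod.fst_add, Prod.snd_add, Int.odd_iff, Int.even_iff, Bool.true_xor]
  split_ifs <;> first | rfl | omega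

theorem arm_dual (s : Bond) (x : Site) (R : ℕ)
    (h : col (fun v => xor true (s (v + (1, 1)))) ∈ Arm NNa true x R) :
    col s ∈ Arm NNa false (x + (1, 1)) R := by
  have e : ∀ y, col (fun v => xor true (s (v + (1, 1)))) y = true →
      col s (y + (1, 1)) = false := fun y hy => by
    rw [col_dual] at hy
    simpa using hy
  obtain ⟨h0, y, hy, hp⟩ := h
  refine ⟨e x h0, y + (1, 1), ?_,
    hp.lift (fun y => y + (1, 1)) fun u v k => ⟨?_, e u k.2.1, e v k.2.2⟩⟩
  · simpa [sd] using hy
  · have := k.1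
    simp only [NFArm_nn, Prod.fst_add, Prod.snd_add] at this ⊢
    omega

theorem pp_dual (hi : S_int) (hv : S_inv) (x : Site) (R : ℕ) :
    pp (ind (Arm NNa true x R)) ≤ pp (ind (Arm NNa false (x + (1, 1)) R)) := by
  have hm := hv (fun v => v + (1, 1)) true (add_left_injective _)
  have h1 := meas_int hi (arm_loc nn_sd true x R)
  have h2 := meas_int hi (arm_loc nn_sd false (x + (1, 1)) R)
  have e : pp (ind (Arm NNa true x R)) =
      ∫ s, ind (Arm NNa true x R) (col fun v => xor true (s (v + (1, 1)))) ∂perc := by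
    unfold pp
    conv_lhs => rw [← hm.map_eq]
    exact integral_map hm.measurable.aemeasurable h1.1.aestronglyMeasurable
  rw [e]
  exact integral_mono_of_nonneg (Eventually.of_forall fun s => ind_nonneg _ _) h2.2
    (Eventually.of_forall fun s => ind_le (arm_dual s x R))

theorem pp_anti (hi : S_int) (x : Site) {R R' : ℕ} (h : R ≤ R') :
    pp (ind (Arm NNa true x R')) ≤ pp (ind (Arm NNa true x R)) := by
  refine integral_mono_of_nonneg (Eventually.of_forall fun s => ind_nonneg _ _)
    (meas_int hi (arm_loc nn_sd true x R)).2 (Eventually.of_forall fun s => ind_le ?_)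
  rintro ⟨h0, y, hy, hp⟩
  exact ⟨h0, y, le_trans (by exact_mod_cast h) hy, hp⟩

end Nop

theorem s_nop (hn : NCbond1) (h1 : S_pst) (h2 : S_pfe) (hi : S_int) (hv : S_inv) : S_nop := by
  intro x
  have h0 : ∀ R : ℕ, 0 ≤ pp (ind (Arm NNa true x R)) := fun R =>
    integral_nonneg fun s => Nop.ind_nonneg _ _
  rw [Metric.tendsto_atTop]
  intro ε hε
  by_contra hc
  have k : ∀ R : ℕ, ε ≤ pp (ind (Arm NNa true x R)) := fun R => by
    by_contra hR
    refine hc ⟨R, fun R' hR' => ?_⟩
    rw [Real.dist_eq, sub_zero, abs_of_nonneg (h0 R')]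
    exact (Nop.pp_anti hi x hR').trans_lt (not_le.1 hR)
  exact hn pp h1 h2.1 h2.2 ⟨ε, hε, x, k⟩
    ⟨ε, hε, x + (1, 1), fun R => (k R).trans (Nop.pp_dual hi hv x R)⟩

end Vale.Agent.P167.Pc
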