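import Vale.Agent.P167.PcStm3

/-! P167, percolation: the turning of an open path between two extreme points is bounded. -/

open Finset

namespace Vale.Agent.P167.Pc

open Vale.Agent.P152

namespace Open

theorem qd_bd (d : ℤ × ℤ) : -2 ≤ qd d ∧ qd d ≤ 1 := by
  unfold qd
  split_ifs <;> omega

theorem psi (a b : ℤ) (h : |a| + |b| = 1) : ∃ ψ : ℤ × ℤ → ℤ, (∀ u v, ψ v - ψ u ≤ 1) ∧
    ∀ u v : ℤ × ℤ, (u.1 ≠ 0 ∨ u.2 ≠ 0) → (v.1 ≠ 0 ∨ v.2 ≠ 0) → (v.2 - u.2 = 1 ∨ v.2 - u.2 = -1) →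
      0 ≤ a * u.1 + b * u.2 → 0 ≤ a * v.1 + b * v.2 → crs u v = ψ v - ψ u := by
  have hc : (a = 1 ∧ b = 0) ∨ (a = 0 ∧ b = 1) ∨ (a = -1 ∧ b = 0) ∨ (a = 0 ∧ b = -1) := by
    rcases abs_cases a with h1 | h1 <;> rcases abs_cases b with h2 | h2 <;> omega
  rcases hc with ⟨rfl, rfl⟩ | ⟨rfl, rfl⟩ | ⟨rfl, rfl⟩ | ⟨rfl, rfl⟩
  · refine ⟨fun _ => 0, fun _ _ => by simp, fun u v hu hv hd h1 h2 => ?_⟩
    simp only [crs]
    split_ifs <;> omega
  · refine ⟨fun _ => 0, fun _ _ => by simp, fun u v hu hv hd h1 h2 => ?_⟩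
    simp only [crs]
    split_ifs <;> omega
  · refine ⟨fun u => if u.2 < 0 then 1 else 0, fun u v => ?_, fun u v hu hv hd h1 h2 => ?_⟩
    · beta_reduce
      split_ifs <;> omega
    · simp only [crs]
      split_ifs <;> omega
  · refine ⟨fun u => if u.2 = 0 ∧ u.1 < 0 then -1 else 0, fun u v => ?_,
      fun u v hu hv hd h1 h2 => ?_⟩
    · beta_reduce
      split_ifs <;> omega
    · simp only [crs]
      split_ifs <;> omega

theorem ne {p : ℕ → ℤ × ℤ} {n i j : ℕ} (h : Set.InjOn p (Set.Iic (n + 1))) (hi : i ≤ n + 1)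
    (hj : j ≤ n + 1) (hij : i ≠ j) : (p i - p j).1 ≠ 0 ∨ (p i - p j).2 ≠ 0 := by
  by_contra hc
  rw [not_or, not_not, not_not] at hc
  exact hij (h hi hj (sub_eq_zero.1 (Prod.ext hc.1 hc.2)))

end Open

open Open

theorem s_open (h : S_sec) : S_open := by
  intro p n a b hab hd hi hm
  obtain ⟨ψ, h1, h2⟩ := psi a b hab
  have e1 : ∑ i ∈ range n, crs (p (i + 1) - p 0) (p (i + 2) - p 0) =
      ψ (p (n + 1) - p 0) - ψ (p (0 + 1) - p 0) := by
    rw [← sum_range_sub (fun i => ψ (p (i + 1) - p 0)) n]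
    refine sum_congr rfl fun i hi' => ?_
    have hn := mem_range.1 hi'
    have d := (hd (i + 1) (by omega)).2
    have m1 := (hm (i + 1) (by omega)).1
    have m2 := (hm (i + 2) (by omega)).1
    refine h2 _ _ (ne hi (by omega) (by omega) (by omega)) (ne hi (by omega) (by omega) (by omega))
      ?_ ?_ ?_
    · have e : (p (i + 2) - p 0).2 - (p (i + 1) - p 0).2 = (p (i + 1 + 1) - p (i + 1)).2 := by
        simp only [Prod.snd_sub]
        ring
      rw [e]
      exact d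
    · simp only [Prod.fst_sub, Prod.snd_sub]
      linarith
    · simp only [Prod.fst_sub, Prod.snd_sub]
      linarith
  have e2 : ∑ i ∈ range n, crs (p (n + 1) - p i) (p (n + 1) - p (i + 1)) =
      ψ (p (n + 1) - p n) - ψ (p (n + 1) - p 0) := by
    rw [← sum_range_sub (fun i => ψ (p (n + 1) - p i)) n]
    refine sum_congr rfl fun i hi' => ?_
    have hn := mem_range.1 hi'
    have d := (hd i (by omega)).2
    have m1 := (hm i (by omega)).2
    have m2 := (hm (i + 1) (by omega)).2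
    refine h2 _ _ (ne hi (by omega) (by omega) (by omega)) (ne hi (by omega) (by omega) (by omega))
      ?_ ?_ ?_
    · simp only [Prod.snd_sub] at d ⊢
      omega
    · simp only [Prod.fst_sub, Prod.snd_sub]
      linarith
    · simp only [Prod.fst_sub, Prod.snd_sub]
      linarith
  rw [h p n hd hi, e1, e2, abs_le]
  have q1 := qd_bd (p (n + 1) - p n)
  have q2 := qd_bd (p 1 - p 0)
  have r1 := h1 (p (n + 1) - p n) (p (0 + 1) - p 0)
  have r2 := h1 (p (0 + 1) - p 0) (p (n + 1) - p n)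
  omega

end Vale.Agent.P167.Pc
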