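import Vale.Agent.P167.PcStm3

/-! P167, percolation: a finite forward orbit of an injective map is periodic. -/

open MeasureTheory Filter Topology Finset

namespace Vale.Agent.P167.Pc

open Vale.Agent.P152

namespace Per

theorem mem_per {E : Type} {g : E → E} {e : E} (hg : Function.Injective g)
    (hf : {e' | ∃ k, g^[k] e = e'}.Finite) : e ∈ Function.periodicPts g := by
  have h1 : ¬ Function.Injective (fun k : ℕ => g^[k] e) := fun h =>
    Set.infinite_range_of_injective h hf
  have key : ∀ a b : ℕ, a < b → g^[a] e = g^[b] e → e ∈ Function.periodicPts g := by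
    intro a b hab h
    obtain ⟨c, rfl⟩ := Nat.exists_eq_add_of_lt hab
    refine ⟨c + 1, Nat.succ_pos c, ?_⟩
    rw [add_assoc, Function.iterate_add_apply] at h
    exact ((hg.iterate a) h).symm
  simp only [Function.Injective, not_forall] at h1
  obtain ⟨a, b, hab, hne⟩ := h1
  rcases lt_or_gt_of_ne hne with h | h
  · exact key a b h hab
  · exact key b a h hab.symm

end Per

theorem s_per : S_per := by
  intro E g e hg hf
  have hp := Per.mem_per hg hf
  have hpos := Function.minimalPeriod_pos_of_mem_periodicPts hp
  obtain ⟨n, hn⟩ : ∃ n, Function.minimalPeriod g e = n + 1 :=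
    ⟨Function.minimalPeriod g e - 1, by omega⟩
  have hper : g^[n + 1] e = e := by
    rw [← hn]
    exact Function.isPeriodicPt_minimalPeriod g e
  have hinj : Set.InjOn (fun k => g^[k] e) (Set.Iic n) := by
    have h := Function.iterate_injOn_Iio_minimalPeriod (f := g) (x := e)
    rw [hn] at h
    exact h.mono fun k hk => Nat.lt_succ_of_le hk
  have hmod : ∀ k, g^[k % (n + 1)] e = g^[k] e := fun k => by
    rw [← hn]
    exact Function.iterate_mod_minimalPeriod_eq
  have hset : {e' | Cls g e e'} = (fun k => g^[k] e) '' Set.Iic n := by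
    ext e2
    constructor
    · rintro ⟨a, b, hab⟩
      refine ⟨(a + b * n) % (n + 1), Nat.le_of_lt_succ (Nat.mod_lt _ (Nat.succ_pos n)), ?_⟩
      show g^[(a + b * n) % (n + 1)] e = e2
      rw [hmod]
      apply hg.iterate b
      rw [← Function.iterate_add_apply, ← hab, ← hmod (b + (a + b * n)), ← hmod a]
      have e1 : b + (a + b * n) = a + (n + 1) * b := by ring
      rw [e1, Nat.add_mul_mod_self_left]
    · rintro ⟨k, -, rfl⟩
      exact ⟨k, 0, rfl⟩
  refine ⟨n, hper, hinj, hset, fun F => ?_⟩
  have e2 : Set.Iic n = ((range (n + 1) : Finset ℕ) : Set ℕ) := by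
    ext k
    simp
  rw [hset, finsum_mem_image hinj, e2, finsum_mem_coe_finset]

end Vale.Agent.P167.Pc
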