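import Vale.Agent.P167.PcStm2

/-! P167, percolation: finite energy and reflection of the refined colouring. -/

open MeasureTheory Filter Topology

namespace Vale.Agent.P167.Pc

open Vale.Agent.P152

namespace Pfe

theorem prob : IsProbabilityMeasure perc := by
  unfold perc; infer_instance

theorem loc_col {F : Col → ℝ} (hF : CLoc F) : Loc (fun s => F (col s)) := by
  obtain ⟨A, hA⟩ := hF
  refine ⟨A, fun ω ω' h => hA _ _ fun x hx => ?_⟩
  unfold col
  rw [h x hx]

theorem loc_ov {G : Bond → ℝ} (hG : Loc G) (R : Finset (ℤ × ℤ)) :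
    Loc (fun ω => G (fun v => if v ∈ R then true else ω v)) := by
  obtain ⟨S, hS⟩ := hG
  refine ⟨S, fun ω ω' h => hS _ _ fun x hx => ?_⟩
  rw [h x hx]

theorem integ (hi : S_int) {G : Bond → ℝ} (hG : Loc G) : Integrable G perc := by
  obtain ⟨S, hS⟩ := hG
  obtain ⟨hm, ⟨b, hb⟩, -⟩ := hi S G hS
  have := prob
  exact Integrable.of_bound hm.aestronglyMeasurable b (Eventually.of_forall fun ω => hb ω)

/-- the ring -/
noncomputable def ring (n : ℕ) : Finset (ℤ × ℤ) :=
  (Finset.Icc (-(n : ℤ)) n ×ˢ Finset.Icc (-(n : ℤ)) n).filter fun x => sd x 0 = n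

theorem mem_ring (n : ℕ) (x : ℤ × ℤ) : x ∈ ring n ↔ sd x 0 = n := by
  unfold ring
  rw [Finset.mem_filter]
  refine ⟨fun h => h.2, fun h => ⟨?_, h⟩⟩
  unfold sd at h
  simp only [Prod.fst_zero, Prod.snd_zero, sub_zero] at h
  have h1 : |x.1| ≤ n := h ▸ le_max_left _ _
  have h2 : |x.2| ≤ n := h ▸ le_max_right _ _
  rw [Finset.mem_product, Finset.mem_Icc, Finset.mem_Icc]
  exact ⟨abs_le.1 h1, abs_le.1 h2⟩

theorem not_even {n : ℕ} (hn : Odd n) {x : ℤ × ℤ} (h : sd x 0 = n) :
    ¬ (Even x.1 ∧ Even x.2) := by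
  rintro ⟨h1, h2⟩
  unfold sd at h
  simp only [Prod.fst_zero, Prod.snd_zero, sub_zero] at h
  have hn' : Odd (n : ℤ) := by exact_mod_cast hn
  have he : Even (n : ℤ) := by
    rw [← h]
    rcases max_choice |x.1| |x.2| with h3 | h3
    · rw [h3]; exact even_abs.2 h1
    · rw [h3]; exact even_abs.2 h2
  exact (Int.not_even_iff_odd.2 hn') he

theorem col_ov {n : ℕ} (hn : Odd n) (s : Bond) :
    col (fun v => if v ∈ ring n then true else s v) =
      fun x => if sd x 0 = n then true else col s x := by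
  funext x
  by_cases h : sd x 0 = n
  · have h1 := not_even hn h
    have h2 := (mem_ring n x).2 h
    unfold col
    simp only [if_pos h, if_neg h1, if_pos h2]
    split_ifs <;> rfl
  · have h2 : x ∉ ring n := fun h' => h ((mem_ring n x).1 h')
    unfold col
    simp only [if_neg h, if_neg h2]

theorem ind_nonneg {α : Type*} (A : Set α) (s : α) : 0 ≤ ind A s := by
  unfold ind
  split_ifs <;> norm_num

theorem fe1 (hi : S_int) (he : S_fe) : FE1 pp := by
  intro n hn
  refine ⟨1 / 2 ^ (ring n).card, by positivity, fun A B hA hB hAB => ?_⟩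
  have hB' := loc_col hB
  have h1 := he (ring n) _ hB' (fun ω => ind_nonneg _ _)
  have h2 : ∫ s, ind A (col s) ∂perc ≤
      ∫ ω, ind B (col (fun v => if v ∈ ring n then true else ω v)) ∂perc := by
    refine integral_mono (integ hi (loc_col hA)) (integ hi (loc_ov hB' (ring n))) fun s => ?_
    show ind A (col s) ≤ ind B (col (fun v => if v ∈ ring n then true else s v))
    rw [col_ov hn]
    by_cases hs : col s ∈ A
    · have h3 := hAB _ hs
      unfold ind
      rw [if_pos hs, if_pos h3]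
    · have h3 : ind A (col s) = 0 := by unfold ind; rw [if_neg hs]
      rw [h3]
      exact ind_nonneg _ _
  have h4 : (0 : ℝ) < 2 ^ (ring n).card := by positivity
  show 1 / 2 ^ (ring n).card * ∫ s, ind A (col s) ∂perc ≤ ∫ s, ind B (col s) ∂perc
  rw [one_div, inv_mul_le_iff₀ h4]
  exact h2.trans h1

theorem col_refl (s : Bond) :
    col s ∘ (fun x : Site => (-x.1, x.2)) = col (fun v => xor false (s (-v.1, v.2))) := by
  funext x
  simp only [Function.comp, col, odd_neg, even_neg, Bool.false_xor]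

theorem refl (hi : S_int) (hv : S_inv) (F : Col → ℝ) (hF : CLoc F) :
    pp (cmv (fun x => (-x.1, x.2)) F) = pp F := by
  have hinj : Function.Injective (fun x : ℤ × ℤ => ((-x.1, x.2) : ℤ × ℤ)) := by
    intro x y h
    simp only [Prod.mk.injEq, neg_inj] at h
    exact Prod.ext h.1 h.2
  have hmp := hv _ false hinj
  obtain ⟨S, hS⟩ := loc_col hF
  have hm := (hi S _ hS).1
  show ∫ s, F (col s ∘ fun x : Site => (-x.1, x.2)) ∂perc = ∫ s, F (col s) ∂perc
  simp only [col_refl]
  have h := integral_map (μ := perc) hmp.measurable.aemeasurable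
    (f := fun s => F (col s)) hm.aestronglyMeasurable
  rw [hmp.map_eq] at h
  exact h.symm

end Pfe

theorem s_pfe (hi : S_int) (hv : S_inv) (he : S_fe) : S_pfe :=
  ⟨Pfe.fe1 hi he, Pfe.refl hi hv⟩

end Vale.Agent.P167.Pc
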