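import Vale.Agent.P167.PcStm2

/-! P167, percolation: the colouring is a symmetric positively associated mixing state. -/

open MeasureTheory Filter Topology

namespace Vale.Agent.P167.Pc

open Vale.Agent.P152

namespace Pst

theorem prob : IsProbabilityMeasure perc := by
  unfold perc
  infer_instance

theorem col_congr {s s' : Bond} {x : Site} (h : s x = s' x) : col s x = col s' x := by
  unfold col
  rw [h]

theorem dep {F : Col → ℝ} {A : Finset Site}
    (h : ∀ s s' : Col, (∀ x ∈ A, s x = s' x) → F s = F s') (ω ω' : Bond)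
    (k : ∀ v ∈ A, ω v = ω' v) : F (col ω) = F (col ω') :=
  h _ _ fun x hx => col_congr (k x hx)

theorem loc {F : Col → ℝ} (h : CLoc F) : Loc fun s => F (col s) :=
  h.imp fun _ k => dep k

theorem meas (hi : S_int) {F : Col → ℝ} (h : CLoc F) : Measurable fun s => F (col s) := by
  obtain ⟨A, hA⟩ := loc h
  exact (hi A _ hA).1

theorem intg (hi : S_int) {F : Col → ℝ} (h : CLoc F) : Integrable (fun s => F (col s)) perc := by
  obtain ⟨A, hA⟩ := loc h
  obtain ⟨h1, ⟨b, h2⟩, -⟩ := hi A _ hA
  have := prob
  exact Integrable.of_bound h1.aestronglyMeasurable b (Eventually.of_forall h2)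

theorem col_mono : Monotone col := by
  intro s s' h x
  unfold col
  split_ifs
  · exact le_rfl
  · exact le_rfl
  · exact h x

theorem inv (hi : S_int) (hv : S_inv) (g : Site → Site) (hg : Function.Injective g)
    (h1 : ∀ x, (Odd (g x).1 ∧ Odd (g x).2) ↔ (Odd x.1 ∧ Odd x.2))
    (h2 : ∀ x, (Even (g x).1 ∧ Even (g x).2) ↔ (Even x.1 ∧ Even x.2)) {F : Col → ℝ}
    (hF : CLoc F) : pp (cmv g F) = pp F := by
  have e : ∀ s : Bond, col s ∘ g = col fun v => xor false (s (g v)) := by
    intro s
    funext x
    simp only [Function.comp_apply, col, h1, h2, Bool.false_xor]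
  have m := hv g false hg
  unfold pp cmv
  simp only [e]
  have k := integral_map (μ := perc) m.measurable.aemeasurable (f := fun s => F (col s))
    (meas hi hF).aestronglyMeasurable
  rw [m.map_eq] at k
  exact k.symm

theorem tr2_inj (t : Site) : Function.Injective (tr2 t) := by
  intro x y h
  simp only [tr2, Prod.ext_iff] at h ⊢
  omega

theorem inv_tr (hi : S_int) (hv : S_inv) (t : Site) {F : Col → ℝ} (hF : CLoc F) :
    pp (cmv (tr2 t) F) = pp F :=
  inv hi hv _ (tr2_inj t) (fun x => by simp only [tr2, Int.odd_iff]; omega)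
    (fun x => by simp only [tr2, Int.even_iff]; omega) hF

theorem far (A B : Finset Site) : ∀ᶠ t : Site in cofinite, Disjoint A (B.image (tr2 t)) := by
  rw [Filter.eventually_cofinite]
  refine (((A ×ˢ B).image fun p => ((p.1.1 - p.2.1) / 2, (p.1.2 - p.2.2) / 2)).finite_toSet).subset
    fun t ht => ?_
  obtain ⟨x, hx, hx'⟩ := Finset.not_disjoint_iff.1 ht
  obtain ⟨y, hy, rfl⟩ := Finset.mem_image.1 hx'
  refine Finset.mem_coe.2 (Finset.mem_image.2 ⟨(tr2 t y, y), Finset.mem_product.2 ⟨hx, hy⟩, ?_⟩)
  simp only [tr2, Prod.ext_iff]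
  omega

end Pst

open Pst in
theorem s_pst (hi : S_int) (hv : S_inv) (hf : S_fkg) (hd : S_ind) : S_pst := by
  have := prob
  refine ⟨fun F G hF hG => integral_add (intg hi hF) (intg hi hG),
    fun a F _ => integral_const_mul a _, fun F _ h => integral_nonneg fun s => h _, by simp [pp],
    fun F G hF hG mF mG => hf _ _ (loc hF) (loc hG) (mF.comp col_mono) (mG.comp col_mono),
    fun t F hF => inv_tr hi hv t hF,
    fun F hF => inv hi hv _ Prod.swap_injective (fun x => and_comm) (fun x => and_comm) hF,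
    fun F hF => inv hi hv _ neg_injective (fun x => by simp) (fun x => by simp) hF,
    fun F G hF hG => ?_⟩
  obtain ⟨A, hA⟩ := hF
  obtain ⟨B, hB⟩ := hG
  refine tendsto_const_nhds.congr' ((far A B).mono fun t ht => ?_)
  have k := hd A (B.image (tr2 t)) (fun s => F (col s)) (fun s => cmv (tr2 t) G (col s)) ht
    (dep hA) fun ω ω' h => hB _ _ fun x hx => col_congr (h _ (Finset.mem_image_of_mem _ hx))
  rw [← inv_tr hi hv t ⟨B, hB⟩]
  exact k.symm

end Vale.Agent.P167.Pc
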