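import Vale.Agent.P167.PcStm3

/-! P167, percolation: lattice data of a test function. -/

open MeasureTheory Filter Topology Finset

namespace Vale.Agent.P167.Pc

open Vale.Agent.P152

namespace Rep

/-- the coefficients of the height formula -/
noncomputable def co (x : ℤ × ℤ) : Edge →₀ ℝ :=
  (∑ i ∈ Finset.Ioc x.1 0, Finsupp.single ((i, 0), false) 1 -
    ∑ i ∈ Finset.Ioc 0 x.1, Finsupp.single ((i, 0), false) 1) +
  (∑ j ∈ Finset.Ioc 0 x.2, Finsupp.single ((x.1, j), true) 1 -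
    ∑ j ∈ Finset.Ioc x.2 0, Finsupp.single ((x.1, j), true) 1)

theorem co_eq (u : Edge → ℝ) (x : ℤ × ℤ) : Finsupp.linearCombination ℝ u (co x) = htz u x := by
  simp only [co, htz, map_add, map_sub, map_sum, Finsupp.linearCombination_single, one_smul]

end Rep

theorem s_rep (h : S_repA) : S_rep := by
  intro δ hδ f hf
  obtain ⟨X, g, H⟩ := h δ hδ f hf
  obtain ⟨c, hc⟩ : ∃ c : Edge →₀ ℝ, c = ∑ x ∈ X, g x • Rep.co x := ⟨_, rfl⟩
  have lin : ∀ u : Edge → ℝ, ∑ e ∈ c.support, c e * u e = ∑ x ∈ X, g x * htz u x := fun u => by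
    have e : ∑ e ∈ c.support, c e * u e = Finsupp.linearCombination ℝ u c := by
      rw [Finsupp.linearCombination_apply]
      rfl
    rw [e, hc, map_sum]
    simp only [map_smul, Rep.co_eq, smul_eq_mul]
  refine ⟨X, g, c.support, c, fun o => ?_, lin, ?_, fun l => ?_⟩
  · rw [lin fun e => sg (o e)]
    exact H (P152.ht o)
  · have := H fun _ => 1
    simp only [one_mul, mul_one] at this
    rw [← this]
    exact hf.2.2
  · have m : Measurable fun z : ℝ × ℝ => (⌊z.1 / δ⌋, ⌊z.2 / δ⌋) :=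
      (Int.measurable_floor.comp (measurable_fst.div_const δ)).prodMk
        (Int.measurable_floor.comp (measurable_snd.div_const δ))
    have ms : MeasurableSet {z : ℝ × ℝ | (⌊z.1 / δ⌋, ⌊z.2 / δ⌋) ∈ ins l} :=
      m (Set.to_countable (ins l)).measurableSet
    rw [← H fun x => chi (x ∈ ins l), mass, ← integral_indicator ms]
    refine integral_congr_ae (Eventually.of_forall fun z => ?_)
    by_cases hz : (⌊z.1 / δ⌋, ⌊z.2 / δ⌋) ∈ ins l
    · simp only [chi, if_pos hz, one_mul]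
      exact Set.indicator_of_mem (s := {z : ℝ × ℝ | (⌊z.1 / δ⌋, ⌊z.2 / δ⌋) ∈ ins l}) hz _
    · simp only [chi, if_neg hz, zero_mul]
      exact Set.indicator_of_notMem (s := {z : ℝ × ℝ | (⌊z.1 / δ⌋, ⌊z.2 / δ⌋) ∈ ins l}) hz _

end Vale.Agent.P167.Pc
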