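import Vale.Agent.P167.PcStm3

/-! P167, percolation: integrals of step functions against test functions. -/

open MeasureTheory Filter Topology Finset

namespace Vale.Agent.P167.Pc

open Vale.Agent.P152

namespace RepA

theorem gen (fl : ℝ × ℝ → ℤ × ℤ) (hfl : Measurable fl) (f : ℝ × ℝ → ℝ) (hf : Integrable f)
    (X : Finset (ℤ × ℤ)) (hX : ∀ z, f z ≠ 0 → fl z ∈ X) (F : ℤ × ℤ → ℝ) :
    ∫ z, F (fl z) * f z = ∑ x ∈ X, (∫ z, (fl ⁻¹' {x}).indicator f z) * F x := by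
  have h1 : ∀ z, F (fl z) * f z = ∑ x ∈ X, (fl ⁻¹' {x}).indicator f z * F x := by
    intro z
    by_cases hz : f z = 0
    · rw [hz, mul_zero]
      refine (Finset.sum_eq_zero fun x _ => ?_).symm
      by_cases h : z ∈ fl ⁻¹' {x}
      · rw [Set.indicator_of_mem h, hz, zero_mul]
      · rw [Set.indicator_of_notMem h, zero_mul]
    · rw [Finset.sum_eq_single_of_mem (fl z) (hX z hz)]
      · rw [Set.indicator_of_mem (show z ∈ fl ⁻¹' {fl z} from rfl), mul_comm]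
      · intro x _ hx
        rw [Set.indicator_of_notMem (show z ∉ fl ⁻¹' {x} from fun h => hx (Eq.symm h)), zero_mul]
  simp only [h1]
  rw [integral_finsetSum _ (fun x _ =>
    (hf.indicator (hfl (measurableSet_singleton x))).mul_const _)]
  exact Finset.sum_congr rfl fun x _ => integral_mul_const _ _

theorem flo {δ R t : ℝ} (hδ : 0 < δ) (h : |t| ≤ R) :
    ⌊t / δ⌋ ∈ Finset.Icc ⌊-R / δ⌋ ⌊R / δ⌋ := by
  rw [Finset.mem_Icc]
  rw [abs_le] at h
  exact ⟨Int.floor_mono (div_le_div_of_nonneg_right h.1 hδ.le),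
    Int.floor_mono (div_le_div_of_nonneg_right h.2 hδ.le)⟩

end RepA

theorem s_repA : S_repA := by
  intro δ hδ f hf
  have hc : Continuous f := hf.1.continuous
  have hs : HasCompactSupport f := hf.2.1
  obtain ⟨R, hR⟩ := hs.isCompact.isBounded.exists_norm_le
  refine ⟨Finset.Icc ⌊-R / δ⌋ ⌊R / δ⌋ ×ˢ Finset.Icc ⌊-R / δ⌋ ⌊R / δ⌋,
    fun x => ∫ z, ((fun z : ℝ × ℝ => (⌊z.1 / δ⌋, ⌊z.2 / δ⌋)) ⁻¹' {x}).indicator f z, fun F => ?_⟩
  refine RepA.gen (fun z : ℝ × ℝ => (⌊z.1 / δ⌋, ⌊z.2 / δ⌋)) (by fun_prop) f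
    (hc.integrable_of_hasCompactSupport hs) _ (fun z hz => ?_) F
  have h := hR z (subset_tsupport _ hz)
  exact Finset.mem_product.mpr ⟨RepA.flo hδ ((norm_fst_le z).trans h),
    RepA.flo hδ ((norm_snd_le z).trans h)⟩

end Vale.Agent.P167.Pc
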