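import Vale.Agent.P167.PcStm3

/-! The secant identity for diagonal paths. -/

open Finset

namespace Vale.Agent.P167.Pc

open Vale.Agent.P152

namespace Sec

theorem sq0 (x y s1 s2 t1 t2 : ℤ) (hp : (x + y) % 2 = 0) (hs : s1 = 1 ∨ s1 = -1)
    (ht : t1 = 1 ∨ t1 = -1) (hs' : s2 = 1 ∨ s2 = -1) (ht' : t2 = 1 ∨ t2 = -1)
    (h1 : y = 0 → x ≠ 0) (h2 : y + s2 = 0 → x + s1 ≠ 0) (h3 : y - t2 = 0 → x - t1 ≠ 0)
    (h4 : y + s2 - t2 = 0 → x + s1 - t1 ≠ 0) :
    crs (x, y) (x + s1, y + s2) + crs (x + s1, y + s2) (x + s1 - t1, y + s2 - t2) =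
      crs (x, y) (x - t1, y - t2) + crs (x - t1, y - t2) (x + s1 - t1, y + s2 - t2) := by
  have hy : y = -2 ∨ y = -1 ∨ y = 0 ∨ y = 1 ∨ (y < -2 ∨ 1 < y) := by omega
  rcases hy with rfl | rfl | rfl | rfl | hy
  · rcases hs' with rfl | rfl <;> rcases ht' with rfl | rfl <;> simp [crs] at * <;>
      (try split_ifs) <;> omega
  · rcases hs' with rfl | rfl <;> rcases ht' with rfl | rfl <;> simp [crs] at * <;>
      (try split_ifs) <;> omega
  · rcases hs' with rfl | rfl <;> rcases ht' with rfl | rfl <;> simp [crs] at * <;>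
      (try split_ifs) <;> omega
  · rcases hs' with rfl | rfl <;> rcases ht' with rfl | rfl <;> simp [crs] at * <;>
      (try split_ifs) <;> omega
  · simp only [crs]
    rw [if_neg (by omega), if_neg (by omega), if_neg (by omega), if_neg (by omega),
      if_neg (by omega), if_neg (by omega), if_neg (by omega), if_neg (by omega)]

theorem sq (a s t : ℤ × ℤ) (hp : (a.1 + a.2) % 2 = 0) (hs : Dg s) (ht : Dg t) (h1 : a ≠ 0)
    (h2 : a + s ≠ 0) (h3 : a - t ≠ 0) (h4 : a + s - t ≠ 0) :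
    crs a (a + s) + crs (a + s) (a + s - t) = crs a (a - t) + crs (a - t) (a + s - t) :=
  sq0 a.1 a.2 s.1 s.2 t.1 t.2 hp hs.1 ht.1 hs.2 ht.2 (fun h h' => h1 (Prod.ext h' h))
    (fun h h' => h2 (Prod.ext h' h)) (fun h h' => h3 (Prod.ext h' h))
    (fun h h' => h4 (Prod.ext h' h))

theorem loc (d s : ℤ × ℤ) (hd : Dg d) (hs : Dg s) (h : d + s ≠ 0) :
    d.1 * s.2 - d.2 * s.1 = 2 * (qd s - qd d) + 8 * (crs d (d + s) + crs (d + s) s) := by
  obtain ⟨x, y⟩ := d
  obtain ⟨s1, s2⟩ := s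
  obtain ⟨rfl | rfl, rfl | rfl⟩ : (x = 1 ∨ x = -1) ∧ (y = 1 ∨ y = -1) := hd <;>
  obtain ⟨rfl | rfl, rfl | rfl⟩ : (s1 = 1 ∨ s1 = -1) ∧ (s2 = 1 ∨ s2 = -1) := hs <;>
  first | decide | exact absurd (by decide) h

theorem par (p : ℕ → ℤ × ℤ) (n : ℕ) (h : ∀ i ≤ n, Dg (p (i + 1) - p i)) :
    ∀ i ≤ n + 1, ((p i).1 + (p i).2 - ((p 0).1 + (p 0).2)) % 2 = 0 := by
  intro i
  induction i with
  | zero => intro _; simp
  | succ i ih =>
    intro hi
    have k := h i (by omega)
    have k2 := ih (by omega)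
    simp only [Dg, Prod.fst_sub, Prod.snd_sub] at k
    omega

end Sec

theorem s_sec : S_sec := by
  intro p n
  induction n with
  | zero => intro _ _; simp
  | succ n ih =>
    intro hD hI
    have ih' := ih (fun i hi => hD i (by omega)) (hI.mono (Set.Iic_subset_Iic.2 (by omega)))
    have ne : ∀ i j, i < j → j ≤ n + 2 → p j - p i ≠ 0 := fun i j hij hj h0 => by
      have := hI (show j ∈ Set.Iic (n + 1 + 1) from hj)
        (show i ∈ Set.Iic (n + 1 + 1) from hij.le.trans hj) (sub_eq_zero.1 h0)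
      omega
    have st : ∀ i ∈ range n, crs (p (n + 1 + 1) - p i) (p (n + 1 + 1) - p (i + 1)) -
        crs (p (n + 1) - p i) (p (n + 1) - p (i + 1)) =
        crs (p (n + 1) - p (i + 1)) (p (n + 2) - p (i + 1)) -
          crs (p (n + 1) - p i) (p (n + 2) - p i) := by
      intro i hi
      have hi := mem_range.1 hi
      have e1 : p (n + 1) - p i + (p (n + 1 + 1) - p (n + 1)) = p (n + 2) - p i := by abel
      have e2 : p (n + 1) - p i - (p (i + 1) - p i) = p (n + 1) - p (i + 1) := by abel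
      have e3 : p (n + 2) - p i - (p (i + 1) - p i) = p (n + 2) - p (i + 1) := by abel
      have q1 := Sec.par p (n + 1) hD i (by omega)
      have q2 := Sec.par p (n + 1) hD (n + 1) (by omega)
      have k := Sec.sq (p (n + 1) - p i) _ _ (by simp only [Prod.fst_sub, Prod.snd_sub]; omega)
        (hD (n + 1) le_rfl) (hD i (by omega)) (ne _ _ (by omega) (by omega))
        (by rw [e1]; exact ne _ _ (by omega) le_rfl)
        (by rw [e2]; exact ne _ _ (by omega) (by omega))
        (by rw [e1, e3]; exact ne _ _ (by omega) le_rfl)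
      rw [e1, e2, e3] at k
      linarith
    have tl := sum_congr rfl st
    rw [sum_range_sub (fun i => crs (p (n + 1) - p i) (p (n + 2) - p i)), sum_sub_distrib] at tl
    have e1 : p (n + 1) - p n + (p (n + 1 + 1) - p (n + 1)) = p (n + 2) - p n := by abel
    have lc := Sec.loc _ _ (hD n (by omega)) (hD (n + 1) le_rfl)
      (by rw [e1]; exact ne _ _ (by omega) le_rfl)
    rw [e1] at lc
    rw [sum_range_succ, sum_range_succ, sum_range_succ, ih', cp]
    linarith

end Vale.Agent.P167.Pc
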