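import Vale.Agent.P167.PcStm3

/-! P167, percolation: the torus expectation. -/

open MeasureTheory Filter Topology Finset

namespace Vale.Agent.P167.Pc

open Vale.Agent.P152

namespace Tex

theorem num (hk : S_bkw) (M L : ℕ) [NeZero M] [NeZero L] (hM : Even M) (hL : Even L)
    (W : Finset Edge) (j : Edge → ℝ) :
    texp √3 M L (fun o => Real.cos (∑ e ∈ W, j e * sg (o e))) =
      (∑ ω, (SS M L W j ω).re) / ∑ ω, (SS M L ∅ 0 ω).re := by
  have h1 := congrArg Complex.re (hk M L hM hL W j)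
  have h2 := congrArg Complex.re (hk M L hM hL ∅ 0)
  rw [Complex.re_sum, Complex.re_sum] at h1 h2
  rw [← h1, ← h2, texp]
  refine congrArg₂ _ (sum_congr rfl fun o _ => ?_) (sum_congr rfl fun o _ => ?_)
  · split_ifs
    · rw [Complex.re_ofReal_mul, mul_comm Complex.I, Complex.exp_ofReal_mul_I_re]
    · rfl
  · split_ifs
    · simp
    · rfl

theorem fin {ι : Type} [Fintype ι] [Nonempty ι] {T a b c : ι → ℝ} {K I₁ I₂ η : ℝ} (hK : 0 ≤ K)
    (hT : ∀ i, 1 ≤ T i) (h : ∀ i, |a i - T i * b i| ≤ K * (T i - T i * c i))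
    (h1 : |(∑ i, T i * b i) / ∑ i, T i - I₁| ≤ η) (h2 : |(∑ i, T i * c i) / ∑ i, T i - I₂| ≤ η) :
    |(∑ i, a i) / ∑ i, T i - I₁| ≤ K * (1 - I₂) + (1 + K) * η := by
  have h0 : 0 < ∑ i, T i := sum_pos (fun i _ => one_pos.trans_le (hT i)) univ_nonempty
  have h3 : |(∑ i, a i) / ∑ i, T i - (∑ i, T i * b i) / ∑ i, T i| ≤
      K * (1 - (∑ i, T i * c i) / ∑ i, T i) := by
    rw [← sub_div, abs_div, abs_of_pos h0, one_sub_div h0.ne', ← mul_div_assoc,
      ← sum_sub_distrib, ← sum_sub_distrib, mul_sum]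
    exact div_le_div_of_nonneg_right ((abs_sum_le_sum_abs _ _).trans (sum_le_sum fun i _ => h i))
      h0.le
  have h4 := mul_le_mul_of_nonneg_left (abs_le.1 h2).1 hK
  have h5 := abs_sub_le ((∑ i, a i) / ∑ i, T i) ((∑ i, T i * b i) / ∑ i, T i) I₁
  linarith

end Tex

theorem s_tex (hk : S_bkw) (hf : S_fac) (ht : S_tr) (hl : S_loc) (hg : S_gl) : S_tex := by
  intro W j N ε hε
  have hη : 0 < ε / (1 + 2 ^ W.card) := by positivity
  obtain ⟨L₁, h1⟩ := hl _ (hg W j N).2.1 _ hη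
  obtain ⟨L₂, h2⟩ := hl _ (hg W j N).1 _ hη
  refine ⟨L₁ + L₂ + (2 * N + 1), fun M L _ _ hM hL hL0 hLM => ?_⟩
  choose T t1 t2 t3 t4 using hf M L hM hL hLM
  have t5 : ∀ ω, (SS M L ∅ 0 ω).re = T ω := fun ω => by rw [t3, Complex.ofReal_re]
  have t6 : ∀ (t : ℤ × ℤ) ω, Even (t.1 + t.2) → T (fun v => ω (v + pv M L t)) = T ω :=
    fun t ω h => by rw [← t5, ← t5, ht M L hM hL t ω h]
  rw [Tex.num hk M L hM hL, sum_congr rfl fun ω _ => t5 ω]
  refine (Tex.fin (K := 2 ^ W.card) (by positivity) t1 (fun ω => ?_)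
    (h1 M L (by omega) hLM T (fun ω => ⟨t1 ω, t2 ω⟩) t6)
    (h2 M L (by omega) hLM T (fun ω => ⟨t1 ω, t2 ω⟩) t6)).trans_eq ?_
  · by_cases hG : Good W N (lf M L ω)
    · rw [(t4 ω W j).2 N (by omega) hG, Complex.ofReal_re, chi, if_pos hG]
      simp [mul_comm]
    · rw [chi, if_neg hG, zero_mul, mul_zero, sub_zero, sub_zero]
      exact (Complex.abs_re_le_norm _).trans (t4 ω W j).1
  · rw [mul_div_cancel₀ _ (by positivity)]

end Vale.Agent.P167.Pc
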