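import Vale.Agent.P167.PcStm3

/-! P167, percolation: the loops of the torus and the balance condition. -/

open MeasureTheory Filter Topology Finset

namespace Vale.Agent.P167.Pc

open Vale.Agent.P152

namespace Tor

theorem sg_beq (a b : Bool) : sg (a == b) = sg a * sg b := by
  cases a <;> cases b <;> simp [sg]

theorem sg_not (a : Bool) : sg (!a) = -sg a := by
  cases a <;> simp [sg]

theorem bal_iff {M L : ℕ} [NeZero M] [NeZero L] (o : TOri M L) :
    Bal M L o ↔ ∀ x, ∑ y, sg (o ((x, y), true)) = 0 := by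
  refine forall_congr' fun x => ?_
  have e : ∀ y, sg (o ((x, y), true)) = 2 * (if o ((x, y), true) = true then 1 else 0) - 1 :=
    fun y => by cases o ((x, y), true) <;> norm_num [sg]
  simp only [e, sum_sub_distrib, ← mul_sum, sum_boole, sum_const, card_univ, ZMod.card,
    nsmul_eq_mul, mul_one, sub_eq_zero]
  exact_mod_cast Iff.rfl

theorem col {M L : ℕ} [NeZero M] [NeZero L] (ε r : TOri M L) (x : ZMod M) :
    ∑ y, sg (ε ((x, y), true) == r ((x, y), true)) =
      ∑ e, sg (ε e) * (chi (e.2 = true ∧ e.1.1 = x) * sg (r e)) := by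
  simp only [Fintype.sum_prod_type, Fintype.sum_bool, chi, sg_beq]
  rw [sum_eq_single x (fun a _ h => by simp [h]) (by simp)]
  simp

end Tor

theorem s_tor (hA : S_torA) (hB : S_torB) (hc : S_cls) : S_tor := by
  intro M L _ _ hM hL h ω
  refine ⟨(hA M L hM hL ω).1, (hA M L hM hL ω).2, fun e he => (hB M L hM hL h ω e he).1, ?_⟩
  have k := (hc _ (nx (pt M L) ω) fun e => ¬ Ctr M L ω e).1 (2 * L)
    fun e he => (hB M L hM hL h ω e he).2
  simp only [Fintype.card_prod, ZMod.card, Fintype.card_bool] at k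
  refine Nat.le_of_mul_le_mul_right (c := 2 * L) (le_trans (le_of_eq ?_) (k.trans (le_of_eq ?_)))
    (by have := NeZero.pos L; omega)
  · congr
  · ring

theorem s_bal (hb : S_bas) (hc : S_cls) (hA : S_balA) : S_bal := by
  intro M L _ _ hM hL _ ω
  refine ⟨(Tor.bal_iff _).2 fun x => ?_, fun ε ε' h1 h2 h3 h4 => (Tor.bal_iff _).2 fun x => ?_⟩
  · have k := Equiv.sum_comp (Equiv.addRight (1 : ZMod L)) fun y => sg (pt M L (x, y))
    have e : ∀ y, sg (pt M L (x, Equiv.addRight (1 : ZMod L) y)) = -sg (pt M L (x, y)) := fun y => by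
      rw [← Tor.sg_not, ← ((hb.2.2.2.2.2 M L hM hL).1 (x, y)).2]
      simp
    simp only [e, sum_neg_distrib] at k
    simp only [rf, Bool.true_beq]
    linarith
  · have k := (hc _ (nx (pt M L) ω) (Ctr M L ω)).2 (fun e => sg (ε' e) - sg (ε e))
      (fun e => chi (e.2 = true ∧ e.1.1 = x) * sg (rf (pt M L) e)) (fun e => by rw [h1, h2])
      (fun e he => by rw [h3 e he, sub_self]) fun e he => hA M L hM hL ω e x he
    have k2 := (Tor.bal_iff _).1 h4 x
    rw [Tor.col ε (rf (pt M L))] at k2
    rw [Tor.col ε' (rf (pt M L))]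
    simp only [sub_mul, sum_sub_distrib] at k
    linarith

end Vale.Agent.P167.Pc
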