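import Vale.Agent.P167.PcStm3

/-! P167, percolation: finite loops of the periodic extension and the classes of the torus. -/

namespace Vale.Agent.P167.Pc

open Vale.Agent.P152

namespace TorA

theorem cls_map {E F : Type} {g : E → E} {G : F → F} {p : E → F} (h : Function.Semiconj p g G)
    {x y : E} (hxy : Cls g x y) : Cls G (p x) (p y) := by
  obtain ⟨a, b, hab⟩ := hxy
  exact ⟨a, b, by rw [← h.iterate_right a x, ← h.iterate_right b y, hab]⟩

theorem shift_iter (t : ℤ × ℤ) (e : Edge) (m : ℕ) :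
    (fun x : Edge => (x.1 + t, x.2))^[m] e = (e.1 + (m : ℤ) • t, e.2) := by
  induction m with
  | zero => simp
  | succ m ih =>
    rw [Function.iterate_succ_apply', ih]
    simp only [Nat.cast_succ, add_smul, one_smul, add_assoc]

theorem zero_of_fin {g : Edge → Edge} (hE : Equivalence (Cls g)) (t : ℤ × ℤ) (e : Edge)
    (hc : Function.Semiconj (fun x : Edge => (x.1 + t, x.2)) g g)
    (he : Cls g e (e.1 + t, e.2)) (hf : {e' | Cls g e e'}.Finite) : t = 0 := by
  by_contra ht
  have hm : ∀ m : ℕ, Cls g e ((fun x : Edge => (x.1 + t, x.2))^[m] e) := by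
    intro m
    induction m with
    | zero => exact hE.refl e
    | succ m ih =>
      rw [Function.iterate_succ_apply']
      exact hE.trans he (cls_map hc ih)
  refine Set.infinite_of_injective_forall_mem
    (f := fun m : ℕ => (fun x : Edge => (x.1 + t, x.2))^[m] e) ?_ hm hf
  intro a b hab
  simp only [shift_iter, Prod.mk.injEq, add_right_inj, and_true] at hab
  have h1 : (a : ℤ) * t.1 = b * t.1 := congrArg Prod.fst hab
  have h2 : (a : ℤ) * t.2 = b * t.2 := congrArg Prod.snd hab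
  by_contra hne
  have hne' : (a : ℤ) ≠ b := fun h => hne (by exact_mod_cast h)
  exact ht (Prod.ext (by
    have := mul_eq_mul_right_iff.1 h1
    simpa [hne'] using this) (by
    have := mul_eq_mul_right_iff.1 h2
    simpa [hne'] using this))

end TorA

open TorA in
theorem s_torA (hb : S_bas) (hp : S_per) : S_torA := by
  have _hp := hp
  intro M L _ _ hM hL ω
  obtain ⟨hbij, hcls, hpz, hloop, htr, htor⟩ := hb
  obtain ⟨hpt, -, hsc⟩ := htor M L hM hL
  have hg := hbij ℤ ℤ pz (lf M L ω) hpz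
  have hG := hbij (ZMod M) (ZMod L) (pt M L) ω hpt
  have hS : Function.Semiconj (pe M L) (nx pz (lf M L ω)) (nx (pt M L) ω) :=
    fun e => ((hsc ω e).2.2).symm
  obtain ⟨hE, hstep⟩ := hcls Edge (nx pz (lf M L ω))
  have hl : ∀ e, loop (lf M L ω) e = {e' | Cls (nx pz (lf M L ω)) e e'} :=
    fun e => Set.ext fun e' => hloop _ e e'
  have hnx : ∀ e, loop (lf M L ω) (nx pz (lf M L ω) e) = loop (lf M L ω) e := by
    intro e
    rw [hl, hl]
    exact Set.ext fun e' => ⟨fun h => hE.trans (hstep e) h, fun h => hE.trans (hE.symm (hstep e)) h⟩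
  refine ⟨fun e => ⟨?_, ?_⟩, fun e0 hf => ⟨?_, ?_, ?_⟩⟩
  · rintro ⟨e2, h2, hf⟩
    obtain ⟨e3, rfl⟩ := hg.2 e2
    rw [hS e3] at h2
    exact ⟨e3, hG.1 h2, by rwa [hnx] at hf⟩
  · rintro ⟨e2, rfl, hf⟩
    exact ⟨nx pz (lf M L ω) e2, hS e2, by rwa [hnx]⟩
  · intro e he
    exact cls_map hS ((hloop _ e0 e).1 he)
  · intro e1 h1 e2 h2 h12
    have c1 := (hloop _ e0 e1).1 h1
    have c2 := (hloop _ e0 e2).1 h2
    have hs : e1.2 = e2.2 := congrArg (fun x : (ZMod M × ZMod L) × Bool => x.2) h12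
    have hx : ((e1.1.1 : ℤ) : ZMod M) = (e2.1.1 : ℤ) := congrArg (fun x => x.1.1) h12
    have hy : ((e1.1.2 : ℤ) : ZMod L) = (e2.1.2 : ℤ) := congrArg (fun x => x.1.2) h12
    have dx := (ZMod.intCast_eq_intCast_iff_dvd_sub _ _ _).1 hx
    have dy := (ZMod.intCast_eq_intCast_iff_dvd_sub _ _ _).1 hy
    have he2 : e2 = (e1.1 + (e2.1 - e1.1), e1.2) := Prod.ext (by simp) hs.symm
    have hev : Even ((e2.1 - e1.1).1 + (e2.1 - e1.1).2) := by
      have a1 : Even (M : ℤ) := by exact_mod_cast hM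
      have a2 : Even (L : ℤ) := by exact_mod_cast hL
      exact (a1.trans_dvd dx).add (a2.trans_dvd dy)
    have hw : (fun v => lf M L ω (v + (e2.1 - e1.1))) = lf M L ω := by
      funext v
      simp only [lf, pv, Prod.fst_add, Prod.snd_add, Prod.fst_sub, Prod.snd_sub, Int.cast_add,
        Int.cast_sub, hx, hy, sub_self, add_zero]
    have hc : Function.Semiconj (fun x : Edge => (x.1 + (e2.1 - e1.1), x.2))
        (nx pz (lf M L ω)) (nx pz (lf M L ω)) := by
      intro x
      have := (htr (lf M L ω) (e2.1 - e1.1) x hev).2.2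
      rw [hw] at this
      exact this.symm
    have hf1 : {e' | Cls (nx pz (lf M L ω)) e1 e'}.Finite := by
      rw [hl] at hf
      exact hf.subset fun e' h => hE.trans c1 h
    have ht := zero_of_fin hE (e2.1 - e1.1) e1 hc (by rw [← he2]; exact hE.trans (hE.symm c1) c2) hf1
    rw [he2, ht, add_zero]
  · rintro e ⟨a, b, hab⟩
    obtain ⟨e3, h3⟩ := (hg.iterate b).2 ((nx pz (lf M L ω))^[a] e0)
    refine ⟨e3, (hloop _ e0 e3).2 ⟨a, b, h3.symm⟩, (hG.iterate b).1 ?_⟩
    rw [← hS.iterate_right b e3, h3, hS.iterate_right a e0, hab]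

end Vale.Agent.P167.Pc
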