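import Vale.Agent.P167.PcStm3

/-! P167, percolation: loops of the torus that are not contractible. -/

open Finset

namespace Vale.Agent.P167.Pc

open Vale.Agent.P152

namespace TorB

theorem fin_orb {E : Type} {g : E → E} {e : E} {n : ℕ} (h : g^[n + 1] e = e) :
    {e' | ∃ k, g^[k] e = e'}.Finite := by
  refine ((Set.finite_Iic n).image fun k => g^[k] e).subset ?_
  rintro _ ⟨k, rfl⟩
  exact ⟨k % (n + 1), Nat.lt_succ_iff.1 (Nat.mod_lt _ n.succ_pos),
    Function.IsPeriodicPt.iterate_mod_apply h k⟩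

theorem le_of_dvd {M : ℕ} {a : ℤ} (h : (M : ℤ) ∣ a) (h0 : a ≠ 0) : (M : ℤ) ≤ |a| :=
  Int.le_of_dvd (abs_pos.2 h0) ((dvd_abs _ _).2 h)

end TorB

open TorB in
theorem s_torB (hb : S_bas) (hp : S_per) (hi : S_inf) : S_torB := by
  classical
  intro M L _ _ hM hL hLM ω e hc
  obtain ⟨hbij, -, hz, hloop, -, htor⟩ := hb
  obtain ⟨hchk, -, hlf⟩ := htor M L hM hL
  obtain ⟨e0, rfl⟩ : ∃ e0, pe M L e0 = e := by
    obtain ⟨⟨x, y⟩, b⟩ := e
    obtain ⟨x, rfl⟩ := ZMod.intCast_surjective x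
    obtain ⟨y, rfl⟩ := ZMod.intCast_surjective y
    exact ⟨((x, y), b), rfl⟩
  have sc : ∀ k, (nx (pt M L) ω)^[k] (pe M L e0) = pe M L ((nx pz (lf M L ω))^[k] e0) := by
    intro k
    induction k with
    | zero => rfl
    | succ k ih => rw [Function.iterate_succ_apply', Function.iterate_succ_apply', ih, (hlf ω _).2.2]
  obtain ⟨n, h1, h2, h3, -⟩ := hp _ (nx (pt M L) ω) (pe M L e0) (hbij _ _ _ ω hchk).1
    (Set.toFinite _)
  rw [sc] at h1
  set t := ((nx pz (lf M L ω))^[n + 1] e0).1 - e0.1 with ht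
  have e1 : (nx pz (lf M L ω))^[n + 1] e0 = (e0.1 + t, e0.2) :=
    Prod.ext (by rw [ht]; simp) (Prod.ext_iff.1 h1).2
  have d1 : (M : ℤ) ∣ t.1 :=
    (ZMod.intCast_eq_intCast_iff_dvd_sub _ _ M).1 (congrArg (fun x => x.1.1) h1).symm
  have d2 : (L : ℤ) ∣ t.2 :=
    (ZMod.intCast_eq_intCast_iff_dvd_sub _ _ L).1 (congrArg (fun x => x.1.2) h1).symm
  have t0 : t ≠ 0 := fun h0 => by
    rw [h0, add_zero] at e1
    obtain ⟨n', -, -, h4, -⟩ := hp _ (nx pz (lf M L ω)) e0 (hbij _ _ _ _ hz).1 (fin_orb e1)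
    have h5 : {e' | Cls (nx pz (lf M L ω)) e0 e'}.Finite := h4 ▸ (Set.finite_Iic n').image _
    exact hc ⟨e0, rfl, h5.subset fun e' he' => (hloop _ _ _).1 he'⟩
  have ev : Even (t.1 + t.2) := (((Int.even_coe_nat M).2 hM).trans_dvd d1).add
    (((Int.even_coe_nat L).2 hL).trans_dvd d2)
  have per : ∀ v, lf M L ω (v + t) = lf M L ω v := fun v => by
    simp only [lf, pv, Prod.fst_add, Prod.snd_add, Int.cast_add,
      (ZMod.intCast_zmod_eq_zero_iff_dvd _ M).2 d1, (ZMod.intCast_zmod_eq_zero_iff_dvd _ L).2 d2,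
      add_zero]
  obtain ⟨s0, s1, s2⟩ := hi _ e0 (n + 1) t t0 ev per e1
  have hf : univ.filter (Cls (nx (pt M L) ω) (pe M L e0)) =
      (range (n + 1)).image fun k => (nx (pt M L) ω)^[k] (pe M L e0) := by
    ext x
    have := Set.ext_iff.1 h3 x
    simp only [Set.mem_ofPred_eq, Set.mem_image, Set.mem_Iic] at this
    simp only [mem_filter, mem_univ, true_and, this, mem_image, mem_range, Nat.lt_succ_iff]
  have hinj : Set.InjOn (fun k => (nx (pt M L) ω)^[k] (pe M L e0)) (range (n + 1) : Finset ℕ) :=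
    h2.mono fun k hk => Nat.lt_succ_iff.1 (mem_range.1 hk)
  have key : ∑ e' ∈ (range (n + 1)).image fun k => (nx (pt M L) ω)^[k] (pe M L e0),
      kap (pt M L) ω e' = 0 ∧
      2 * L ≤ ((range (n + 1)).image fun k => (nx (pt M L) ω)^[k] (pe M L e0)).card := by
    rw [sum_image hinj, card_image_of_injOn hinj, card_range]
    refine ⟨(sum_congr rfl fun k _ => by rw [sc, (hlf ω _).2.1]).trans s0, ?_⟩
    by_cases h0 : t.1 = 0
    · have := le_of_dvd d2 fun h => t0 (Prod.ext h0 h)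
      push_cast at s2
      omega
    · have := le_of_dvd d1 h0
      push_cast at s1
      omega
  rw [← hf] at key
  exact key

end Vale.Agent.P167.Pc
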