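import Vale.Agent.P167.PcStm3

/-! P167, percolation loops: translation invariance of the sum over orientations. -/

open Finset

namespace Vale.Agent.P167.Pc

open Vale.Agent.P152

namespace Tr

/-- translation of edges -/
def sh {G : Type} [AddGroup G] (u : G) : G × Bool ≃ G × Bool :=
  (Equiv.addRight u).prodCongr (Equiv.refl _)

theorem gen {A B : Type} [Ring A] [Ring B] {par : A × B → Bool} (ω : A × B → Bool) {u : A × B}
    (h : ∀ x, par (x + u) = par x) (e : (A × B) × Bool) : rf par (sh u e) = rf par e ∧
      nx par ω (sh u e) = sh u (nx par (fun v => ω (v + u)) e) ∧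
      kap par ω (sh u e) = kap par (fun v => ω (v + u)) e := by
  have a : rf par (sh u e) = rf par e := by simp [rf, sh, h]
  have b : hd par (sh u e) = hd par e + u := by
    rw [hd, hd, a]
    split_ifs <;> simp_all [sh, add_right_comm]
  refine ⟨a, ?_, by rw [kap, kap, b]⟩
  rw [nx, nx, a, b, show (sh u e).2 = e.2 from rfl]
  split_ifs <;> simp [sh, add_sub_right_comm]

theorem bal {M L : ℕ} [NeZero M] [NeZero L] (u : ZMod M × ZMod L) (o : TOri M L) :
    Bal M L (fun e => o (sh u e)) ↔ Bal M L o := by
  have k : ∀ x : ZMod M, (univ.filter fun y : ZMod L => o (sh u ((x, y), true)) = true).card =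
      (univ.filter fun y : ZMod L => o ((x + u.1, y), true) = true).card := fun x =>
    card_equiv (Equiv.addRight u.2) fun y => by
      simp only [mem_filter, mem_univ, true_and]
      rfl
  simp only [Bal, k]
  exact (Equiv.addRight u.1).forall_congr_right
    (q := fun x => 2 * (univ.filter fun y : ZMod L => o ((x, y), true) = true).card = L)

end Tr

theorem s_tr (h : S_bas) : S_tr := by
  intro M L _ _ hM hL t ω ht
  have p : ∀ x, pt M L (x + pv M L t) = pt M L x := fun ⟨a, b⟩ => by
    obtain ⟨a, rfl⟩ := ZMod.intCast_surjective a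
    obtain ⟨b, rfl⟩ := ZMod.intCast_surjective b
    have k := (h.2.2.2.2.2 M L hM hL).2.1
    have e : ((a : ZMod M), (b : ZMod L)) + pv M L t = pv M L ((a, b) + t) := by simp [pv]
    rw [e, k, show ((a : ZMod M), (b : ZMod L)) = pv M L (a, b) from rfl, k, pz, pz,
      decide_eq_decide, Prod.fst_add, Prod.snd_add, add_add_add_comm, Int.even_add]
    simp [ht]
  have g := Tr.gen ω p
  unfold SS
  symm
  refine Fintype.sum_equiv ((Tr.sh (pv M L t)).symm.arrowCongr (Equiv.refl _)) _ _ fun ε => ?_
  have c : ∀ e, ((Tr.sh (pv M L t)).symm.arrowCongr (Equiv.refl Bool)) ε e =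
      ε (Tr.sh (pv M L t) e) := fun _ => rfl
  have b := Tr.bal (pv M L t) fun e => ε e == rf (pt M L) e
  have s := (Tr.sh (pv M L t)).sum_comp fun e => sg (ε e) * (Real.pi / 12 * kap (pt M L) ω e)
  have f := (Tr.sh (pv M L t)).forall_congr_right (q := fun e => ε (nx (pt M L) ω e) = ε e)
  simp only [g] at b s f
  simp only [c, s, sum_empty]
  by_cases k : (∀ e, ε (nx (pt M L) ω e) = ε e) ∧ Bal M L fun e => ε e == rf (pt M L) e
  · exact (if_pos k).trans (if_pos ((and_congr f b).2 k)).symm
  · exact (if_neg k).trans (if_neg fun k' => k ((and_congr f b).1 k')).symm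

end Vale.Agent.P167.Pc
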