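import Vale.Agent.P167.PcStm3

/-! P167, percolation: the turning number of a finite loop. -/

open Finset

namespace Vale.Agent.P167.Pc

open Vale.Agent.P152

namespace Turn

theorem out (ω : Bond) (x : ℤ × ℤ) :
    (md (nx pz ω (x, false)) - md (x, false)).2 = -if pz x then 1 else -1 := by
  cases h : pz x <;> simp only [nx, hd, rf, h] <;> split_ifs <;> simp_all [md] <;> ring

theorem inn (ω : Bond) (x : ℤ × ℤ) (e : Edge) (h : nx pz ω e = (x, false)) :
    (md (x, false) - md e).2 = -if pz x then 1 else -1 := by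
  obtain ⟨⟨a, b⟩, _ | _⟩ := e
  · simp only [nx, Bool.false_eq_true, if_false] at h
    split_ifs at h <;> simp at h
  · have k : ∃ c : ℤ, hd pz ((a, b), true) = (c, b) ∧ (c + b) % 2 = 1 := by
      by_cases q : (a + b) % 2 = 0
      · exact ⟨a + 1, by simp [hd, rf, pz, Int.even_iff, q], by omega⟩
      · exact ⟨a, by simp [hd, rf, pz, Int.even_iff, q], by omega⟩
    obtain ⟨c, k1, k2⟩ := k
    simp only [nx, if_true, k1] at h
    split_ifs at h <;> obtain rfl := (Prod.mk.inj h).1 <;>
      simp only [md, pz, Int.even_iff, decide_eq_true_eq, Prod.snd_sub, Prod.fst_sub, if_true,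
        Bool.false_eq_true, if_false] <;> split_ifs <;> omega

end Turn

theorem s_turn (hb : S_bas) (hp : S_per) (hm : S_mid) (hc : S_closed) : S_turn := by
  intro ω x hf hl
  obtain ⟨b1, b2, b3, b4, -⟩ := hb
  have e : loop ω (x, false) = {e' | Cls (nx pz ω) (x, false) e'} := Set.ext (b4 ω _)
  have o : ∀ k, (nx pz ω)^[k] (x, false) ∈ loop ω (x, false) := fun k =>
    (b4 ω _ _).2 ⟨k, 0, rfl⟩
  obtain ⟨n, p1, p2, -, p3⟩ := hp Edge (nx pz ω) (x, false) (b1 ℤ ℤ pz ω b3).1
    (hf.subset fun _ ⟨k, hk⟩ => hk ▸ o k)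
  have dg : ∀ i, Dg (md ((nx pz ω)^[i + 1] (x, false)) - md ((nx pz ω)^[i] (x, false))) :=
    fun i => by
      rw [Function.iterate_succ_apply']
      exact (hm.2 ω _).1
  have key := hc (fun k => md ((nx pz ω)^[k] (x, false))) n (if pz x then 1 else -1)
    (by split_ifs <;> simp) dg (fun i => by rw [Function.iterate_add_apply, p1])
    (fun a ha b hb q => p2 ha hb (hm.1 q)) (fun i => hl _ (o i)) (Prod.ext ?_ (Turn.out ω x))
    (Prod.ext ?_ (Turn.inn ω x _ (by rw [← Function.iterate_succ_apply' (nx pz ω), p1])))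
  · rw [e, p3]
    simp only [(hm.2 ω (x, false)).2, sum_add_distrib] at key
    have s1 := sum_range_succ' (fun k => kap pz ω ((nx pz ω)^[k] (x, false))) (n + 1)
    rw [sum_range_succ, p1] at s1
    simp only [Function.iterate_zero, id_eq] at s1
    split_ifs at key ⊢ <;> omega
  · have h1 := (dg 0).1
    have h2 := hl _ (o 1)
    simp only [Prod.fst_sub, Function.iterate_zero, id_eq, zero_add] at h1 h2 ⊢
    omega
  · have h1 := (dg n).1
    have h2 := hl _ (o n)
    rw [p1] at h1
    simp only [Prod.fst_sub, Function.iterate_zero, id_eq] at h1 h2 ⊢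
    omega

end Vale.Agent.P167.Pc
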