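import Vale.Agent.P167.PcStm3

/-! P167, percolation: the interior of a loop changes exactly across its edges. -/

namespace Vale.Agent.P167.Pc

open Vale.Agent.P152

namespace W1

theorem arc_mem (ω : Bond) (e a b : Edge) (h : Arc ω a b) : a ∈ loop ω e ↔ b ∈ loop ω e :=
  ⟨fun h1 => Relation.EqvGen.trans _ _ _ h1 (Relation.EqvGen.rel _ _ h),
    fun h1 => Relation.EqvGen.trans _ _ _ h1
      (Relation.EqvGen.symm _ _ (Relation.EqvGen.rel _ _ h))⟩

theorem vertex (ω : Bond) (e : Edge) (i j : ℤ) :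
    (((i - 1, j), true) ∈ loop ω e ↔ ((i, j), true) ∈ loop ω e) ↔
      (((i, j - 1), false) ∈ loop ω e ↔ ((i, j), false) ∈ loop ω e) := by
  by_cases h : (ω (i, j) = true ↔ Odd (i + j))
  · have h1 : Arc ω ((i, j), true) ((i, j), false) :=
      ⟨(i, j), 0, 0, Or.inl rfl, Or.inl rfl, by simp, by simp, by simpa using h⟩
    have h2 : Arc ω ((i - 1, j), true) ((i, j - 1), false) := by
      refine ⟨(i - 1, j - 1), 1, 1, Or.inr rfl, Or.inr rfl, by simp, by simp, ?_⟩
      have e1 : ((i - 1, j - 1) : ℤ × ℤ) + (1, 1) = (i, j) := by simp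
      rw [e1, h, Int.odd_iff, Int.odd_iff]
      simp only
      omega
    have h3 := arc_mem ω e _ _ h1
    have h4 := arc_mem ω e _ _ h2
    tauto
  · have h' : ω (i, j) = true ↔ ¬Odd (i + j) := by tauto
    have h1 : Arc ω ((i - 1, j), true) ((i, j), false) := by
      refine ⟨(i - 1, j), 1, 0, Or.inr rfl, Or.inl rfl, by simp, by simp, ?_⟩
      have e1 : ((i - 1, j) : ℤ × ℤ) + (1, 0) = (i, j) := by simp
      rw [e1, h', Int.odd_iff, Int.odd_iff]
      simp only
      omega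
    have h2 : Arc ω ((i, j), true) ((i, j - 1), false) := by
      refine ⟨(i, j - 1), 0, 1, Or.inl rfl, Or.inr rfl, by simp, by simp, ?_⟩
      have e1 : ((i, j - 1) : ℤ × ℤ) + (0, 1) = (i, j) := by simp
      rw [e1, h', Int.odd_iff, Int.odd_iff]
      simp only
      omega
    have h3 := arc_mem ω e _ _ h1
    have h4 := arc_mem ω e _ _ h2
    tauto

theorem fin (l : Set Edge) (hl : l.Finite) (i j : ℤ) :
    {a : ℤ | a ≤ i ∧ ((a, j), false) ∈ l}.Finite := by
  have h : ((fun a : ℤ => (((a, j), false) : Edge)) ⁻¹' l).Finite :=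
    hl.preimage (fun a _ b _ hab => by simpa using hab)
  exact h.subset (fun a ha => ha.2)

theorem row (l : Set Edge) (hl : l.Finite) (i j : ℤ) :
    ((i, j) ∈ ins l ↔ (i - 1, j) ∈ ins l) ↔ ((i, j), false) ∉ l := by
  unfold ins
  simp only [Set.mem_setOf_eq]
  by_cases h : ((i, j), false) ∈ l
  · have e : {a : ℤ | a ≤ i ∧ ((a, j), false) ∈ l} =
        insert i {a : ℤ | a ≤ i - 1 ∧ ((a, j), false) ∈ l} := by
      ext a
      simp only [Set.mem_setOf_eq, Set.mem_insert_iff]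
      constructor
      · rintro ⟨h1, h2⟩
        by_cases ha : a = i
        · exact Or.inl ha
        · exact Or.inr ⟨by omega, h2⟩
      · rintro (rfl | ⟨h1, h2⟩)
        · exact ⟨le_rfl, h⟩
        · exact ⟨by omega, h2⟩
    rw [e, Set.ncard_insert_of_notMem (fun h1 => by have := h1.1; omega) (fin l hl (i - 1) j),
      Nat.odd_add_one]
    tauto
  · have e : {a : ℤ | a ≤ i ∧ ((a, j), false) ∈ l} =
        {a : ℤ | a ≤ i - 1 ∧ ((a, j), false) ∈ l} := by
      ext a
      simp only [Set.mem_setOf_eq]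
      constructor
      · rintro ⟨h1, h2⟩
        have ha : a ≠ i := fun ha => h (ha ▸ h2)
        exact ⟨by omega, h2⟩
      · rintro ⟨h1, h2⟩
        exact ⟨by omega, h2⟩
    rw [e]
    tauto

theorem far (l : Set Edge) (i₀ : ℤ) (h : ∀ a ∈ l, i₀ < a.1.1) (i j : ℤ) (hi : i ≤ i₀) :
    (i, j) ∉ ins l := by
  unfold ins
  simp only [Set.mem_setOf_eq]
  have e : {a : ℤ | a ≤ i ∧ ((a, j), false) ∈ l} = ∅ := by
    ext a
    simp only [Set.mem_setOf_eq, Set.mem_empty_iff_false, iff_false]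
    rintro ⟨h1, h2⟩
    have := h _ h2
    simp only at this
    omega
  rw [e]
  simp

theorem prop8 (a a' b b' n s w e : Prop) (h1 : (a ↔ a') ↔ ¬n) (h2 : (b ↔ b') ↔ ¬s)
    (h3 : (w ↔ e) ↔ (s ↔ n)) (h4 : (a' ↔ b') ↔ ¬w) : (a ↔ b) ↔ ¬e := by
  by_cases ha : a <;> by_cases hb : b <;> by_cases ha' : a' <;> by_cases hb' : b' <;>
    by_cases hn : n <;> by_cases hs : s <;> by_cases hw : w <;> by_cases he : e <;> simp_all

end W1

theorem s_w1 (hb : S_bas) : S_w1 := by
  intro ω e hl i j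
  refine ⟨W1.row _ hl i j, ?_⟩
  obtain ⟨m, hm⟩ := (hl.image (fun a : Edge => a.1.1)).bddBelow
  have h0 : ∀ a ∈ loop ω e, min i (m - 1) < a.1.1 := by
    intro a ha
    have h1 : m ≤ a.1.1 := hm ⟨a, ha, rfl⟩
    omega
  have key : ∀ k : ℤ, min i (m - 1) ≤ k →
      (((k, j) ∈ ins (loop ω e) ↔ (k, j - 1) ∈ ins (loop ω e)) ↔ ((k, j), true) ∉ loop ω e) := by
    intro k hk
    induction k, hk using Int.le_induction with
    | base =>
      have h1 := W1.far _ _ h0 _ j le_rfl
      have h2 := W1.far _ _ h0 _ (j - 1) le_rfl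
      have h3 : ((min i (m - 1), j), true) ∉ loop ω e := fun h => lt_irrefl _ (h0 _ h)
      exact iff_of_true (iff_of_false h1 h2) h3
    | succ k _ ih =>
      have h1 := W1.row _ hl (k + 1) j
      have h2 := W1.row _ hl (k + 1) (j - 1)
      have h3 := W1.vertex ω e (k + 1) j
      rw [add_sub_cancel_right] at h1 h2 h3
      exact W1.prop8 _ _ _ _ _ _ _ _ h1 h2 h3 ih
  exact key i (min_le_left _ _)

end Vale.Agent.P167.Pc
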