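import Vale.Agent.P167.PcStm3

/-! P167, percolation: heights of gradients. -/

open Finset

namespace Vale.Agent.P167.Pc

open Vale.Agent.P152

namespace W2

theorem tele (a : ℤ → ℝ) {m n : ℤ} (h : m ≤ n) : ∑ i ∈ Ioc m n, (a i - a (i - 1)) = a n - a m := by
  induction n, h using Int.leInduction with
  | base => simp
  | succ k h ih =>
    have e : Ioc m (k + 1) = insert (k + 1) (Ioc m k) := by
      ext i
      simp only [mem_Ioc, mem_insert]
      omega
    rw [e, sum_insert (by simp), ih, add_sub_cancel_right]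
    ring

theorem tele2 (a : ℤ → ℝ) (n : ℤ) :
    ∑ i ∈ Ioc 0 n, (a i - a (i - 1)) - ∑ i ∈ Ioc n 0, (a i - a (i - 1)) = a n - a 0 := by
  rcases le_total 0 n with h | h
  · rw [tele a h, Ioc_eq_empty (not_lt.2 h), sum_empty, sub_zero]
  · rw [tele a h, Ioc_eq_empty (not_lt.2 h), sum_empty]
    ring

end W2

theorem s_w2 : S_w2 := by
  intro u F h1 h2 y
  have e1 := W2.tele2 (fun i => F (i, 0)) y.1
  have e2 := W2.tele2 (fun j => F (y.1, j)) y.2
  have e3 : ∀ s : Finset ℤ, ∑ i ∈ s, u ((i, 0), false) = -∑ i ∈ s, (F (i, 0) - F (i - 1, 0)) :=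
    fun s => by
      rw [← sum_neg_distrib]
      exact sum_congr rfl fun i _ => by rw [h1, neg_sub]
  unfold htz
  simp only [h2]
  rw [e3, e3, e2]
  linarith

end Vale.Agent.P167.Pc
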