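import Vale.Agent.P167.PcStm3

open MeasureTheory Filter Topology Finset

namespace Vale.Agent.P167.Pc

open Vale.Agent.P152

namespace W3

theorem arc_left (ω : Bond) (x : ℤ × ℤ) : ∃ y : ℤ × ℤ, y.1 = x.1 ∧ Arc ω (x, true) (y, false) := by
  by_cases h : (ω x = true ↔ Odd (x.1 + x.2))
  · refine ⟨x, rfl, x, 0, 0, Or.inl rfl, Or.inl rfl, ?_, ?_, ?_⟩
    · simp
    · simp
    · rw [Prod.mk_zero_zero, add_zero]
      exact h
  · have e : (x.1, x.2 - 1) + ((0 : ℤ), (1 : ℤ)) = x := by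
      ext <;> simp
    refine ⟨(x.1, x.2 - 1), rfl, (x.1, x.2 - 1), 0, 1, Or.inl rfl, Or.inr rfl, ?_, ?_, ?_⟩
    · rw [e]
    · simp
    · rw [e]
      have h1 : Odd (x.1 + (x.2 - 1)) ↔ ¬ Odd (x.1 + x.2) := by
        simp only [Int.odd_iff]
        omega
      simp only [h1]
      tauto

end W3

theorem s_w3 (_hb : S_bas) : S_w3 := by
  intro ω e hf
  obtain ⟨⟨x, b⟩, h1, h2⟩ := Set.exists_min_image (loop ω e) (fun e' => (md e').1) hf
    ⟨e, Relation.EqvGen.refl e⟩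
  cases b
  · exact ⟨x, h1, h2⟩
  · obtain ⟨y, hy, ha⟩ := W3.arc_left ω x
    have h3 := h2 (y, false) (Relation.EqvGen.trans _ _ _ h1 (Relation.EqvGen.rel _ _ ha))
    simp only [md, if_true, Bool.false_eq_true, if_false] at h3
    omega

end Vale.Agent.P167.Pc
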