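import Vale.Agent.P167.PcStm3

/-! P167, percolation: the winding number of a finite loop. -/

open MeasureTheory Filter Topology Finset

namespace Vale.Agent.P167.Pc

open Vale.Agent.P152

namespace Wind

theorem pz_eq {i j i' j' : ℤ} (h : (i + j) % 2 = (i' + j') % 2) : pz (i, j) = pz (i', j') := by
  unfold pz
  exact decide_eq_decide.2 (by rw [Int.even_iff, Int.even_iff]; simp only [h])

theorem pz_ne {i j i' j' : ℤ} (h : (i + j) % 2 ≠ (i' + j') % 2) : pz (i, j) = !pz (i', j') := by
  unfold pz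
  rw [← decide_not]
  refine decide_eq_decide.2 ?_
  rw [Int.even_iff, Int.even_iff]
  dsimp only
  omega

/-- the even face of an edge -/
def lt (e : Edge) : ℤ × ℤ :=
  if pz e.1 then e.1 else (if e.2 then (e.1.1, e.1.2 - 1) else (e.1.1 - 1, e.1.2))

/-- the odd face of an edge -/
def rt (e : Edge) : ℤ × ℤ :=
  if pz e.1 then (if e.2 then (e.1.1, e.1.2 - 1) else (e.1.1 - 1, e.1.2)) else e.1

theorem step (ω : Bond) (e : Edge) : lt (nx pz ω e) = lt e ∨ rt (nx pz ω e) = rt e := by
  obtain ⟨⟨i, j⟩, b⟩ := e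
  have p1 : pz (i + 1, j - 1) = pz (i, j) := pz_eq (by omega)
  have p2 : pz (i + 1, j) = !pz (i, j) := pz_ne (by omega)
  have p3 : pz (i, j - 1) = !pz (i, j) := pz_ne (by omega)
  have p4 : pz (i - 1, j) = !pz (i, j) := pz_ne (by omega)
  have p5 : pz (i, j + 1) = !pz (i, j) := pz_ne (by omega)
  have p6 : pz (i - 1, j + 1) = pz (i, j) := pz_eq (by omega)
  cases b
  · cases hp : pz (i, j)
    · cases hw : ω (i, j + 1)
      · left
        simp [lt, nx, hd, rf, hp, hw, p6]
      · right
        simp [rt, nx, hd, rf, hp, hw, p5]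
    · cases hw : ω (i, j)
      · left
        simp [lt, nx, hd, rf, hp, hw]
      · right
        simp [rt, nx, hd, rf, hp, hw, p4]
  · cases hp : pz (i, j)
    · cases hw : ω (i, j)
      · left
        simp [lt, nx, hd, rf, hp, hw, p3]
      · right
        simp [rt, nx, hd, rf, hp, hw]
    · cases hw : ω (i + 1, j)
      · left
        simp [lt, nx, hd, rf, hp, hw, p2]
      · right
        simp [rt, nx, hd, rf, hp, hw, p1]

theorem flip {l : Set Edge}
    (h1 : ∀ i j : ℤ, (((i, j) ∈ ins l ↔ (i - 1, j) ∈ ins l) ↔ ((i, j), false) ∉ l) ∧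
      (((i, j) ∈ ins l ↔ (i, j - 1) ∈ ins l) ↔ ((i, j), true) ∉ l))
    {e : Edge} (he : e ∈ l) : lt e ∈ ins l ↔ ¬ rt e ∈ ins l := by
  obtain ⟨⟨i, j⟩, b⟩ := e
  obtain ⟨a1, a2⟩ := h1 i j
  cases b
  · cases hp : pz (i, j)
    · simp only [lt, rt, hp, Bool.false_eq_true, if_false]
      tauto
    · simp only [lt, rt, hp, Bool.false_eq_true, if_false, if_true]
      tauto
  · cases hp : pz (i, j)
    · simp only [lt, rt, hp, Bool.false_eq_true, if_false, if_true]
      tauto
    · simp only [lt, rt, hp, if_true]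
      tauto

theorem chi_pos {p : Prop} (h : p) : chi p = 1 := by
  unfold chi
  exact if_pos h

theorem chi_neg {p : Prop} (h : ¬ p) : chi p = 0 := by
  unfold chi
  exact if_neg h

theorem chi_iff {p q : Prop} (h : p ↔ q) : chi p = chi q := by
  rw [propext h]

/-- the jump from the odd face to the even face -/
theorem jump {s : Bool} {p q : Prop} (h : p ↔ ¬ q) (hs : p ↔ s = true) :
    sg s * chi p - sg s * chi q = 1 := by
  cases s
  · have hp : ¬ p := fun x => Bool.false_ne_true (hs.1 x)
    have hq : q := by tauto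
    rw [chi_neg hp, chi_pos hq]
    simp [sg]
  · have hp : p := hs.2 rfl
    rw [chi_pos hp, chi_neg (h.1 hp)]
    simp [sg]

end Wind

open Wind in
theorem s_wind (hb : S_bas) (h1 : S_w1) (h2 : S_w2) (h3 : S_w3) : S_wind := by
  intro ω e hfin
  obtain ⟨x, hx, hmin⟩ := h3 ω e hfin
  refine ⟨x, hx, hmin, ?_⟩
  have hw := h1 ω e hfin
  obtain ⟨heq, hnx⟩ := hb.2.1 Edge (nx pz ω)
  have hl := hb.2.2.2.1 ω e
  generalize loop ω e = l at hx hmin hw hl
  have hst : ∀ e' ∈ l, nx pz ω e' ∈ l ∧ (lt (nx pz ω e') ∈ ins l ↔ lt e' ∈ ins l) := by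
    intro e' he'
    have hn : nx pz ω e' ∈ l := (hl _).2 (heq.trans ((hl _).1 he') (hnx e'))
    refine ⟨hn, ?_⟩
    rcases step ω e' with h | h
    · rw [h]
    · rw [flip hw hn, flip hw he', h]
  have hit : ∀ e' ∈ l, ∀ k : ℕ,
      (nx pz ω)^[k] e' ∈ l ∧ (lt ((nx pz ω)^[k] e') ∈ ins l ↔ lt e' ∈ ins l) := by
    intro e' he' k
    induction k with
    | zero => exact ⟨he', Iff.rfl⟩
    | succ k ih =>
      rw [Function.iterate_succ_apply']
      exact ⟨(hst _ ih.1).1, (hst _ ih.1).2.trans ih.2⟩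
  obtain ⟨a, b⟩ := x
  have hout : (a - 1, b) ∉ ins l := by
    have he : {i : ℤ | i ≤ a - 1 ∧ ((i, b), false) ∈ l} = ∅ := by
      rw [Set.eq_empty_iff_forall_notMem]
      rintro i ⟨hi, hm⟩
      have := hmin _ hm
      simp only [md, Bool.false_eq_true, if_false] at this
      omega
    show ¬ Odd {i : ℤ | i ≤ a - 1 ∧ ((i, b), false) ∈ l}.ncard
    rw [he, Set.ncard_empty]
    exact Nat.not_odd_zero
  have hin : (a, b) ∈ ins l := by
    have := (hw a b).1
    tauto
  have h0 : lt ((a, b), false) ∈ ins l ↔ pz (a, b) = true := by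
    cases hp : pz (a, b)
    · simp only [lt, hp, Bool.false_eq_true, if_false, iff_false]
      exact hout
    · simp only [lt, hp, if_true, iff_true]
      exact hin
  have hall : ∀ e' ∈ l, (lt e' ∈ ins l ↔ pz (a, b) = true) := by
    intro e' he'
    obtain ⟨m, k, hmk⟩ := heq.trans (heq.symm ((hl _).1 he')) ((hl _).1 hx)
    rw [← (hit e' he' m).2, hmk, (hit _ hx k).2, h0]
  have hj : ∀ e' ∈ l, sg (pz (a, b)) * chi (lt e' ∈ ins l) -
      sg (pz (a, b)) * chi (rt e' ∈ ins l) = 1 := fun e' he' => jump (flip hw he') (hall e' he')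
  intro y
  rw [h2 (ul l) (fun y => sg (pz (a, b)) * chi (y ∈ ins l)) ?_ ?_ y, mul_sub]
  · intro i j
    by_cases hm : ((i, j), false) ∈ l
    · have := hj _ hm
      unfold ul
      rw [if_pos hm]
      cases hp : pz (i, j)
      · simp only [lt, rt, hp, Bool.false_eq_true, if_false] at this
        simp only [rf, hp, this]
        simp [sg]
      · simp only [lt, rt, hp, Bool.false_eq_true, if_false, if_true] at this
        have h' : sg (rf pz ((i, j), false)) = -1 := by simp [rf, hp, sg]
        rw [h']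
        linarith
    · unfold ul
      rw [if_neg hm, chi_iff ((hw i j).1.2 hm), sub_self]
  · intro i j
    by_cases hm : ((i, j), true) ∈ l
    · have := hj _ hm
      unfold ul
      rw [if_pos hm]
      cases hp : pz (i, j)
      · simp only [lt, rt, hp, Bool.false_eq_true, if_false, if_true] at this
        have h' : sg (rf pz ((i, j), true)) = -1 := by simp [rf, hp, sg]
        rw [h']
        linarith
      · simp only [lt, rt, hp, if_true] at this
        have h' : sg (rf pz ((i, j), true)) = 1 := by simp [rf, hp, sg]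
        rw [h']
        linarith
    · unfold ul
      rw [if_neg hm, chi_iff ((hw i j).2.2 hm), sub_self]

end Vale.Agent.P167.Pc
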