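import Vale.Agent.P167.PcAbs
import Vale.Agent.P167.PcArm
import Vale.Agent.P167.PcBad
import Vale.Agent.P167.PcBalA
import Vale.Agent.P167.PcBas1
import Vale.Agent.P167.PcBas2
import Vale.Agent.P167.PcBas3
import Vale.Agent.P167.PcBk1
import Vale.Agent.P167.PcBkw
import Vale.Agent.P167.PcClosed
import Vale.Agent.P167.PcCls
import Vale.Agent.P167.PcCut
import Vale.Agent.P167.PcEnt
import Vale.Agent.P167.PcEntA2
import Vale.Agent.P167.PcFac
import Vale.Agent.P167.PcFacA
import Vale.Agent.P167.PcFacB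
import Vale.Agent.P167.PcFacC
import Vale.Agent.P167.PcFkg
import Vale.Agent.P167.PcFlux
import Vale.Agent.P167.PcGauss
import Vale.Agent.P167.PcGl
import Vale.Agent.P167.PcInd
import Vale.Agent.P167.PcInf
import Vale.Agent.P167.PcInt
import Vale.Agent.P167.PcInv
import Vale.Agent.P167.PcLim
import Vale.Agent.P167.PcLoc
import Vale.Agent.P167.PcMid
import Vale.Agent.P167.PcNop
import Vale.Agent.P167.PcOpen
import Vale.Agent.P167.PcPer
import Vale.Agent.P167.PcPfe
import Vale.Agent.P167.PcPhi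
import Vale.Agent.P167.PcPst
import Vale.Agent.P167.PcRep
import Vale.Agent.P167.PcRepA
import Vale.Agent.P167.PcSec
import Vale.Agent.P167.PcTex
import Vale.Agent.P167.PcTor
import Vale.Agent.P167.PcTorA
import Vale.Agent.P167.PcTorB
import Vale.Agent.P167.PcTr
import Vale.Agent.P167.PcTurn
import Vale.Agent.P167.PcW1
import Vale.Agent.P167.PcW2
import Vale.Agent.P167.PcW3
import Vale.Agent.P167.PcWind
import Vale.Agent.P152.XCn

/-! P167, percolation: all steps. -/

namespace Vale.Agent.P167.Pc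

theorem t_bas : S_bas := bas_of s_bas1 (s_bas2 s_bas1) s_bas3

theorem t_w3 : S_w3 := s_w3 t_bas

theorem t_turn : S_turn := s_turn t_bas s_per s_mid (s_closed s_sec)

theorem t_wind : S_wind := s_wind t_bas (s_w1 t_bas) s_w2 t_w3

theorem t_inf : S_inf := s_inf t_bas s_mid (s_open s_sec)

theorem t_torA : S_torA := s_torA t_bas s_per

theorem t_tor : S_tor := s_tor t_torA (s_torB t_bas s_per t_inf) (s_cls s_bas1)

theorem t_bal : S_bal := s_bal t_bas (s_cls s_bas1) (s_balA t_bas s_per t_torA s_flux)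

theorem t_facA : S_facA := s_facA t_bas t_torA t_w3 t_turn

theorem t_gl : S_gl := s_gl t_bas s_per

theorem t_fac : S_fac :=
  s_fac (s_abs s_bas1) t_tor t_bal t_facA (s_facB t_bas t_facA) (s_facC t_bas s_per t_torA t_facA) t_gl

theorem t_tex : S_tex :=
  s_tex (s_bkw t_bas (s_bk1 t_bas)) t_fac (s_tr t_bas) (s_loc (s_ent s_entA2) s_int) t_gl

theorem t_arm : S_arm :=
  s_arm (s_nop P152.XCnx.nc1 (s_pst s_int s_inv (s_fkg s_int) (s_ind s_int))
    (s_pfe s_int s_inv (s_fe s_int)) s_int s_inv) s_bad s_inv t_gl s_int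

theorem t_cut : S_cut := s_cut t_arm t_gl s_int

theorem t_phi : S_phi := s_phi t_bas t_wind t_turn

end Vale.Agent.P167.Pc
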