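import Vale.Agent.P152.Defs

/-! Critical bond percolation on the square lattice and its loops. The unit squares with lower
left corner `(x, y)`, `x + y` even, are the vertices of the (rotated) square lattice, the other
unit squares are the vertices of the dual lattice, each point of `ℤ × ℤ` carries one bond. -/

open MeasureTheory

namespace Vale.Agent.P167.Pc

open Vale.Agent.P152 (Edge)

/-- `ω v = true`: the two even squares that meet at `v` are joined (the bond is open);
`ω v = false`: the two odd squares are joined (the dual bond is open). -/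
abbrev Bond := ℤ × ℤ → Bool

/-- Independent fair coins. -/
noncomputable def perc : Measure Bond :=
  Measure.infinitePi fun _ => (PMF.uniformOfFintype Bool).toMeasure

/-- The horizontal edge `e` and the vertical edge `e'` are the two sides of a square `f` at a
corner of `f` where the open bond or open dual bond does not enter `f`. -/
def Arc (ω : Bond) (e e' : Edge) : Prop :=
  ∃ (f : ℤ × ℤ) (i j : ℤ), (i = 0 ∨ i = 1) ∧ (j = 0 ∨ j = 1) ∧ e = (f + (0, j), true) ∧
    e' = (f + (i, 0), false) ∧ (ω (f + (i, j)) = true ↔ Odd (f.1 + f.2))

/-- The interface between clusters and dual clusters that passes through the edge `e`. -/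
def loop (ω : Bond) (e : Edge) : Set Edge := {e' | Relation.EqvGen (Arc ω) e e'}

/-- The finite loops. -/
def loops (ω : Bond) : Set (Set Edge) := {l | l.Finite ∧ ∃ e, l = loop ω e}

/-- The squares inside a loop: the ray to the left crosses it an odd number of times. -/
def ins (l : Set Edge) : Set (ℤ × ℤ) :=
  {x | Odd {i : ℤ | i ≤ x.1 ∧ ((i, x.2), false) ∈ l}.ncard}

/-- The integral of `f` over the interior of the loop drawn at mesh `δ`. -/
noncomputable def mass (δ : ℝ) (f : ℝ × ℝ → ℝ) (l : Set Edge) : ℝ :=
  ∫ z in {z : ℝ × ℝ | (⌊z.1 / δ⌋, ⌊z.2 / δ⌋) ∈ ins l}, f z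

/-- The product over all finite loops; a loop of mass zero contributes the factor one. -/
noncomputable def Phi (δ : ℝ) (f : ℝ × ℝ → ℝ) (ω : Bond) : ℝ :=
  ∏ᶠ l ∈ loops ω, 2 * Real.cos (Real.pi / 3 + mass δ f l)

end Vale.Agent.P167.Pc
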