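import Vale.Agent.P167.PcStm3

/-! P167, percolation: independence of disjoint blocks of fair coins. -/

open Finset

namespace Vale.Agent.P167.Pc

open Vale.Agent.P152

namespace EntA

theorem sum_split {V A R : Type} [Fintype V] [DecidableEq V] [Fintype A] [DecidableEq A]
    [Fintype R] [DecidableEq R] (e : A ⊕ R ≃ V) (g : (A → Bool) → ℝ) :
    ∑ ω : V → Bool, g (fun a => ω (e (Sum.inl a))) = 2 ^ Fintype.card R * ∑ x, g x := by
  let E : (V → Bool) ≃ (A → Bool) × (R → Bool) :=
    (Equiv.arrowCongr e.symm (Equiv.refl Bool)).trans (Equiv.sumArrowEquivProdArrow A R Bool)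
  have h : ∀ ω : V → Bool, g (fun a => ω (e (Sum.inl a))) = g (E ω).1 := fun ω => rfl
  rw [Finset.sum_congr rfl fun ω _ => h ω, E.sum_comp (fun p => g p.1), Fintype.sum_prod_type]
  simp [Finset.mul_sum]

theorem sum_prod {U ι : Type} [Fintype U] [DecidableEq U] [Fintype ι] [DecidableEq ι]
    (f : (U → Bool) → ℝ) :
    ∑ x : ι × U → Bool, ∏ i, f (fun u => x (i, u)) = (∑ η, f η) ^ Fintype.card ι := by
  have h : (∑ η, f η) ^ Fintype.card ι = ∏ _i : ι, ∑ η, f η := by simp
  rw [h, Finset.prod_univ_sum, Fintype.piFinset_univ]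
  exact (Equiv.curry ι U Bool).sum_comp (fun y => ∏ i, f (y i))

end EntA

theorem s_entA : S_entA := by
  intro V U ι _ _ _ _ _ φ f hφ
  classical
  let e : (ι × U) ⊕ ((Set.range (Function.uncurry φ))ᶜ : Set V) ≃ V :=
    (Equiv.sumCongr (Equiv.ofInjective _ hφ) (Equiv.refl _)).trans
      (Equiv.Set.sumCompl (Set.range (Function.uncurry φ)))
  have he : ∀ i u, e (Sum.inl (i, u)) = φ i u := fun i u => rfl
  have h1 := EntA.sum_split e (fun x => ∏ i, f (fun u => x (i, u)))
  simp only [he] at h1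
  have hc : Fintype.card V = Fintype.card U * Fintype.card ι +
      Fintype.card ((Set.range (Function.uncurry φ))ᶜ : Set V) := by
    rw [← Fintype.card_congr e, Fintype.card_sum, Fintype.card_prod, mul_comm]
  have h2 : (∑ ω : V → Bool, ∏ i, f (ω ∘ φ i)) =
      2 ^ Fintype.card ((Set.range (Function.uncurry φ))ᶜ : Set V) *
        (∑ η, f η) ^ Fintype.card ι := by
    rw [← EntA.sum_prod f]
    exact h1
  rw [h2, hc, pow_add, pow_mul, div_pow]
  field_simp

end Vale.Agent.P167.Pc
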