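import Vale.Agent.P167.PcStm3

/-! P167, percolation: the product over the contractible classes. -/

open Finset

namespace Vale.Agent.P167.Pc

open Vale.Agent.P152

namespace FacB

open Classical in
theorem one (hA : S_facA) {M L : ℕ} [NeZero M] [NeZero L] (hM : Even M) (hL : Even L)
    (ω : ZMod M × ZMod L → Bool) (W : Finset Edge) (j : Edge → ℝ) {l : Finset _}
    (hl : l ∈ (univ.filter (Ctr M L ω)).image fun e => univ.filter (Cls (nx (pt M L) ω) e))
    (h : ∀ w ∈ W, pe M L w ∉ l) : 2 * Real.cos (∑ e ∈ l, aW M L W j ω e) = 1 := by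
  obtain ⟨e, he, rfl⟩ := mem_image.1 hl
  obtain ⟨e', rfl, hf⟩ := (mem_filter.1 he).2
  obtain ⟨k1, k2⟩ := (hA M L hM hL ω).2 e' hf
  have e1 : ∑ e ∈ univ.filter (Cls (nx (pt M L) ω) (pe M L e')), aW M L W j ω e = Real.pi / 12 *
      ((∑ e ∈ univ.filter (Cls (nx (pt M L) ω) (pe M L e')), kap (pt M L) ω e : ℤ) : ℝ) := by
    rw [Int.cast_sum, mul_sum]
    refine sum_congr rfl fun e he => ?_
    rw [aW, sum_eq_zero, add_zero]
    intro w hw
    obtain ⟨h1, rfl⟩ := mem_filter.1 hw
    exact (h w h1 he).elim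
  rw [e1, k1]
  rcases k2 with k | k <;> rw [k]
  · rw [show Real.pi / 12 * ((4 : ℤ) : ℝ) = Real.pi / 3 by push_cast; ring, Real.cos_pi_div_three]
    norm_num
  · rw [show Real.pi / 12 * ((-4 : ℤ) : ℝ) = -(Real.pi / 3) by push_cast; ring, Real.cos_neg,
      Real.cos_pi_div_three]
    norm_num

end FacB

open Classical in
theorem s_facB (hb : S_bas) (hA : S_facA) : S_facB := by
  intro M L _ _ hM hL _ ω W j
  refine ⟨?_, fun hW => prod_eq_one fun l hl => FacB.one hA hM hL ω W j hl (by simp [hW])⟩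
  have q := (hb.2.1 _ (nx (pt M L) ω)).1
  rw [← prod_filter_of_ne
    (p := fun l => l ∈ W.image fun w => univ.filter (Cls (nx (pt M L) ω) (pe M L w)))
    fun l hl h => ?_, abs_prod]
  · refine (prod_le_prod (g := fun _ => 2) (fun _ _ => abs_nonneg _) fun l _ => ?_).trans
      ((prod_const _).trans_le (pow_le_pow_right₀ one_le_two
        ((card_le_card fun l hl => (mem_filter.1 hl).2).trans card_image_le)))
    rw [abs_mul, abs_two]
    exact mul_le_of_le_one_right zero_le_two (Real.abs_cos_le_one _)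
  · by_contra k
    refine h (FacB.one hA hM hL ω W j hl fun w hw a => k (mem_image.2 ⟨w, hw, ?_⟩))
    obtain ⟨e, -, rfl⟩ := mem_image.1 hl
    exact filter_congr fun x _ =>
      ⟨q.trans (mem_filter.1 a).2, q.trans (q.symm (mem_filter.1 a).2)⟩

end Vale.Agent.P167.Pc
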