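import Vale.Agent.P167.PcStm3

/-! The product over all loops equals the product over the loops meeting the window. -/

open MeasureTheory Filter Topology Finset

namespace Vale.Agent.P167.Pc

open Vale.Agent.P152

namespace Phi

theorem loop_eq {ω : Bond} {e e' : Edge} (h : e' ∈ loop ω e) : loop ω e' = loop ω e := by
  ext a
  constructor
  · intro ha
    exact Relation.EqvGen.trans _ _ _ h ha
  · intro ha
    exact Relation.EqvGen.trans _ _ _ (Relation.EqvGen.symm _ _ h) ha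

theorem sum_ul {δ : ℝ} {f : ℝ × ℝ → ℝ} {X : Finset (ℤ × ℤ)} {g : ℤ × ℤ → ℝ} {W : Finset Edge}
    {j : Edge → ℝ} (R : Rep δ f X g W j) (l : Set Edge) (s : ℝ)
    (h : ∀ y, htz (ul l) y = s * (chi (y ∈ ins l) - chi ((0, 0) ∈ ins l))) :
    ∑ e ∈ W, j e * ul l e = s * mass δ f l := by
  rw [R.lin, R.ms]
  have h1 : ∀ x ∈ X, g x * htz (ul l) x =
      s * (g x * chi (x ∈ ins l)) - s * chi ((0, 0) ∈ ins l) * g x := by
    intro x _
    rw [h x]
    ring
  rw [Finset.sum_congr rfl h1, Finset.sum_sub_distrib, ← Finset.mul_sum, ← Finset.mul_sum, R.zero]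
  ring

theorem sg_ne (b : Bool) : sg b ≠ 0 := by
  cases b <;> simp [sg]

theorem mass_zero (hw : S_wind) {δ : ℝ} {f : ℝ × ℝ → ℝ} {X : Finset (ℤ × ℤ)} {g : ℤ × ℤ → ℝ}
    {W : Finset Edge} {j : Edge → ℝ} (R : Rep δ f X g W j) (ω : Bond) (e : Edge)
    (hf : (loop ω e).Finite) (hW : ∀ a ∈ W, a ∉ loop ω e) : mass δ f (loop ω e) = 0 := by
  obtain ⟨x, -, -, hx⟩ := hw ω e hf
  have h1 := sum_ul R _ _ hx
  have h2 : ∑ a ∈ W, j a * ul (loop ω e) a = 0 := by
    refine Finset.sum_eq_zero fun a ha => ?_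
    simp [ul, hW a ha]
  rw [h2] at h1
  exact (mul_eq_zero.1 h1.symm).resolve_left (sg_ne _)

theorem factor (hw : S_wind) (ht : S_turn) {δ : ℝ} {f : ℝ × ℝ → ℝ} {X : Finset (ℤ × ℤ)}
    {g : ℤ × ℤ → ℝ} {W : Finset Edge} {j : Edge → ℝ} (R : Rep δ f X g W j) (ω : Bond) (e : Edge)
    (hf : (loop ω e).Finite) :
    2 * Real.cos (Real.pi / 12 * (∑ᶠ a ∈ loop ω e, kap pz ω a : ℤ) +
      ∑ a ∈ W, j a * ul (loop ω e) a) = 2 * Real.cos (Real.pi / 3 + mass δ f (loop ω e)) := by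
  obtain ⟨x, hx, hl, hy⟩ := hw ω e hf
  have h1 := sum_ul R _ _ hy
  have h2 := loop_eq hx
  have h3 := ht ω x (by rw [h2]; exact hf) (by rw [h2]; exact hl)
  rw [h2] at h3
  rw [h1, h3]
  cases pz x
  · simp only [sg, Bool.false_eq_true, if_false]
    rw [← Real.cos_neg]
    congr 2
    push_cast
    ring
  · simp only [sg, if_true]
    congr 2
    push_cast
    ring

open Classical in
theorem sub_image (hw : S_wind) {δ : ℝ} {f : ℝ × ℝ → ℝ} {X : Finset (ℤ × ℤ)} {g : ℤ × ℤ → ℝ}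
    {W : Finset Edge} {j : Edge → ℝ} (R : Rep δ f X g W j) (ω : Bond) {l : Set Edge}
    (hl : l ∈ loops ω) (hm : mass δ f l ≠ 0) : l ∈ W.image (loop ω) := by
  obtain ⟨hf, e, rfl⟩ := hl
  by_contra hc
  refine hm (mass_zero hw R ω e hf fun a ha hae => hc ?_)
  exact Finset.mem_image.2 ⟨a, ha, loop_eq hae⟩

end Phi

theorem s_phi (hb : S_bas) (hw : S_wind) (ht : S_turn) : S_phi := by
  classical
  intro δ f X g W j R ω
  refine ⟨?_, fun hW => ?_⟩
  · refine (W.image (loop ω)).finite_toSet.subset ?_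
    intro l hl
    exact Finset.mem_coe.2 (Phi.sub_image hw R ω hl.1 hl.2)
  · unfold Phi PW
    rw [finprod_mem_eq_prod_of_inter_mulSupport_eq _ (t := W.image (loop ω))]
    · refine Finset.prod_congr (by congr) fun l hl => ?_
      obtain ⟨e, he, rfl⟩ := Finset.mem_image.1 hl
      exact (Phi.factor hw ht R ω e (hW e he)).symm
    · ext l
      simp only [Set.mem_inter_iff, Finset.mem_coe, Function.mem_mulSupport]
      constructor
      · rintro ⟨hl, hm⟩
        refine ⟨Phi.sub_image hw R ω hl fun h0 => hm ?_, hm⟩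
        rw [h0, add_zero, Real.cos_pi_div_three]
        norm_num
      · rintro ⟨hl, hm⟩
        obtain ⟨e, he, rfl⟩ := Finset.mem_image.1 hl
        exact ⟨⟨hW e he, e, rfl⟩, hm⟩

end Vale.Agent.P167.Pc
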