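import Vale.Agent.P167.PcDefs

/-! P167, percolation loops and the six vertex model: objects and step statements. -/

open MeasureTheory Filter Topology Finset

namespace Vale.Agent.P167.Pc

open Vale.Agent.P152

noncomputable section

section gen

variable {A B : Type} [Ring A] [Ring B]

/-- reference orientation: even square on the left (`true` is right or up) -/
def rf (par : A × B → Bool) (e : (A × B) × Bool) : Bool := e.2 == par e.1

/-- head of an edge in the reference orientation -/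
def hd (par : A × B → Bool) (e : (A × B) × Bool) : A × B :=
  if rf par e then e.1 + (if e.2 then (1, 0) else (0, 1)) else e.1

/-- next edge of the loop -/
def nx (par ω : A × B → Bool) (e : (A × B) × Bool) : (A × B) × Bool :=
  if e.2 then (if rf par e = ω (hd par e) then (hd par e - (0, 1), false) else (hd par e, false))
  else (if rf par e = ω (hd par e) then (hd par e, true) else (hd par e - (1, 0), true))

/-- turn at the head: left is `1` -/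
def kap (par ω : A × B → Bool) (e : (A × B) × Bool) : ℤ := if ω (hd par e) then -1 else 1

/-- checkerboard colourings -/
def Chk (par : A × B → Bool) : Prop := ∀ x, par (x + (1, 0)) = !par x ∧ par (x + (0, 1)) = !par x

end gen

/-- same orbit -/
def Cls {E : Type} (g : E → E) (e e' : E) : Prop := ∃ a b : ℕ, g^[a] e = g^[b] e'

def pz (x : ℤ × ℤ) : Bool := decide (Even (x.1 + x.2))

def pt (M L : ℕ) (x : ZMod M × ZMod L) : Bool := decide (Even (x.1.val + x.2.val))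

def pv (M L : ℕ) (x : ℤ × ℤ) : ZMod M × ZMod L := ((x.1 : ZMod M), (x.2 : ZMod L))

def pe (M L : ℕ) (e : Edge) : (ZMod M × ZMod L) × Bool := (pv M L e.1, e.2)

/-- periodic extension -/
def lf (M L : ℕ) (ω : ZMod M × ZMod L → Bool) : Bond := fun v => ω (pv M L v)

/-- basic facts -/
def S_bas : Prop :=
  (∀ (A B : Type) [Ring A] [Ring B] (par ω : A × B → Bool), Chk par →
    Function.Bijective (nx par ω)) ∧
  (∀ (E : Type) (g : E → E), Equivalence (Cls g) ∧ ∀ e, Cls g e (g e)) ∧ Chk pz ∧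
  (∀ (ω : Bond) (e e' : Edge), e' ∈ loop ω e ↔ Cls (nx pz ω) e e') ∧
  (∀ (ω : Bond) (t : ℤ × ℤ) (e : Edge), Even (t.1 + t.2) →
    rf pz (e.1 + t, e.2) = rf pz e ∧ hd pz (e.1 + t, e.2) = hd pz e + t ∧
    nx pz ω (e.1 + t, e.2) = ((nx pz (fun v => ω (v + t)) e).1 + t, (nx pz (fun v => ω (v + t)) e).2)) ∧
  ∀ (M L : ℕ) [NeZero M] [NeZero L], Even M → Even L → Chk (pt M L) ∧
    (∀ x, pt M L (pv M L x) = pz x) ∧ ∀ (ω : ZMod M × ZMod L → Bool) (e : Edge),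
      rf (pt M L) (pe M L e) = rf pz e ∧ kap (pt M L) ω (pe M L e) = kap pz (lf M L ω) e ∧
      nx (pt M L) ω (pe M L e) = pe M L (nx pz (lf M L ω) e)

/-! ### Turning numbers -/

/-- diagonal unit steps -/
def Dg (d : ℤ × ℤ) : Prop := (d.1 = 1 ∨ d.1 = -1) ∧ (d.2 = 1 ∨ d.2 = -1)

/-- twice the turn at `p (i + 1)` -/
def cp (p : ℕ → ℤ × ℤ) (i : ℕ) : ℤ :=
  (p (i + 1) - p i).1 * (p (i + 2) - p (i + 1)).2 - (p (i + 1) - p i).2 * (p (i + 2) - p (i + 1)).1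

/-- signed crossing of the negative axis -/
def crs (u v : ℤ × ℤ) : ℤ :=
  if u.2 = 0 ∧ v.2 = -1 ∧ u.1 < 0 then 1 else if v.2 = 0 ∧ u.2 = -1 ∧ v.1 < 0 then -1 else 0

/-- quadrant of a step -/
def qd (d : ℤ × ℤ) : ℤ := if 0 < d.2 then (if 0 < d.1 then 0 else 1) else if 0 < d.1 then -1 else -2

/-- the secant identity -/
def S_sec : Prop := ∀ (p : ℕ → ℤ × ℤ) (n : ℕ), (∀ i ≤ n, Dg (p (i + 1) - p i)) →
  Set.InjOn p (Set.Iic (n + 1)) →
  ∑ i ∈ range n, cp p i = 2 * (qd (p (n + 1) - p n) - qd (p 1 - p 0)) +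
    8 * (∑ i ∈ range n, crs (p (i + 1) - p 0) (p (i + 2) - p 0) +
      ∑ i ∈ range n, crs (p (n + 1) - p i) (p (n + 1) - p (i + 1)))

/-- open paths between extreme points -/
def S_open : Prop := ∀ (p : ℕ → ℤ × ℤ) (n : ℕ) (a b : ℤ), |a| + |b| = 1 →
  (∀ i ≤ n, Dg (p (i + 1) - p i)) → Set.InjOn p (Set.Iic (n + 1)) →
  (∀ i ≤ n + 1, a * (p 0).1 + b * (p 0).2 ≤ a * (p i).1 + b * (p i).2 ∧
    a * (p i).1 + b * (p i).2 ≤ a * (p (n + 1)).1 + b * (p (n + 1)).2) →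
  |∑ i ∈ range n, cp p i| ≤ 40

/-- closed paths -/
def S_closed : Prop := ∀ (p : ℕ → ℤ × ℤ) (n : ℕ) (σ : ℤ), (σ = 1 ∨ σ = -1) →
  (∀ i, Dg (p (i + 1) - p i)) → (∀ i, p (i + (n + 1)) = p i) → Set.InjOn p (Set.Iic n) →
  (∀ i, (p 0).1 ≤ (p i).1) → p 1 - p 0 = (1, -σ) → p 0 - p n = (-1, -σ) →
  ∑ i ∈ range (n + 1), cp p i = 8 * σ

/-- doubled midpoint -/
def md (e : Edge) : ℤ × ℤ := (2 * e.1.1 + (if e.2 then 1 else 0), 2 * e.1.2 + if e.2 then 0 else 1)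

def S_mid : Prop := Function.Injective md ∧ ∀ (ω : Bond) (e : Edge),
  Dg (md (nx pz ω e) - md e) ∧ ∀ i, cp (fun k => md ((nx pz ω)^[k] e)) i =
    kap pz ω ((nx pz ω)^[i] e) + kap pz ω ((nx pz ω)^[i + 1] e)

/-- a finite loop is a periodic orbit -/
def S_per : Prop := ∀ (E : Type) (g : E → E) (e : E), Function.Injective g →
  {e' | ∃ k, g^[k] e = e'}.Finite → ∃ n, g^[n + 1] e = e ∧ Set.InjOn (fun k => g^[k] e) (Set.Iic n) ∧
    {e' | Cls g e e'} = (fun k => g^[k] e) '' Set.Iic n ∧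
    ∀ (F : E → ℤ), ∑ᶠ e' ∈ {e' | Cls g e e'}, F e' = ∑ k ∈ range (n + 1), F (g^[k] e)

/-- the turning number is four times the orientation of a leftmost edge -/
def S_turn : Prop := ∀ (ω : Bond) (x : ℤ × ℤ), (loop ω (x, false)).Finite →
  (∀ e ∈ loop ω (x, false), (md (x, false)).1 ≤ (md e).1) →
  ∑ᶠ e ∈ loop ω (x, false), kap pz ω e = if pz x then 4 else -4

/-- the height formula for arbitrary increments -/
def htz (u : Edge → ℝ) (x : ℤ × ℤ) : ℝ :=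
  (∑ i ∈ Finset.Ioc x.1 0, u ((i, 0), false) - ∑ i ∈ Finset.Ioc 0 x.1, u ((i, 0), false)) +
    (∑ j ∈ Finset.Ioc 0 x.2, u ((x.1, j), true) - ∑ j ∈ Finset.Ioc x.2 0, u ((x.1, j), true))

open Classical in
/-- the oriented loop -/
def ul (l : Set Edge) (e : Edge) : ℝ := if e ∈ l then sg (rf pz e) else 0

open Classical in
/-- indicator -/
def chi (p : Prop) : ℝ := if p then 1 else 0

/-- the winding number of a finite loop -/
def S_wind : Prop := ∀ (ω : Bond) (e : Edge), (loop ω e).Finite → ∃ x : ℤ × ℤ,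
  (x, false) ∈ loop ω e ∧ (∀ e' ∈ loop ω e, (md (x, false)).1 ≤ (md e').1) ∧
  ∀ y, htz (ul (loop ω e)) y =
    sg (pz x) * (chi (y ∈ ins (loop ω e)) - chi ((0, 0) ∈ ins (loop ω e)))

/-- no flux through a column -/
def S_flux : Prop := ∀ (ω : Bond) (e : Edge) (n : ℕ) (S : Set ℤ), (nx pz ω)^[n] e = e →
  ∑ k ∈ range n, chi (((nx pz ω)^[k] e).2 = true ∧ ((nx pz ω)^[k] e).1.1 ∈ S) *
    sg (rf pz ((nx pz ω)^[k] e)) = 0

/-- periodic infinite paths do not turn and are long -/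
def S_inf : Prop := ∀ (ω : Bond) (e : Edge) (n : ℕ) (t : ℤ × ℤ), t ≠ 0 → Even (t.1 + t.2) →
  (∀ v, ω (v + t) = ω v) → (nx pz ω)^[n] e = (e.1 + t, e.2) →
  ∑ k ∈ range n, kap pz ω ((nx pz ω)^[k] e) = 0 ∧ 2 * |t.1| ≤ n ∧ 2 * |t.2| ≤ n

/-! ### The torus -/

open Classical in
/-- sum over the orientations of the loops -/
def SS (M L : ℕ) [NeZero M] [NeZero L] (W : Finset Edge) (j : Edge → ℝ)
    (ω : ZMod M × ZMod L → Bool) : ℂ :=
  ∑ ε : TOri M L, if (∀ e, ε (nx (pt M L) ω e) = ε e) ∧ Bal M L (fun e => ε e == rf (pt M L) e) then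
    Complex.exp (Complex.I * (∑ e, sg (ε e) * (Real.pi / 12 * kap (pt M L) ω e) +
      ∑ e ∈ W, j e * (sg (ε (pe M L e)) * sg (rf pz e)) : ℝ)) else 0

open Classical in
/-- the identity of Baxter, Kelland and Wu -/
def S_bkw : Prop := ∀ (M L : ℕ) [NeZero M] [NeZero L], Even M → Even L →
  ∀ (W : Finset Edge) (j : Edge → ℝ),
  (∑ o : TOri M L, if Bal M L o then (twt √3 M L o : ℂ) *
    Complex.exp (Complex.I * (∑ e ∈ W, j e * sg (lift M L o e) : ℝ)) else 0) = ∑ ω, SS M L W j ω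

/-- translation invariance -/
def S_tr : Prop := ∀ (M L : ℕ) [NeZero M] [NeZero L], Even M → Even L →
  ∀ (t : ℤ × ℤ) (ω : ZMod M × ZMod L → Bool), Even (t.1 + t.2) →
    SS M L ∅ 0 (fun v => ω (v + pv M L t)) = SS M L ∅ 0 ω

open Classical in
/-- factorization over the orbits -/
def S_abs : Prop := ∀ (E : Type) [Fintype E] (g : E → E) (c : E → Prop) (B : (E → Bool) → Prop),
  (∀ e, c (g e) ↔ c e) → B (fun _ => true) →
  (∀ ε ε', (∀ e, ε (g e) = ε e) → (∀ e, ε' (g e) = ε' e) → (∀ e, ¬ c e → ε e = ε' e) → B ε → B ε') →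
  ∃ T : ℕ, 1 ≤ T ∧ T ≤ 2 ^ ((univ.filter fun e => ¬ c e).image fun e => {e' | Cls g e e'}).card ∧
    ∀ a : E → ℝ, ∃ z : ℂ, ‖z‖ ≤ T ∧
      ((∀ e, ¬ c e → ∑ e' ∈ univ.filter (Cls g e), a e' = 0) → z = T) ∧
      (∑ ε : E → Bool, if (∀ e, ε (g e) = ε e) ∧ B ε then
        Complex.exp (Complex.I * (∑ e, sg (ε e) * a e : ℝ)) else 0) =
      (∏ l ∈ (univ.filter c).image fun e => univ.filter (Cls g e),
        2 * Real.cos (∑ e ∈ l, a e) : ℝ) * z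

/-- contractible edges of the torus -/
def Ctr (M L : ℕ) (ω : ZMod M × ZMod L → Bool) (e : (ZMod M × ZMod L) × Bool) : Prop :=
  ∃ e', pe M L e' = e ∧ (loop (lf M L ω) e').Finite

open Classical in
/-- the loops of the torus -/
def S_tor : Prop := ∀ (M L : ℕ) [NeZero M] [NeZero L], Even M → Even L → L ≤ M →
  ∀ ω : ZMod M × ZMod L → Bool, (∀ e, Ctr M L ω (nx (pt M L) ω e) ↔ Ctr M L ω e) ∧
  (∀ e', (loop (lf M L ω) e').Finite → Set.BijOn (pe M L) (loop (lf M L ω) e')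
    {e | Cls (nx (pt M L) ω) (pe M L e') e}) ∧
  (∀ e, ¬ Ctr M L ω e → ∑ e' ∈ univ.filter (Cls (nx (pt M L) ω) e), kap (pt M L) ω e' = 0) ∧
  ((univ.filter fun e => ¬ Ctr M L ω e).image fun e => {e' | Cls (nx (pt M L) ω) e e'}).card ≤ M

/-- the balance condition only sees the loops that are not contractible -/
def S_bal : Prop := ∀ (M L : ℕ) [NeZero M] [NeZero L], Even M → Even L → L ≤ M →
  ∀ ω : ZMod M × ZMod L → Bool, Bal M L (fun e => true == rf (pt M L) e) ∧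
  ∀ ε ε' : TOri M L, (∀ e, ε (nx (pt M L) ω e) = ε e) → (∀ e, ε' (nx (pt M L) ω e) = ε' e) →
    (∀ e, ¬ Ctr M L ω e → ε e = ε' e) → Bal M L (fun e => ε e == rf (pt M L) e) →
    Bal M L fun e => ε' e == rf (pt M L) e

/-- the loops through `W` stay in the box of size `N` -/
def Good (W : Finset Edge) (N : ℕ) (ω : Bond) : Prop :=
  ∀ e ∈ W, ∀ k, |((nx pz ω)^[k] e).1.1| ≤ N ∧ |((nx pz ω)^[k] e).1.2| ≤ N

open Classical in
/-- product over the loops through `W` -/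
def PW (W : Finset Edge) (j : Edge → ℝ) (ω : Bond) : ℝ :=
  ∏ l ∈ W.image (loop ω),
    2 * Real.cos (Real.pi / 12 * (∑ᶠ e ∈ l, kap pz ω e : ℤ) + ∑ e ∈ W, j e * ul l e)

/-- evaluation of the sum over orientations -/
def S_fac : Prop := ∀ (M L : ℕ) [NeZero M] [NeZero L], Even M → Even L → L ≤ M →
  ∀ ω : ZMod M × ZMod L → Bool, ∃ T : ℝ, 1 ≤ T ∧ T ≤ 2 ^ M ∧ SS M L ∅ 0 ω = T ∧
    ∀ (W : Finset Edge) (j : Edge → ℝ), ‖SS M L W j ω‖ ≤ 2 ^ W.card * T ∧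
      ∀ N : ℕ, 2 * N < L → Good W N (lf M L ω) → SS M L W j ω = (PW W j (lf M L ω) * T : ℝ)

/-! ### Removal of the tilt -/

/-- the entropy bound -/
def S_ent : Prop := ∀ (V U ι : Type) [Fintype V] [DecidableEq V] [Fintype U] [DecidableEq U]
  [Fintype ι] (φ : ι → U → V) (T : (V → Bool) → ℝ) (H : (U → Bool) → ℝ) (K b a s : ℝ),
  Function.Injective (Function.uncurry φ) → (∀ ω, 1 ≤ T ω ∧ T ω ≤ Real.exp K) → (∀ η, |H η| ≤ b) →
  (∀ i, ∑ ω, T ω * H (ω ∘ φ i) = a * ∑ ω, T ω) → 0 < s → s * b ≤ 1 →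
  Fintype.card ι * s * |a - (∑ η, H η) / 2 ^ Fintype.card U| ≤ K + Fintype.card ι * (s * b) ^ 2

/-- functions of finitely many bonds -/
def Loc (G : Bond → ℝ) : Prop :=
  ∃ S : Finset (ℤ × ℤ), ∀ ω ω' : Bond, (∀ v ∈ S, ω v = ω' v) → G ω = G ω'

/-- local functions -/
def S_int : Prop := ∀ (S : Finset (ℤ × ℤ)) (G : Bond → ℝ),
  (∀ ω ω' : Bond, (∀ v ∈ S, ω v = ω' v) → G ω = G ω') → Measurable G ∧ (∃ b, ∀ ω, |G ω| ≤ b) ∧
    ∫ ω, G ω ∂perc = (∑ η : S → Bool, G fun v => if h : v ∈ S then η ⟨v, h⟩ else true) / 2 ^ S.card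

/-- the tilt is not seen locally -/
def S_loc : Prop := ∀ G : Bond → ℝ, Loc G → ∀ ε > 0, ∃ L0 : ℕ, ∀ (M L : ℕ) [NeZero M] [NeZero L],
  L0 ≤ L → L ≤ M → ∀ T : (ZMod M × ZMod L → Bool) → ℝ, (∀ ω, 1 ≤ T ω ∧ T ω ≤ 2 ^ M) →
  (∀ (t : ℤ × ℤ) ω, Even (t.1 + t.2) → T (fun v => ω (v + pv M L t)) = T ω) →
  |(∑ ω, T ω * G (lf M L ω)) / ∑ ω, T ω - ∫ ω, G ω ∂perc| ≤ ε

/-- locality of the truncated observables -/
def S_gl : Prop := ∀ (W : Finset Edge) (j : Edge → ℝ) (N : ℕ),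
  Loc (fun ω => chi (Good W N ω)) ∧ Loc (fun ω => chi (Good W N ω) * PW W j ω) ∧
    ∀ ω, |PW W j ω| ≤ 2 ^ W.card ∧ (Good W N ω → ∀ e ∈ W, (loop ω e).Finite)

/-- injective changes of sites and colour flips preserve the measure -/
def S_inv : Prop := ∀ (g : ℤ × ℤ → ℤ × ℤ) (b : Bool), Function.Injective g →
  MeasurePreserving (fun (s : Bond) v => xor b (s (g v))) perc perc

/-- the Harris inequality -/
def S_fkg : Prop := ∀ F G : Bond → ℝ, Loc F → Loc G → Monotone F → Monotone G →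
  (∫ ω, F ω ∂perc) * ∫ ω, G ω ∂perc ≤ ∫ ω, F ω * G ω ∂perc

/-- independence -/
def S_ind : Prop := ∀ (S S' : Finset (ℤ × ℤ)) (F G : Bond → ℝ), Disjoint S S' →
  (∀ ω ω' : Bond, (∀ v ∈ S, ω v = ω' v) → F ω = F ω') →
  (∀ ω ω' : Bond, (∀ v ∈ S', ω v = ω' v) → G ω = G ω') →
  ∫ ω, F ω * G ω ∂perc = (∫ ω, F ω ∂perc) * ∫ ω, G ω ∂perc

/-- finite energy -/
def S_fe : Prop := ∀ (R : Finset (ℤ × ℤ)) (G : Bond → ℝ), Loc G → (∀ ω, 0 ≤ G ω) →
  ∫ ω, G (fun v => if v ∈ R then true else ω v) ∂perc ≤ 2 ^ R.card * ∫ ω, G ω ∂perc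

/-- long loops are rare -/
def S_arm : Prop := ∀ W : Finset Edge,
  Tendsto (fun N => ∫ ω, chi (Good W N ω) ∂perc) atTop (𝓝 1)

/-! ### The observable -/

/-- lattice data of a test function -/
structure Rep (δ : ℝ) (f : ℝ × ℝ → ℝ) (X : Finset (ℤ × ℤ)) (g : ℤ × ℤ → ℝ) (W : Finset Edge)
    (j : Edge → ℝ) : Prop where
  ht : ∀ o, hInt δ f o = ∑ e ∈ W, j e * sg (o e)
  lin : ∀ u : Edge → ℝ, ∑ e ∈ W, j e * u e = ∑ x ∈ X, g x * htz u x
  zero : ∑ x ∈ X, g x = 0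
  ms : ∀ l, mass δ f l = ∑ x ∈ X, g x * chi (x ∈ ins l)

def S_rep : Prop := ∀ δ > 0, ∀ f, IsTest f → ∃ X g W j, Rep δ f X g W j

def S_phi : Prop := ∀ δ f X g W j, Rep δ f X g W j → ∀ ω,
  {l ∈ loops ω | mass δ f l ≠ 0}.Finite ∧
    ((∀ e ∈ W, (loop ω e).Finite) → Phi δ f ω = PW W j ω)

def S_gauss : Prop := ∀ (P : Measure Ori) (σ : ℝ), ConvGFF P σ → ∀ f, IsTest f →
  Tendsto (fun δ : ℝ => ∫ o, Real.cos (hInt δ f o) ∂P) (𝓝[>] 0)
    (𝓝 (Real.exp (-(σ ^ 2 * gcov f f) / 2)))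

/-- the torus expectation -/
def S_tex : Prop := ∀ (W : Finset Edge) (j : Edge → ℝ) (N : ℕ), ∀ ε > 0, ∃ L0 : ℕ,
  ∀ (M L : ℕ) [NeZero M] [NeZero L], Even M → Even L → L0 ≤ L → L ≤ M →
  |texp √3 M L (fun o => Real.cos (∑ e ∈ W, j e * sg (o e))) -
    ∫ ω, chi (Good W N ω) * PW W j ω ∂perc| ≤
      2 ^ W.card * (1 - ∫ ω, chi (Good W N ω) ∂perc) + ε

end

end Vale.Agent.P167.Pc
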