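import Vale.Agent.P167.PcStm
import Vale.Agent.P152.NTDefs
import Vale.Agent.P152.NFArm

/-! P167, percolation: the refined lattice and the arm events. -/

open MeasureTheory Filter Topology

namespace Vale.Agent.P167.Pc

open Vale.Agent.P152

/-- colouring of the refined lattice -/
def col (s : Bond) : Col := fun x =>
  if Odd x.1 ∧ Odd x.2 then true else if Even x.1 ∧ Even x.2 then false else s x

/-- the law of the colouring -/
noncomputable def pp : PFn := fun F => ∫ s, F (col s) ∂perc

/-- the bonds read from the refined lattice -/
def om (s : Bond) : Bond := fun v => xor true (s (v.1 - v.2, v.1 + v.2 - 1))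

/-- the colouring is a symmetric positively associated mixing state -/
def S_pst : Prop := PSt pp

/-- finite energy and reflection -/
def S_pfe : Prop := FE1 pp ∧ ∀ F, CLoc F → pp (cmv (fun x => (-x.1, x.2)) F) = pp F

/-- no percolation -/
def S_nop : Prop := ∀ x : Site, Tendsto (fun R : ℕ => pp (ind (Arm NNa true x R))) atTop (𝓝 0)

/-- a long loop gives a long arm -/
def S_bad : Prop := ∀ e : Edge, ∃ (x : Site) (C : ℕ), ∀ (s : Bond) (R : ℕ),
  ¬ Good {e} (R + C) (om s) → col s ∈ Arm NNa true x R

end Vale.Agent.P167.Pc
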