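import Vale.Agent.P167.PcStm

/-! P167, percolation: intermediate statements. -/

open MeasureTheory Filter Topology Finset

namespace Vale.Agent.P167.Pc

open Vale.Agent.P152

noncomputable section

def S_bas1 : Prop :=
  (∀ (A B : Type) [Ring A] [Ring B] (par ω : A × B → Bool), Chk par →
    Function.Bijective (nx par ω)) ∧
  (∀ (E : Type) (g : E → E), Equivalence (Cls g) ∧ ∀ e, Cls g e (g e)) ∧ Chk pz

def S_bas2 : Prop := ∀ (ω : Bond) (e e' : Edge), e' ∈ loop ω e ↔ Cls (nx pz ω) e e'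

def S_bas3 : Prop :=
  (∀ (ω : Bond) (t : ℤ × ℤ) (e : Edge), Even (t.1 + t.2) →
    rf pz (e.1 + t, e.2) = rf pz e ∧ hd pz (e.1 + t, e.2) = hd pz e + t ∧
    nx pz ω (e.1 + t, e.2) = ((nx pz (fun v => ω (v + t)) e).1 + t, (nx pz (fun v => ω (v + t)) e).2)) ∧
  ∀ (M L : ℕ) [NeZero M] [NeZero L], Even M → Even L → Chk (pt M L) ∧
    (∀ x, pt M L (pv M L x) = pz x) ∧ ∀ (ω : ZMod M × ZMod L → Bool) (e : Edge),
      rf (pt M L) (pe M L e) = rf pz e ∧ kap (pt M L) ω (pe M L e) = kap pz (lf M L ω) e ∧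
      nx (pt M L) ω (pe M L e) = pe M L (nx pz (lf M L ω) e)

theorem bas_of (h1 : S_bas1) (h2 : S_bas2) (h3 : S_bas3) : S_bas :=
  ⟨h1.1, h1.2.1, h1.2.2, h2, h3.1, h3.2⟩

/-- the interior changes exactly across the edges of the loop -/
def S_w1 : Prop := ∀ (ω : Bond) (e : Edge), (loop ω e).Finite → ∀ i j : ℤ,
  (((i, j) ∈ ins (loop ω e) ↔ (i - 1, j) ∈ ins (loop ω e)) ↔ ((i, j), false) ∉ loop ω e) ∧
  (((i, j) ∈ ins (loop ω e) ↔ (i, j - 1) ∈ ins (loop ω e)) ↔ ((i, j), true) ∉ loop ω e)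

/-- heights of gradients -/
def S_w2 : Prop := ∀ (u : Edge → ℝ) (F : ℤ × ℤ → ℝ),
  (∀ i j, u ((i, j), false) = F (i - 1, j) - F (i, j)) →
  (∀ i j, u ((i, j), true) = F (i, j) - F (i, j - 1)) → ∀ y, htz u y = F y - F (0, 0)

/-- a leftmost vertical edge -/
def S_w3 : Prop := ∀ (ω : Bond) (e : Edge), (loop ω e).Finite → ∃ x : ℤ × ℤ,
  (x, false) ∈ loop ω e ∧ ∀ e' ∈ loop ω e, (md (x, false)).1 ≤ (md e').1

open Classical in
/-- the weight of one configuration -/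
def S_bk1 : Prop := ∀ (M L : ℕ) [NeZero M] [NeZero L], Even M → Even L → ∀ ε : TOri M L,
  (twt √3 M L (fun e => ε e == rf (pt M L) e) : ℂ) =
    ∑ ω : ZMod M × ZMod L → Bool, if ∀ e, ε (nx (pt M L) ω e) = ε e then
      Complex.exp (Complex.I * (∑ e, sg (ε e) * (Real.pi / 12 * kap (pt M L) ω e) : ℝ)) else 0

def S_torA : Prop := ∀ (M L : ℕ) [NeZero M] [NeZero L], Even M → Even L →
  ∀ ω : ZMod M × ZMod L → Bool, (∀ e, Ctr M L ω (nx (pt M L) ω e) ↔ Ctr M L ω e) ∧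
  ∀ e', (loop (lf M L ω) e').Finite → Set.BijOn (pe M L) (loop (lf M L ω) e')
    {e | Cls (nx (pt M L) ω) (pe M L e') e}

open Classical in
def S_torB : Prop := ∀ (M L : ℕ) [NeZero M] [NeZero L], Even M → Even L → L ≤ M →
  ∀ (ω : ZMod M × ZMod L → Bool) (e : (ZMod M × ZMod L) × Bool), ¬ Ctr M L ω e →
    ∑ e' ∈ univ.filter (Cls (nx (pt M L) ω) e), kap (pt M L) ω e' = 0 ∧
      2 * L ≤ (univ.filter (Cls (nx (pt M L) ω) e)).card

open Classical in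
/-- two facts on classes -/
def S_cls : Prop := ∀ (E : Type) [Fintype E] (g : E → E) (c : E → Prop),
  (∀ n : ℕ, (∀ e, c e → n ≤ (univ.filter (Cls g e)).card) →
    ((univ.filter c).image fun e => {e' | Cls g e e'}).card * n ≤ Fintype.card E) ∧
  ∀ h F : E → ℝ, (∀ e, h (g e) = h e) → (∀ e, ¬ c e → h e = 0) →
    (∀ e, c e → ∑ e' ∈ univ.filter (Cls g e), F e' = 0) → ∑ e, h e * F e = 0

open Classical in
/-- no flux of a contractible loop through a column -/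
def S_balA : Prop := ∀ (M L : ℕ) [NeZero M] [NeZero L], Even M → Even L →
  ∀ (ω : ZMod M × ZMod L → Bool) (e : (ZMod M × ZMod L) × Bool) (x : ZMod M), Ctr M L ω e →
    ∑ e' ∈ univ.filter (Cls (nx (pt M L) ω) e),
      chi (e'.2 = true ∧ e'.1.1 = x) * sg (rf (pt M L) e') = 0

open Classical in
/-- the phase of an edge of the torus -/
def aW (M L : ℕ) (W : Finset Edge) (j : Edge → ℝ) (ω : ZMod M × ZMod L → Bool)
    (e : (ZMod M × ZMod L) × Bool) : ℝ :=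
  Real.pi / 12 * kap (pt M L) ω e + ∑ w ∈ W.filter (fun w => pe M L w = e), j w * sg (rf pz w)

open Classical in
def S_facA : Prop := ∀ (M L : ℕ) [NeZero M] [NeZero L], Even M → Even L →
  ∀ (ω : ZMod M × ZMod L → Bool), (∀ (W : Finset Edge) (j : Edge → ℝ), SS M L W j ω =
    ∑ ε : TOri M L, if (∀ e, ε (nx (pt M L) ω e) = ε e) ∧ Bal M L (fun e => ε e == rf (pt M L) e)
      then Complex.exp (Complex.I * (∑ e, sg (ε e) * aW M L W j ω e : ℝ)) else 0) ∧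
  ∀ e', (loop (lf M L ω) e').Finite →
    ∑ e ∈ univ.filter (Cls (nx (pt M L) ω) (pe M L e')), kap (pt M L) ω e =
      ∑ᶠ e ∈ loop (lf M L ω) e', kap pz (lf M L ω) e ∧
    (∑ᶠ e ∈ loop (lf M L ω) e', kap pz (lf M L ω) e = 4 ∨
      ∑ᶠ e ∈ loop (lf M L ω) e', kap pz (lf M L ω) e = -4)

open Classical in
/-- the product over the contractible classes -/
def S_facB : Prop := ∀ (M L : ℕ) [NeZero M] [NeZero L], Even M → Even L → L ≤ M →
  ∀ (ω : ZMod M × ZMod L → Bool) (W : Finset Edge) (j : Edge → ℝ),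
    |∏ l ∈ (univ.filter (Ctr M L ω)).image fun e => univ.filter (Cls (nx (pt M L) ω) e),
      2 * Real.cos (∑ e ∈ l, aW M L W j ω e)| ≤ 2 ^ W.card ∧
    (W = ∅ → ∏ l ∈ (univ.filter (Ctr M L ω)).image fun e => univ.filter (Cls (nx (pt M L) ω) e),
      2 * Real.cos (∑ e ∈ l, aW M L W j ω e) = 1)

open Classical in
def S_facC : Prop := ∀ (M L : ℕ) [NeZero M] [NeZero L], Even M → Even L → L ≤ M →
  ∀ (ω : ZMod M × ZMod L → Bool) (W : Finset Edge) (j : Edge → ℝ) (N : ℕ), 2 * N < L →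
    Good W N (lf M L ω) →
    ∏ l ∈ (univ.filter (Ctr M L ω)).image fun e => univ.filter (Cls (nx (pt M L) ω) e),
      2 * Real.cos (∑ e ∈ l, aW M L W j ω e) = PW W j (lf M L ω)

/-- independence of disjoint windows -/
def S_entA : Prop := ∀ (V U ι : Type) [Fintype V] [DecidableEq V] [Fintype U] [DecidableEq U]
  [Fintype ι] (φ : ι → U → V) (f : (U → Bool) → ℝ), Function.Injective (Function.uncurry φ) →
  (∑ ω : V → Bool, ∏ i, f (ω ∘ φ i)) / 2 ^ Fintype.card V =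
    ((∑ η, f η) / 2 ^ Fintype.card U) ^ Fintype.card ι

/-- integrals of step functions -/
def S_repA : Prop := ∀ δ > 0, ∀ f, IsTest f → ∃ (X : Finset (ℤ × ℤ)) (g : ℤ × ℤ → ℝ),
  ∀ F : ℤ × ℤ → ℝ, ∫ z : ℝ × ℝ, F (⌊z.1 / δ⌋, ⌊z.2 / δ⌋) * f z = ∑ x ∈ X, g x * F x

/-- the limit for a fixed mesh -/
def S_lim : Prop := ∀ (P : Measure Ori), IsLimit √3 P → ∀ (W : Finset Edge) (j : Edge → ℝ) (N : ℕ),
  |∫ o, Real.cos (∑ e ∈ W, j e * sg (o e)) ∂P - ∫ ω, chi (Good W N ω) * PW W j ω ∂perc| ≤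
    2 ^ W.card * (1 - ∫ ω, chi (Good W N ω) ∂perc)

/-- removal of the truncation -/
def S_cut : Prop := ∀ (W : Finset Edge) (j : Edge → ℝ) (Φ : Bond → ℝ),
  (∀ ω, (∀ e ∈ W, (loop ω e).Finite) → Φ ω = PW W j ω) → (∀ᵐ ω ∂perc, ∀ e ∈ W, (loop ω e).Finite) ∧
  Integrable Φ perc ∧
    Tendsto (fun N => ∫ ω, chi (Good W N ω) * PW W j ω ∂perc) atTop (𝓝 (∫ ω, Φ ω ∂perc))

end

end Vale.Agent.P167.Pc
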