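import Vale.Agent.P167.QStm

/-! P167, random-cluster model: the free density is at least one half. -/

open MeasureTheory Filter Topology Finset

namespace Vale.Agent.P167.Q

open Vale.Agent.P152 Vale.Agent.P167.Pc

namespace A0

theorem sem_nn (M L : ℕ) (ω : Tor M L → Bool) : 0 ≤ sem M L false ω := by
  unfold sem chi
  split_ifs <;> norm_num

theorem count (M L : ℕ) [NeZero M] [NeZero L] (ω : Tor M L → Bool) :
    (cnt univ ω : ℝ) * sem M L false ω ≤ ∑ v ∈ rc M L, op (pv M L v) ω * sem M L false ω := by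
  rw [← sum_mul]
  unfold sem chi
  split_ifs with h
  · simp only [mul_one, op, sum_boole, cnt, Nat.cast_le]
    refine card_le_card_of_surjOn (pv M L) fun w hw => ?_
    have h1 : ω w = true := (mem_filter.1 (mem_coe.1 hw)).2
    have h2 : ¬(w.1 = 0 ∨ w.2 = 0) := fun h' => by simp [h w h'] at h1
    have h3 : pv M L ((w.1.val : ℤ), (w.2.val : ℤ)) = w := by simp [pv]
    refine ⟨_, mem_coe.2 (mem_filter.2 ⟨?_, by rw [h3]; exact h1⟩), h3⟩
    have a1 := ZMod.val_lt w.1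
    have a2 := ZMod.val_lt w.2
    have a3 : w.1.val ≠ 0 := fun h' => h2 (.inl ((ZMod.val_eq_zero _).1 h'))
    have a4 : w.2.val ≠ 0 := fun h' => h2 (.inr ((ZMod.val_eq_zero _).1 h'))
    simp only [rc, mem_product, mem_Ico]
    omega
  · simp

theorem card_rc (M L : ℕ) : ((rc M L).card : ℝ) ≤ M * L := by
  rw [rc, card_product, Int.card_Ico, Int.card_Ico, ← Nat.cast_mul, Nat.cast_le]
  exact Nat.mul_le_mul (by omega) (by omega)

end A0

open A0

theorem t_a0 (hl : T_lin) (hs : T_iso) (ha : T_aut) (h0 : T_sm0) (hj : T_sj) : T_a0 := by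
  intro r h1 h2 hP ε hε
  by_contra hc
  have hr : 0 < r := one_pos.trans_le h1
  have s1 : ∀ S v, v ∈ S → f0 r S (op v) ≤ 1 / 2 - ε := by
    intro S v hv
    obtain ⟨ρ, π, hA, rfl⟩ := ha.2.2.2.2 v
    have h := (hs r ρ π hA (S.map ρ.symm.toEmbedding) (op (0, 0))).1
    have e : (S.map ρ.symm.toEmbedding).map ρ.toEmbedding = S := by
      ext x
      simp
    rw [e] at h
    exact h.trans_le (le_of_not_ge fun h' => hc ⟨_, by simpa using hv, h'⟩)
  have s2 : 0 ≤ 1 / 2 - ε := by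
    obtain ⟨l1, -, -, l4, -⟩ := hl _ _ r ea eb nil {((0, 0) : ℤ × ℤ)} (fun _ => false) hr
    refine le_trans ((l1 0).symm.trans_le (l4 _ _ fun ω => ?_)) (s1 _ _ (mem_singleton_self _))
    unfold op
    split_ifs <;> norm_num
  obtain ⟨C, hC⟩ := hP
  obtain ⟨t, ht, hC⟩ := hC (ε / 2) (half_pos hε)
  obtain ⟨L0, hC⟩ := hC (-t) (by rw [abs_neg, abs_of_pos ht])
  obtain ⟨n, hn⟩ := exists_nat_gt (2 * (C + 4) / (ε * t))
  obtain ⟨L, hL0, hL, hL1, hL2⟩ : ∃ L : ℕ, L ≠ 0 ∧ Even L ∧ L0 ≤ L ∧ n ≤ L :=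
    ⟨2 * (n + L0 + 1), by omega, even_two_mul _, by omega, by omega⟩
  have : NeZero L := ⟨hL0⟩
  obtain ⟨M0, hC⟩ := hC L hL hL1
  obtain ⟨M, hM0, hM, hM1, hM2⟩ : ∃ M : ℕ, M ≠ 0 ∧ Even M ∧ M0 ≤ M ∧ L ≤ M :=
    ⟨2 * (L + M0 + 1), by omega, even_two_mul _, by omega, by omega⟩
  have : NeZero M := ⟨hM0⟩
  obtain ⟨l1, -, l3, l4, l5, -⟩ :=
    hl _ _ r (ta (pt M L)) (tb (pt M L)) nil univ (fun _ => false) hr
  have s3 : 0 ≤ tE r M L (sem M L false) := (l1 0).symm.trans_le (l4 _ _ (sem_nn M L))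
  have s4 : tE r M L (fun ω => (cnt univ ω : ℝ) * sem M L false ω) ≤
      M * L * ((1 / 2 - ε) * tE r M L (sem M L false)) := by
    refine (l4 _ _ (count M L)).trans ((l5 _ _ _).trans_le ?_)
    refine (sum_le_card_nsmul _ _ _ fun v hv => (h0 r M L h1 hM hL v hv).trans
      (mul_le_mul_of_nonneg_right (s1 _ v hv) s3)).trans ?_
    rw [nsmul_eq_mul]
    exact mul_le_mul_of_nonneg_right (card_rc M L) (mul_nonneg s2 s3)
  have s5 := hj r M L false (-t) (-t * (M * L * (1 / 2 - ε))) h1 h2 hM2 (by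
    simp only [mul_assoc (-t)]
    refine le_of_le_of_eq ?_ (l3 _ _).symm
    rw [mul_assoc]
    exact mul_le_mul_of_nonpos_left s4 (neg_nonpos.2 ht.le))
  have s6 := s5.trans (mul_le_mul_of_nonneg_left (hC M hM hM1) (Real.exp_pos _).le)
  rw [← Real.exp_add, Real.exp_le_exp, abs_neg, abs_of_pos ht] at s6
  have s7 : (0 : ℝ) < M := Nat.cast_pos.2 (Nat.pos_of_ne_zero hM0)
  have s8 := (div_lt_iff₀ (mul_pos hε ht)).1 (hn.trans_le (Nat.cast_le.2 hL2))
  have s9 := mul_lt_mul_of_pos_right s8 s7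
  linarith

end Vale.Agent.P167.Q
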