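import Vale.Agent.P167.QStm

/-! P167, random-cluster model: the wired density is at most one half. -/

open Finset

namespace Vale.Agent.P167.Q

open Vale.Agent.P152 Vale.Agent.P167.Pc

namespace A1

theorem cast_inj {M : ℕ} {x y : ℤ} (hx : x ∈ Finset.Ico (1 : ℤ) M) (hy : y ∈ Finset.Ico (1 : ℤ) M)
    (h : (x : ZMod M) = y) : x = y := by
  rw [mem_Ico] at hx hy
  have k := (ZMod.intCast_eq_intCast_iff x y M).1 h
  unfold Int.ModEq at k
  rwa [Int.emod_eq_of_lt (by omega) hx.2, Int.emod_eq_of_lt (by omega) hy.2] at k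

theorem sum_le (M L : ℕ) [NeZero M] [NeZero L] (ω : Tor M L → Bool) :
    ∑ v ∈ rc M L, op (pv M L v) ω ≤ cnt univ ω := by
  have hi : Set.InjOn (pv M L) (rc M L) := fun v hv w hw h => by
    have h1 := mem_product.1 (mem_coe.1 hv)
    have h2 := mem_product.1 (mem_coe.1 hw)
    exact Prod.ext (cast_inj h1.1 h2.1 (congrArg Prod.fst h))
      (cast_inj h1.2 h2.2 (congrArg Prod.snd h))
  rw [← sum_image (f := fun u => op u ω) hi]
  refine (sum_le_sum_of_subset_of_nonneg (subset_univ _) fun u _ _ => ?_).trans (le_of_eq ?_)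
  · unfold op
    split_ifs <;> norm_num
  · simp [op, cnt]

theorem card_rc (M L : ℕ) [NeZero M] [NeZero L] :
    ((rc M L).card : ℝ) = ((M : ℝ) - 1) * ((L : ℝ) - 1) := by
  have h : ∀ n : ℕ, n ≠ 0 → (((n : ℤ) - 1).toNat : ℝ) = (n : ℝ) - 1 := fun n hn => by
    obtain ⟨k, rfl⟩ := Nat.exists_eq_succ_of_ne_zero hn
    simp
  rw [rc, card_product, Int.card_Ico, Int.card_Ico, Nat.cast_mul, h M (NeZero.ne M),
    h L (NeZero.ne L)]

end A1

theorem t_a1 (hl : T_lin) (hs : T_iso) (ha : T_aut) (h1 : T_sm1) (hj : T_sj) : T_a1 := by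
  rintro r r1 r2 ⟨C, hC⟩ ε e0
  have r0 : 0 < r := by linarith
  by_contra hc
  push Not at hc
  have y1 : 1 / 2 + ε ≤ 1 := by
    obtain ⟨l1, -, -, l4, -⟩ := hl _ _ r ea eb (Bd {(0, 0)}) {(0, 0)} (fun _ => false) r0
    refine (hc {(0, 0)} (mem_singleton_self _)).le.trans ((l4 _ _ fun ω => ?_).trans_eq (l1 1))
    unfold op
    split_ifs <;> norm_num
  have y2 : ∀ (S : Finset (ℤ × ℤ)), ∀ v ∈ S, 1 / 2 + ε ≤ f1 r S (op v) := fun S v hv => by
    obtain ⟨ρ, π, a1, a2⟩ := ha.2.2.2.2 v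
    have k := (hs r ρ π a1 (S.map ρ.symm.toEmbedding) (op (0, 0))).2
    have e1 : (S.map ρ.symm.toEmbedding).map ρ.toEmbedding = S := by
      ext x
      simp
    have e2 : (fun ω : Bond => op (0, 0) (ω ∘ ρ)) = op v := funext fun ω => by
      simp only [op, Function.comp, a2]
    rw [e1, e2] at k
    rw [k]
    exact (hc _ (by simpa [a2] using hv)).le
  obtain ⟨t, t0, ht⟩ := hC (ε / 4) (by positivity)
  obtain ⟨L0, hL⟩ := ht t (abs_of_pos t0).le
  obtain ⟨n, hn⟩ := exists_nat_gt ((C + 4 + 2 * t) / (ε * t / 2))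
  obtain ⟨L, l1, l2, l3, l4⟩ : ∃ L : ℕ, Even L ∧ L0 ≤ L ∧ n ≤ L ∧ L ≠ 0 :=
    ⟨2 * (L0 + n + 1), even_two_mul _, by omega, by omega, by omega⟩
  have : NeZero L := ⟨l4⟩
  obtain ⟨M0, hM⟩ := hL L l1 l2
  obtain ⟨M, m1, m2, m3⟩ : ∃ M : ℕ, Even M ∧ M0 ≤ M ∧ L ≤ M :=
    ⟨2 * (M0 + L), even_two_mul _, by omega, by omega⟩
  have : NeZero M := ⟨by omega⟩
  obtain ⟨k1, -, k3, k4, k5, -⟩ := hl _ _ r (ta (pt M L)) (tb (pt M L)) nil univ
    (fun _ => false) r0
  have s0 : ∀ ω, 0 ≤ sem M L true ω := fun ω => by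
    unfold sem chi
    split_ifs <;> norm_num
  have s1 : 0 ≤ tE r M L (sem M L true) := (k1 0).ge.trans (k4 _ _ s0)
  have s2 : (rc M L).card • ((1 / 2 + ε) * tE r M L (sem M L true)) ≤
      tE r M L fun ω => cnt univ ω * sem M L true ω := by
    refine (card_nsmul_le_sum _ _ _ fun v hv => (mul_le_mul_of_nonneg_right (y2 _ v hv) s1).trans
      (h1 r M L r1 m1 l1 v hv)).trans ((k5 _ _ _).ge.trans (k4 _ _ fun ω => ?_))
    rw [← sum_mul]
    exact mul_le_mul_of_nonneg_right (A1.sum_le M L ω) (s0 ω)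
  rw [nsmul_eq_mul, A1.card_rc] at s2
  have s3 := hj r M L true t (t * (((M : ℝ) - 1) * ((L : ℝ) - 1) * (1 / 2 + ε))) r1 r2 m3 (by
    simp only [mul_assoc t]
    refine le_trans ?_ (k3 t _).ge
    rw [mul_assoc _ (1 / 2 + ε)]
    exact mul_le_mul_of_nonneg_left s2 t0.le)
  have s4 := s3.trans (mul_le_mul_of_nonneg_left (hM M m1 m2) (Real.exp_pos _).le)
  rw [← Real.exp_add, Real.exp_le_exp, abs_of_pos t0] at s4
  have c1 : (L : ℝ) ≤ M := by exact_mod_cast m3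
  have c2 : (n : ℝ) ≤ L := by exact_mod_cast l3
  have c3 : (0 : ℝ) < L := by exact_mod_cast Nat.pos_of_ne_zero l4
  have c4 : (0 : ℝ) < M := by linarith
  rw [div_lt_iff₀ (by positivity)] at hn
  have c5 : C + 4 + 2 * t < L * (ε * t / 2) :=
    hn.trans_le (mul_le_mul_of_nonneg_right c2 (by positivity))
  have c6 := mul_lt_mul_of_pos_left c5 c4
  have c7 : (M : ℝ) * L * (1 / 2 + ε) - 2 * M ≤ ((M : ℝ) - 1) * ((L : ℝ) - 1) * (1 / 2 + ε) := by
    nlinarith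
  have c8 := mul_le_mul_of_nonneg_left c7 t0.le
  have c9 : 0 < ε * t * (M * L) := by positivity
  nlinarith

end Vale.Agent.P167.Q
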