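import Vale.Agent.P167.QStm2

/-! P167, random-cluster model: exponential moments of the imbalance. -/

open MeasureTheory Filter Topology Finset

namespace Vale.Agent.P167.Q

open Vale.Agent.P152 Vale.Agent.P167.Pc

namespace Ab

theorem conv {Ω : Type} [Fintype Ω] (w A : Ω → ℝ) (hw : ∀ o, 0 ≤ w o) (u m : ℝ)
    (h : u * ∑ o, w o * Real.exp (u * A o) * A o ≤ m * ∑ o, w o * Real.exp (u * A o)) :
    ∑ o, w o * Real.exp (u * A o) ≤ Real.exp m * ∑ o, w o := by
  have h1 : ∀ o, w o * Real.exp (u * A o) + m * (w o * Real.exp (u * A o)) -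
      u * (w o * Real.exp (u * A o) * A o) ≤ Real.exp m * w o := fun o => by
    have a1 := Real.add_one_le_exp (m - u * A o)
    have a2 : Real.exp m = Real.exp (u * A o) * Real.exp (m - u * A o) := by
      rw [← Real.exp_add]; ring_nf
    have a3 := mul_le_mul_of_nonneg_left a1 (mul_nonneg (hw o) (Real.exp_pos (u * A o)).le)
    rw [a2]
    linarith
  have h2 := sum_le_sum fun o (_ : o ∈ univ) => h1 o
  rw [sum_sub_distrib, sum_add_distrib, ← mul_sum, ← mul_sum, ← mul_sum] at h2
  linarith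

theorem shift {M L : ℕ} [NeZero M] [NeZero L] (e : Tor M L) (Φ : TOri M L → ℝ) :
    ∑ o : TOri M L, Φ (fun x => o (x.1 + e, x.2)) = ∑ o, Φ o := by
  have hb : Function.Bijective fun (o : TOri M L) (x : Tor M L × Bool) => o (x.1 + e, x.2) := by
    refine Finite.injective_iff_bijective.1 fun o o' h => funext fun x => ?_
    simpa using congrFun h (x.1 - e, x.2)
  exact hb.sum_comp Φ

theorem key {c : ℝ} {M L : ℕ} [NeZero M] [NeZero L] {e : Tor M L}
    (h1 : ∀ o : TOri M L, bw6 c M L (fun x => o (x.1 + e, x.2)) = bw6 c M L o)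
    (h2 : ∀ o : TOri M L, AB M L (fun x => o (x.1 + e, x.2)) = -AB M L o)
    (h3 : ∀ (o : TOri M L) v, dg M L true (fun x => o (x.1 + e, x.2)) v = dg M L false o (v + e))
    (u : ℝ) :
    ∑ o, bw6 c M L o * Real.exp (-u * AB M L o) = ∑ o, bw6 c M L o * Real.exp (u * AB M L o) ∧
    ∑ o, bw6 c M L o * Real.exp (u * AB M L o) * AB M L o =
      ∑ v, (∑ o, bw6 c M L o * Real.exp (-u * AB M L o) * dg M L true o v -
        ∑ o, bw6 c M L o * Real.exp (u * AB M L o) * dg M L true o v) := by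
  constructor
  · rw [← shift e fun o => bw6 c M L o * Real.exp (-u * AB M L o)]
    simp only [h1, h2, neg_mul_neg]
  · have a1 : ∀ v, ∑ o, bw6 c M L o * Real.exp (-u * AB M L o) * dg M L true o v =
        ∑ o, bw6 c M L o * Real.exp (u * AB M L o) * dg M L false o (v + e) := fun v => by
      rw [← shift e fun o => bw6 c M L o * Real.exp (-u * AB M L o) * dg M L true o v]
      simp only [h1, h2, h3, neg_mul_neg]
    simp only [a1, ← sum_sub_distrib, ← mul_sub]
    rw [sum_comm]
    refine sum_congr rfl fun o _ => ?_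
    have a2 : ∑ v, dg M L false o (v + e) = ∑ v, dg M L false o v :=
      Equiv.sum_comp (Equiv.addRight e) (dg M L false o)
    rw [← mul_sum, sum_sub_distrib, a2, ← sum_sub_distrib]
    rfl

end Ab

theorem t_ab (hs : T_sh) (ht : T_tm) (hb : Pc.S_bas) : T_ab := by
  intro c hc hm ε hε
  choose h hh using ht c hc hm
  choose u0 hu0 L0 hL using fun z => hh z (ε / 2) (half_pos hε)
  refine ⟨min (u0 true) (u0 false), lt_min (hu0 _) (hu0 _), max (L0 true) (L0 false),
    fun L _ eL hL0 => ?_⟩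
  have b1 : ∀ z, L0 z ≤ L := fun z => by
    cases z
    · exact (le_max_right _ _).trans hL0
    · exact (le_max_left _ _).trans hL0
  choose M0 hM using fun z => hL z L eL (b1 z)
  refine ⟨max (M0 true) (M0 false), fun M _ eM hM0 u hu => ?_⟩
  have b2 : ∀ z, M0 z ≤ M := fun z => by
    cases z
    · exact (le_max_right _ _).trans hM0
    · exact (le_max_left _ _).trans hM0
  have b3 : ∀ z, |u| ≤ u0 z := fun z => by
    cases z
    · exact hu.trans (min_le_right _ _)
    · exact hu.trans (min_le_left _ _)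
  obtain ⟨s1, -, s3⟩ := hs c M L hc eM eL
  have p0 : pt M L (1, 0) = false := by
    have := ((hb.2.2.2.2.2 M L eM eL).1 0).1
    rw [zero_add] at this
    rw [this]
    simp [pt]
  obtain ⟨k1, k2⟩ := Ab.key (c := c) (e := ((1, 0) : Tor M L)) (fun o => (s3 _ o).1)
    (fun o => by rw [(s3 _ o).2.1, p0]; simp [sg]) (fun o v => by rw [(s3 _ o).2.2, p0]; rfl) u
  refine Ab.conv _ _ s1 u _ ?_
  have b4 : |∑ o, bw6 c M L o * Real.exp (u * AB M L o) * AB M L o| ≤
      (M * L : ℝ) * (ε * ∑ o, bw6 c M L o * Real.exp (u * AB M L o)) := by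
    rw [k2]
    refine (abs_sum_le_sum_abs _ _).trans ((sum_le_card_nsmul _ _
      (ε * ∑ o, bw6 c M L o * Real.exp (u * AB M L o)) fun v _ => ?_).trans (le_of_eq ?_))
    · have c1 := abs_le.1 (hM _ M eM (b2 _) u (b3 _) v rfl)
      have c2 := abs_le.1 (hM _ M eM (b2 _) (-u) (by rw [abs_neg]; exact b3 _) v rfl)
      rw [k1] at c2
      exact abs_le.2 ⟨by linarith [c1.2, c2.1], by linarith [c1.1, c2.2]⟩
    · simp [ZMod.card]
  calc u * ∑ o, bw6 c M L o * Real.exp (u * AB M L o) * AB M L o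
      ≤ |u| * |∑ o, bw6 c M L o * Real.exp (u * AB M L o) * AB M L o| := by
        rw [← abs_mul]; exact le_abs_self _
    _ ≤ |u| * ((M * L : ℝ) * (ε * ∑ o, bw6 c M L o * Real.exp (u * AB M L o))) :=
        mul_le_mul_of_nonneg_left b4 (abs_nonneg u)
    _ = _ := by ring

end Vale.Agent.P167.Q
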