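import Vale.Agent.P167.QStm2

/-! P167, random-cluster model: long loops are rare. -/

open MeasureTheory Filter Topology

namespace Vale.Agent.P167.Q

open Vale.Agent.P152 Vale.Agent.P167.Pc

namespace Arm

theorem int (hi : S_int) (φ : Measure Bond) [IsProbabilityMeasure φ] {G : Bond → ℝ}
    (h : Pc.Loc G) : Integrable G φ := by
  obtain ⟨S, hS⟩ := h
  obtain ⟨h1, ⟨b, hb⟩, -⟩ := hi S G hS
  exact .of_bound h1.aestronglyMeasurable b (Eventually.of_forall hb)

theorem le_one (p : Prop) : 0 ≤ 1 - Pc.chi p := by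
  unfold Pc.chi
  split_ifs <;> norm_num

theorem ind_nonneg {α : Type} (A : Set α) (a : α) : 0 ≤ ind A a := by
  unfold ind
  split_ifs
  · exact zero_le_one
  · exact le_rfl

theorem om_iv (ω : Bond) : om (fun x => !ω (iv x)) = ω := by
  funext v
  have e : iv (v.1 - v.2, v.1 + v.2 - 1) = v := by
    refine Prod.ext ?_ ?_
    · show (v.1 - v.2 + (v.1 + v.2 - 1) + 1) / 2 = v.1
      omega
    · show (v.1 + v.2 - 1 - (v.1 - v.2) + 1) / 2 = v.2
      omega
  show xor true (!ω (iv (v.1 - v.2, v.1 + v.2 - 1))) = ω v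
  rw [e]
  simp

theorem nop (φ : Measure Bond) (b : Bool)
    (hl : ∀ x R, Integrable (fun ω => ind (Arm NNa b x R) (cq ω)) φ) (hp : ¬Perc (pq φ) NNa b)
    (x : Site) : Tendsto (fun R : ℕ => pq φ (ind (Arm NNa b x R))) atTop (𝓝 0) := by
  have h0 : ∀ R : ℕ, 0 ≤ pq φ (ind (Arm NNa b x R)) := fun R =>
    integral_nonneg fun s => ind_nonneg _ _
  have anti : ∀ R R' : ℕ, R ≤ R' →
      pq φ (ind (Arm NNa b x R')) ≤ pq φ (ind (Arm NNa b x R)) := fun R R' h => by
    refine integral_mono (hl x R') (hl x R) fun s => ind_le ?_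
    rintro ⟨h0, y, hy, hp⟩
    exact ⟨h0, y, le_trans (by exact_mod_cast h) hy, hp⟩
  rw [Metric.tendsto_atTop]
  intro ε hε
  by_contra hc
  refine hp ⟨ε, hε, x, fun R => ?_⟩
  by_contra hR
  refine hc ⟨R, fun R' hR' => ?_⟩
  rw [Real.dist_eq, sub_zero, abs_of_nonneg (h0 R')]
  exact (anti R R' hR').trans_lt (not_le.1 hR)

theorem one (hg : S_gl) (hi : S_int) (φ : Measure Bond) [IsProbabilityMeasure φ] (b : Bool)
    (hl : ∀ x R, Integrable (fun ω => ind (Arm NNa b x R) (cq ω)) φ) (hp : ¬Perc (pq φ) NNa b)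
    (hb : ∀ e : Edge, ∃ (x : Site) (C : ℕ), ∀ (s : Bond) (R : ℕ),
      ¬ Good {e} (R + C) (om s) → Pc.col s ∈ Arm NNa b x R) (e : Edge) :
    Tendsto (fun N => ∫ ω, (1 - Pc.chi (Good {e} N ω)) ∂φ) atTop (𝓝 0) := by
  obtain ⟨x, C, hx⟩ := hb e
  refine squeeze_zero' (Eventually.of_forall fun N => integral_nonneg fun ω => le_one _) ?_
    ((nop φ b hl hp x).comp (tendsto_sub_atTop_nat C))
  filter_upwards [eventually_ge_atTop C] with N hN
  refine integral_mono ((integrable_const 1).sub (int hi φ (hg {e} 0 N).1)) (hl x (N - C))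
    fun ω => ?_
  simp only [Pc.chi, ind]
  by_cases h : Good {e} N ω
  · rw [if_pos h]
    split_ifs <;> norm_num
  · have k : cq ω ∈ Arm NNa b x (N - C) :=
      hx _ (N - C) (by rwa [Nat.sub_add_cancel hN, om_iv])
    rw [if_neg h, if_pos k, sub_zero]

theorem all (hg : S_gl) (hi : S_int) (φ : Measure Bond) [IsProbabilityMeasure φ]
    (h0 : ∀ e : Edge, Tendsto (fun N => ∫ ω, (1 - Pc.chi (Good {e} N ω)) ∂φ) atTop (𝓝 0)) :
    ArmQ φ := by
  intro W
  have h1 := tendsto_finsetSum W fun e _ => h0 e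
  rw [Finset.sum_const_zero] at h1
  have h2 : Tendsto (fun N => ∫ ω, (1 - Pc.chi (Good W N ω)) ∂φ) atTop (𝓝 0) := by
    refine squeeze_zero (fun N => integral_nonneg fun ω => le_one _) (fun N => ?_) h1
    have i1 : ∀ e : Edge, Integrable (fun ω => 1 - Pc.chi (Good {e} N ω)) φ :=
      fun e => (integrable_const (1 : ℝ)).sub (int hi φ (hg {e} 0 N).1)
    rw [← integral_finsetSum _ fun e _ => i1 e]
    refine integral_mono ((integrable_const 1).sub (int hi φ (hg W 0 N).1))
      (integrable_finsetSum _ fun e _ => i1 e) fun ω => ?_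
    by_cases h : Good W N ω
    · simp only [show Pc.chi (Good W N ω) = 1 from if_pos h, sub_self]
      exact Finset.sum_nonneg fun e _ => le_one _
    · obtain ⟨e, he, hk⟩ : ∃ e ∈ W, ¬Good {e} N ω := by
        by_contra hc
        exact h fun e he => (by_contra fun k => hc ⟨e, he, k⟩ : Good {e} N ω) e
          (Finset.mem_singleton_self e)
      refine le_trans ?_ (Finset.single_le_sum (fun e _ => le_one (Good {e} N ω)) he)
      simp only [Pc.chi, if_neg h, if_neg hk, le_refl]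
  have h3 := h2.const_sub 1
  rw [sub_zero] at h3
  refine h3.congr fun N => ?_
  rw [integral_sub (integrable_const 1) (int hi φ (hg W 0 N).1)]
  simp

end Arm

theorem t_arm (hn : NCbond1) (h1 : T_pst) (h2 : T_pfe) (hs : T_sym) (hb : S_bad) (hb2 : T_bad)
    (hg : S_gl) (hi : S_int) : T_arm := by
  intro r φ hr hφ
  haveI := hφ.1
  have hl : ∀ (b : Bool) x R, Integrable (fun ω => ind (Arm NNa b x R) (cq ω)) φ := fun b x R =>
    Arm.int hi φ (hs r φ hr hφ _ (arm_loc nn_sd b x R)).1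
  have key := hn (pq φ) (h1 r φ hr hφ) (h2 r φ hr hφ) fun F hF => (hs r φ hr hφ F hF).2.2.2.2
  refine Arm.all hg hi φ ?_
  by_cases hp : Perc (pq φ) NNa true
  · exact Arm.one hg hi φ false (hl false) (key hp) hb2
  · exact Arm.one hg hi φ true (hl true) hp hb

end Vale.Agent.P167.Q
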