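import Vale.Agent.P167.QStm2

/-! P167, random-cluster model: the plus state is symmetric in the limit. -/

open MeasureTheory Filter Topology Finset

namespace Vale.Agent.P167.Q

open Vale.Agent.P152 Vale.Agent.P167.Pc

namespace At

lemma lin (c : ℝ) (D : Finset Site) (x y : ℝ) (Φ Ψ Θ : Spin → ℝ) :
    ATD c D (fun ω => x * Φ ω + y * Ψ ω + y * Θ ω) =
      x * ATD c D Φ + y * (ATD c D Ψ + ATD c D Θ) := by
  have : atn c D (fun ω => x * Φ ω + y * Ψ ω + y * Θ ω) =
      x * atn c D Φ + y * atn c D Ψ + y * atn c D Θ := by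
    simp only [atn, mul_sum, ← sum_add_distrib]
    exact sum_congr rfl fun N _ => by ring
  unfold ATD
  rw [this]
  ring

/-- agreement of the two spins -/
noncomputable def ag (p p' : Site) (ω : Spin) : ℝ := if ω (p, true) = ω (p', true) then 1 else 0

lemma bb_eq (p p' : Site) (b : Bool) : (fun ω : Spin => bb p p' b fun v => ω (v, true)) =
    fun ω => 1 / 2 * ag p p' ω + sg b / 4 * tau p ω + sg b / 4 * tau p' ω := by
  funext ω
  cases b <;> cases h1 : ω (p, true) <;> cases h2 : ω (p', true) <;>
    norm_num [bb, ag, tau, sg, h1, h2]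

end At

open At in
theorem t_at (hb : P152.S_bas) (_hc : S_cone) : T_at := by
  intro c _ hM hX p p'
  refine ⟨AT c (ag p p'), fun ε hε => ?_⟩
  have h1 := hX.conv (ag p p') ⟨{(p, true), (p', true)}, fun ω ω' h => by
    rw [ag, ag, h _ (mem_insert_self _ _), h _ (mem_insert_of_mem (mem_singleton_self _))]⟩
  have h2 := (hM p).2.add (hM p').2
  rw [add_zero] at h2
  have : exh.NeBot := by unfold exh; infer_instance
  obtain ⟨ab, k1, k2, k3, k4⟩ := ((hb.exv {p, p'}).and
    ((h1.eventually (lt_mem_nhds (sub_lt_self _ (half_pos hε)))).and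
      ((h1.eventually (gt_mem_nhds (lt_add_of_pos_right _ (half_pos hε)))).and
        (h2.eventually (gt_mem_nhds hε))))).exists
  refine ⟨bx ab, k1 (mem_insert_self _ _), k1 (mem_insert_of_mem (mem_singleton_self _)), ?_, ?_⟩
  · rw [bb_eq, lin]
    simp only [sg, if_true]
    linarith
  · rw [bb_eq, lin]
    simp only [sg, Bool.false_eq_true, if_false]
    linarith

end Vale.Agent.P167.Q
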