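import Vale.Agent.P167.QStm

namespace Vale.Agent.P167.Q

open Vale.Agent.P152 Vale.Agent.P167.Pc

namespace Aut

theorem mk' (r p : ℤ × ℤ → ℤ × ℤ) (hr : Function.Involutive r) (hp : Function.Involutive p)
    (h : ∀ x y : ℤ, (ea (r (x, y)) = p (ea (x, y)) ∧ eb (r (x, y)) = p (eb (x, y))) ∨
      (ea (r (x, y)) = p (eb (x, y)) ∧ eb (r (x, y)) = p (ea (x, y)))) :
    ∃ ρ π, Aut ρ π ∧ ∀ v, ρ v = r v :=
  ⟨hr.toPerm, hp.toPerm, fun v => h v.1 v.2, fun _ => rfl⟩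

theorem tr (t : ℤ × ℤ) (ht : Even (t.1 + t.2)) : ∃ ρ π, Aut ρ π ∧ ∀ v, ρ v = v + t := by
  refine ⟨Equiv.addRight t, Equiv.addRight t, fun v => Or.inl ?_, fun _ => rfl⟩
  have e : Even ((v + t).1 + (v + t).2) ↔ Even (v.1 + v.2) := by
    simp only [Prod.fst_add, Prod.snd_add, Int.even_iff] at ht ⊢
    omega
  simp only [Equiv.coe_addRight, ea, eb, e]
  constructor <;> split_ifs <;> abel

theorem fl : ∃ ρ π, Aut ρ π ∧ ∀ v, ρ v = (v.1, 1 - v.2) := by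
  refine mk' (fun v => (v.1, 1 - v.2)) (fun f => (f.1, -f.2)) (fun v => by simp) (fun v => by simp)
    fun x y => Or.inr ?_
  simp only [ea, eb, Int.even_iff]
  constructor <;> split_ifs <;> simp only [Prod.mk_sub_mk, Prod.mk.injEq, true_and] <;> omega

theorem ng : ∃ ρ π, Aut ρ π ∧ ∀ v, ρ v = (1 - v.1, 1 - v.2) := by
  refine mk' (fun v => (1 - v.1, 1 - v.2)) (fun f => (-f.1, -f.2)) (fun v => by simp)
    (fun v => by simp) fun x y => Or.inr ?_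
  simp only [ea, eb, Int.even_iff]
  constructor <;> split_ifs <;> simp only [Prod.mk_sub_mk, Prod.mk.injEq, true_and] <;> omega

theorem sw : ∃ ρ π, Aut ρ π ∧ ∀ v, ρ v = (v.2, v.1) := by
  refine mk' (fun v => (v.2, v.1)) (fun f => (f.2, f.1)) (fun v => rfl) (fun v => rfl)
    fun x y => ?_
  by_cases h : Even (x + y)
  · left
    simp [ea, eb, h, add_comm y x]
  · right
    simp [ea, eb, h, add_comm y x]

theorem comp {ρ π ρ' π' : ℤ × ℤ ≃ ℤ × ℤ} (h : Aut ρ π) (h' : Aut ρ' π') :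
    Aut (ρ.trans ρ') (π.trans π') := by
  intro v
  simp only [Equiv.trans_apply]
  rcases h v with ⟨a, b⟩ | ⟨a, b⟩ <;> rcases h' (ρ v) with ⟨c, d⟩ | ⟨c, d⟩ <;>
    simp [c, d, a, b]

end Aut

theorem t_aut : T_aut := by
  refine ⟨Aut.tr, Aut.fl, Aut.ng, Aut.sw, fun v => ?_⟩
  by_cases h : Even (v.1 + v.2)
  · obtain ⟨ρ, π, h1, h2⟩ := Aut.tr v h
    exact ⟨ρ, π, h1, by rw [h2]; simp⟩
  · obtain ⟨ρ, π, h1, h2⟩ := Aut.fl
    obtain ⟨ρ', π', h3, h4⟩ := Aut.tr (v - (0, 1)) (by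
      simp only [Prod.fst_sub, Prod.snd_sub, Int.even_iff] at h ⊢
      omega)
    refine ⟨_, _, h1.comp h3, ?_⟩
    rw [Equiv.trans_apply, h2, h4]
    simp

end Vale.Agent.P167.Q
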