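import Vale.Agent.P167.QStm
import Vale.Agent.P167.PcBk1
import Vale.Agent.P167.PcBkw

/-! P167, random-cluster model: the identity of Baxter, Kelland and Wu on the torus. -/

open MeasureTheory Filter Topology Finset

namespace Vale.Agent.P167.Q

open Vale.Agent.P152 Vale.Agent.P167.Pc

namespace Bk1

open Vale.Agent.P167.Pc.Bk1 (inc out eqv nx_inc kap_inc inc_hd par_l par_d)

noncomputable section

variable {A B : Type} [Ring A] [Ring B]

/-- the local phase -/
def ph (a : ℝ) (par : A × B → Bool) (ε : (A × B) × Bool → Bool) (v : A × B) (b : Bool) : ℝ :=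
  ∑ i : Bool, sg (ε (inc par v i)) * (a / 4 * ((if b then -1 else 1 : ℤ) : ℝ))

/-- the local weight -/
def W (a : ℝ) (par : A × B → Bool) (ε : (A × B) × Bool → Bool) (v : A × B) (b : Bool) : ℂ :=
  if ε (out par v true b) = ε (inc par v true) ∧ ε (out par v false b) = ε (inc par v false) then
    Complex.exp (Complex.I * (ph a par ε v b : ℝ)) else 0

theorem summand (a : ℝ) [Fintype A] [Fintype B] {par : A × B → Bool} (h : Chk par)
    (ε : (A × B) × Bool → Bool) (ω : A × B → Bool) {_ : Decidable (∀ e, ε (nx par ω e) = ε e)} :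
    (if ∀ e, ε (nx par ω e) = ε e then
      Complex.exp (Complex.I * (∑ e, sg (ε e) * (a / 4 * kap par ω e) : ℝ)) else 0) =
      ∏ v, W a par ε v (ω v) := by
  by_cases ha : ∀ e, ε (nx par ω e) = ε e
  · rw [if_pos ha]
    have h1 : ∀ v, W a par ε v (ω v) = Complex.exp (Complex.I * (ph a par ε v (ω v) : ℝ)) := by
      intro v
      unfold W
      rw [if_pos]
      exact ⟨by rw [← nx_inc h, ha], by rw [← nx_inc h, ha]⟩
    have h2 : ∑ e, sg (ε e) * (a / 4 * kap par ω e) = ∑ v, ph a par ε v (ω v) := by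
      rw [← (eqv h).sum_comp, Fintype.sum_prod_type]
      refine Finset.sum_congr rfl (fun v _ => Finset.sum_congr rfl (fun i _ => ?_))
      change sg (ε (inc par v i)) * (a / 4 * kap par ω (inc par v i)) = _
      rw [kap_inc h]
    rw [h2, Finset.prod_congr rfl (fun v _ => h1 v), ← Complex.exp_sum, Complex.ofReal_sum,
      Finset.mul_sum]
  · rw [if_neg ha]
    obtain ⟨e, he⟩ := not_forall.mp ha
    refine (Finset.prod_eq_zero (Finset.mem_univ (hd par e)) ?_).symm
    unfold W
    rw [if_neg]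
    intro hh
    apply he
    rw [← nx_inc h, ← nx_inc h] at hh
    rw [← inc_hd h e]
    cases rf par e
    · exact hh.1
    · exact hh.2

theorem trig (a : ℝ) : Complex.exp (Complex.I * ((a / 2 : ℝ) : ℂ)) +
    Complex.exp (Complex.I * ((-(a / 2) : ℝ) : ℂ)) = (2 * Real.cos (a / 2) : ℝ) := by
  have h := Complex.two_cos ((a / 2 : ℝ) : ℂ)
  rw [← Complex.ofReal_cos] at h
  rw [mul_comm Complex.I, mul_comm Complex.I, Complex.ofReal_neg, ← h]
  push_cast
  ring

theorem ph_eq (a : ℝ) (par : A × B → Bool) (ε : (A × B) × Bool → Bool) (v : A × B) (b : Bool) :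
    ph a par ε v b = if ε (inc par v true) = ε (inc par v false) then
      (if ε (inc par v true) = b then -(a / 2) else a / 2) else 0 := by
  unfold ph sg
  rw [Fintype.sum_bool]
  cases ε (inc par v true) <;> cases ε (inc par v false) <;> cases b <;> simp <;> ring

theorem loc (a : ℝ) {par : A × B → Bool} (h : Chk par) (ε : (A × B) × Bool → Bool) (v : A × B) :
    (vwt (2 * Real.cos (a / 2)) (ε (v - (1, 0), true) == rf par (v - (1, 0), true))
      (ε (v, true) == rf par (v, true))
      (ε (v - (0, 1), false) == rf par (v - (0, 1), false))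
      (ε (v, false) == rf par (v, false)) : ℂ) = ∑ b, W a par ε v b := by
  have t1 := trig a
  have t2 := (add_comm _ _).trans (trig a)
  rw [Fintype.sum_bool]
  unfold W
  rw [ph_eq, ph_eq]
  unfold rf inc out vwt
  simp only [par_l h, par_d h]
  cases par v <;> simp only [Bool.false_eq_true, Bool.true_eq_false, if_true, if_false,
    Bool.not_true, Bool.not_false] <;>
  cases ε (v - (1, 0), true) <;> cases ε (v, true) <;> cases ε (v - (0, 1), false) <;>
  cases ε (v, false) <;> first | exact t1.symm | exact t2.symm | simp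

end

end Bk1

theorem t_bk1 (h : Pc.S_bas) : T_bk1 := by
  intro a M L _ _ hM hL ε
  have hc : Chk (pt M L) := (h.2.2.2.2.2 M L hM hL).1
  refine Eq.trans ?_ (Finset.sum_congr rfl (fun ω _ => (Bk1.summand a hc ε ω).symm))
  rw [← Fintype.piFinset_univ, ← Finset.prod_univ_sum]
  unfold twt
  rw [Complex.ofReal_prod]
  refine Finset.prod_congr rfl (fun v _ => ?_)
  have h1 : (v.1 - 1, v.2) = v - (1, 0) := Prod.ext rfl (sub_zero _).symm
  have h2 : (v.1, v.2 - 1) = v - (0, 1) := Prod.ext (sub_zero _).symm rfl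
  rw [h1, h2]
  exact Bk1.loc a hc ε v

theorem t_bkw (h : Pc.S_bas) (h1 : T_bk1) : T_bkw := by
  classical
  intro a M L _ _ hM hL W j
  have hr : ∀ e : Edge, rf (pt M L) (pe M L e) = rf pz e := fun e =>
    ((h.2.2.2.2.2 M L hM hL).2.2 (fun _ => true) e).1
  rw [← Equiv.sum_comp (Bkw.invol (rf (pt M L))).toPerm]
  unfold SL
  rw [Finset.sum_comm]
  refine Finset.sum_congr rfl (fun ε _ => ?_)
  simp only [Function.Involutive.coe_toPerm]
  have hl : ∀ e : Edge, sg (lift M L (fun e => ε e == rf (pt M L) e) e) =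
      sg (ε (pe M L e)) * sg (rf pz e) := by
    intro e
    rw [← hr e, ← Bkw.sg_beq]
    rfl
  simp only [hl]
  by_cases hb : Bal M L (fun e => ε e == rf (pt M L) e)
  · rw [if_pos hb, h1 a M L hM hL ε, Finset.sum_mul]
    refine Finset.sum_congr rfl (fun ω _ => ?_)
    by_cases hc : ∀ e, ε (nx (pt M L) ω e) = ε e
    · rw [if_pos hc, if_pos ⟨hc, hb⟩, ← Complex.exp_add, Complex.ofReal_add, mul_add]
    · rw [if_neg hc, if_neg (fun hh => hc hh.1), zero_mul]
  · rw [if_neg hb]
    exact (Finset.sum_eq_zero (fun ω _ => if_neg (fun hh => hb hh.2))).symm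

end Vale.Agent.P167.Q
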