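import Vale.Agent.P167.QStm2
import Vale.Agent.P167.PcBk1

/-! P167, random-cluster model: the vertex by vertex correspondence with a fugacity. -/

open MeasureTheory Filter Topology Finset

namespace Vale.Agent.P167.Q

open Vale.Agent.P152 Vale.Agent.P167.Pc

namespace Bkx

open Bk1

noncomputable section

theorem nrm (x v : ℝ) : ‖(x : ℂ) * Complex.exp (Complex.I * ((-v : ℝ) : ℂ)) +
    Complex.exp (Complex.I * (v : ℂ))‖ ^ 2 = (x - 1) ^ 2 + x * (2 * Real.cos v) ^ 2 := by
  rw [mul_comm Complex.I, mul_comm Complex.I, Complex.sq_norm, Complex.normSq_apply]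
  simp only [Complex.add_re, Complex.add_im, Complex.re_ofReal_mul, Complex.im_ofReal_mul,
    Complex.exp_ofReal_mul_I_re, Complex.exp_ofReal_mul_I_im, Real.cos_neg, Real.sin_neg]
  have h := Real.sin_sq_add_cos_sq v
  linear_combination (x - 1) ^ 2 * h

theorem bnd (t v : ℝ) (hc : 1 ≤ 2 * Real.cos v) :
    ‖(Real.exp t : ℂ) * Complex.exp (Complex.I * ((-v : ℝ) : ℂ)) +
      Complex.exp (Complex.I * (v : ℂ))‖ ≤ Real.exp (t / 2 + t ^ 2) * (2 * Real.cos v) := by
  refine (sq_le_sq₀ (norm_nonneg _) (by positivity)).1 ?_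
  rw [nrm, mul_pow (Real.exp _)]
  have h1 := Real.cosh_le_exp_half_sq t
  have h2 : 1 ≤ Real.exp (t ^ 2 / 2) := Real.one_le_exp (by positivity)
  have h3 : Real.exp (t / 2 + t ^ 2) ^ 2 = Real.exp t * Real.exp (t ^ 2 / 2) ^ 4 := by
    rw [← Real.exp_nat_mul, ← Real.exp_nat_mul, ← Real.exp_add]
    congr 1
    push_cast
    ring
  have h4 : (Real.exp t - 1) ^ 2 = Real.exp t * (2 * Real.cosh t - 2) := by
    have : Real.exp t * Real.exp (-t) = 1 := by rw [← Real.exp_add]; simp
    rw [Real.cosh_eq]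
    linear_combination -this
  rw [h3, h4]
  generalize Real.exp (t ^ 2 / 2) = y at h1 h2
  generalize 2 * Real.cos v = c at hc
  have h5 : 1 ≤ c ^ 2 := one_le_pow₀ hc
  have h6 : 2 * (y - 1) ≤ y ^ 4 - 1 := by
    have : 2 ≤ (y + 1) * (y ^ 2 + 1) := by nlinarith [sq_nonneg y]
    nlinarith [mul_le_mul_of_nonneg_left this (sub_nonneg.2 h2)]
  have h7 : 2 * Real.cosh t - 2 + c ^ 2 ≤ y ^ 4 * c ^ 2 := by
    nlinarith [mul_le_mul_of_nonneg_left h5 (show 0 ≤ y ^ 4 - 1 by linarith)]
  nlinarith [mul_le_mul_of_nonneg_left h7 (Real.exp_pos t).le]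

section gen

variable {A B : Type} [Ring A] [Ring B]

/-- the local phase -/
def pha (a : ℝ) (par : A × B → Bool) (ε : (A × B) × Bool → Bool) (v : A × B) (b : Bool) : ℝ :=
  ∑ i : Bool, sg (ε (inc par v i)) * (a / 4 * ((if b then -1 else 1 : ℤ) : ℝ))

/-- the local weight -/
def Wa (a t : ℝ) (par : A × B → Bool) (ε : (A × B) × Bool → Bool) (v : A × B) (b : Bool) : ℂ :=
  if ε (out par v true b) = ε (inc par v true) ∧ ε (out par v false b) = ε (inc par v false) then
    (Real.exp (if b then t else 0) : ℂ) * Complex.exp (Complex.I * (pha a par ε v b : ℝ)) else 0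

theorem summand [Fintype A] [Fintype B] (a t : ℝ) {par : A × B → Bool} (h : Chk par)
    (ε : (A × B) × Bool → Bool) (ω : A × B → Bool) {_ : Decidable (∀ e, ε (nx par ω e) = ε e)} :
    (if ∀ e, ε (nx par ω e) = ε e then (Real.exp (t * cnt univ ω) : ℂ) *
      Complex.exp (Complex.I * (∑ e, sg (ε e) * (a / 4 * kap par ω e) : ℝ)) else 0) =
      ∏ v, Wa a t par ε v (ω v) := by
  by_cases ha : ∀ e, ε (nx par ω e) = ε e
  · rw [if_pos ha]
    have h1 : ∀ v, Wa a t par ε v (ω v) = (Real.exp (if ω v then t else 0) : ℂ) *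
        Complex.exp (Complex.I * (pha a par ε v (ω v) : ℝ)) := by
      intro v
      unfold Wa
      rw [if_pos]
      exact ⟨by rw [← nx_inc h, ha], by rw [← nx_inc h, ha]⟩
    have h2 : ∑ e, sg (ε e) * (a / 4 * kap par ω e) = ∑ v, pha a par ε v (ω v) := by
      rw [← (eqv h).sum_comp, Fintype.sum_prod_type]
      refine Finset.sum_congr rfl (fun v _ => Finset.sum_congr rfl (fun i _ => ?_))
      change sg (ε (inc par v i)) * (a / 4 * kap par ω (inc par v i)) = _
      rw [kap_inc h]
    have h3 : t * cnt univ ω = ∑ v, if ω v then t else 0 := by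
      rw [← Finset.sum_filter, Finset.sum_const, nsmul_eq_mul, mul_comm]
      rfl
    rw [h2, h3, Finset.prod_congr rfl (fun v _ => h1 v), Finset.prod_mul_distrib,
      ← Complex.exp_sum, Real.exp_sum, Complex.ofReal_prod, Complex.ofReal_sum, Finset.mul_sum]
  · rw [if_neg ha]
    obtain ⟨e, he⟩ := not_forall.mp ha
    refine (Finset.prod_eq_zero (Finset.mem_univ (hd par e)) ?_).symm
    unfold Wa
    rw [if_neg]
    intro hh
    apply he
    rw [← nx_inc h, ← nx_inc h] at hh
    rw [← inc_hd h e]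
    cases rf par e
    · exact hh.1
    · exact hh.2

theorem pha_eq (a : ℝ) (par : A × B → Bool) (ε : (A × B) × Bool → Bool) (v : A × B) (b : Bool) :
    pha a par ε v b = if ε (inc par v true) = ε (inc par v false) then
      (if ε (inc par v true) = b then -(a / 2) else a / 2) else 0 := by
  unfold pha sg
  rw [Fintype.sum_bool]
  cases ε (inc par v true) <;> cases ε (inc par v false) <;> cases b <;> simp <;> ring

theorem loc (a t : ℝ) (hc : 1 ≤ 2 * Real.cos (a / 2)) {par : A × B → Bool} (h : Chk par)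
    (ε : (A × B) × Bool → Bool) (v : A × B) :
    ‖∑ b, Wa a t par ε v b‖ ≤ Real.exp (t / 2 + t ^ 2) *
      (vwt (2 * Real.cos (a / 2)) (ε (v - (1, 0), true) == rf par (v - (1, 0), true))
        (ε (v, true) == rf par (v, true)) (ε (v - (0, 1), false) == rf par (v - (0, 1), false))
        (ε (v, false) == rf par (v, false)) * Real.exp (t / 2 *
        ((if (ab4 (par v) (ε (v - (1, 0), true) == rf par (v - (1, 0), true))
          (ε (v, true) == rf par (v, true))
          (ε (v - (0, 1), false) == rf par (v - (0, 1), false))).2 then 0 else 1) -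
        if (ab4 (par v) (ε (v - (1, 0), true) == rf par (v - (1, 0), true))
          (ε (v, true) == rf par (v, true))
          (ε (v - (0, 1), false) == rf par (v - (0, 1), false))).1 then 0 else 1))) := by
  have t1 := bnd t (a / 2) hc
  have t2 := bnd t (-(a / 2)) (by rwa [Real.cos_neg])
  rw [neg_neg, Real.cos_neg] at t2
  have t3 : Real.exp t ≤ Real.exp (t / 2 + t ^ 2) * Real.exp (t / 2) := by
    rw [← Real.exp_add]
    exact Real.exp_le_exp.2 (by nlinarith [sq_nonneg t])
  have t4 : 1 ≤ Real.exp (t / 2 + t ^ 2) * Real.exp (-(t / 2)) := by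
    rw [← Real.exp_add]
    exact Real.one_le_exp (by nlinarith [sq_nonneg t])
  rw [Fintype.sum_bool]
  unfold Wa
  rw [pha_eq, pha_eq]
  unfold Pc.rf Bk1.inc Bk1.out vwt ab4
  simp only [par_l h, par_d h]
  cases par v <;> simp only [Bool.false_eq_true, Bool.true_eq_false, if_true, if_false,
    Bool.not_true, Bool.not_false] <;>
  cases ε (v - (1, 0), true) <;> cases ε (v, true) <;> cases ε (v - (0, 1), false) <;>
  cases ε (v, false) <;>
  first | simpa using t1 | simpa using t2 | simpa using t3 | simpa using t4 | simp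

end gen

end

end Bkx

theorem t_bkx (h : Pc.S_bas) : T_bkx := by
  intro a t M L _ _ h0 h1 _ hM hL ε
  have hc : Chk (pt M L) := (h.2.2.2.2.2 M L hM hL).1
  have hk : 1 ≤ 2 * Real.cos (a / 2) := by
    have := Real.cos_le_cos_of_nonneg_of_le_pi (x := a / 2) (y := Real.pi / 3) (by linarith)
      (by linarith [Real.pi_pos]) (by linarith)
    rw [Real.cos_pi_div_three] at this
    linarith
  rw [Finset.sum_congr rfl (fun ω _ => Bkx.summand a t hc ε ω), ← Fintype.piFinset_univ,
    ← Finset.prod_univ_sum, norm_prod]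
  refine (Finset.prod_le_prod (fun v _ => norm_nonneg _) fun v _ => Bkx.loc a t hk hc ε v).trans
    (le_of_eq ?_)
  rw [Finset.prod_mul_distrib, Finset.prod_mul_distrib, ← Real.exp_sum, ← Real.exp_sum,
    ← Finset.mul_sum, Finset.sum_const, Finset.card_univ, Fintype.card_prod, ZMod.card, ZMod.card,
    nsmul_eq_mul, Nat.cast_mul, mul_comm ((M : ℝ) * L)]
  have h1 : ∀ v : Tor M L, (v.1 - 1, v.2) = v - (1, 0) := fun v => Prod.ext rfl (sub_zero _).symm
  have h2 : ∀ v : Tor M L, (v.1, v.2 - 1) = v - (0, 1) := fun v => Prod.ext (sub_zero _).symm rfl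
  simp only [twt, AB, dg, h1, h2, if_true, Bool.false_eq_true, if_false]

end Vale.Agent.P167.Q
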