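import Vale.Agent.P167.QStm2

/-! P167, random-cluster model: the correspondence with a fugacity, summed over orientations. -/

open MeasureTheory Filter Topology Finset

namespace Vale.Agent.P167.Q

open Vale.Agent.P152 Vale.Agent.P167.Pc

namespace Bky

theorem invol {E : Type} (r : E → Bool) :
    Function.Involutive (fun (ε : E → Bool) (e : E) => ε e == r e) := by
  intro ε
  funext e
  show ((ε e == r e) == r e) = ε e
  cases ε e <;> cases r e <;> rfl

end Bky

theorem t_bky (hk : T_bkw) (hx : T_bkx) : T_bky := by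
  classical
  intro a t M L _ _ h0 h1 ht hM hL
  refine ⟨?_, ?_⟩
  · have e1 : ∑ ω : Tor M L → Bool, Real.exp (t * cnt univ ω) * (SL a M L ∅ 0 ω).re =
        (∑ ω : Tor M L → Bool, (Real.exp (t * cnt univ ω) : ℂ) * SL a M L ∅ 0 ω).re := by
      rw [Complex.re_sum]
      exact sum_congr rfl fun ω _ => (Complex.re_ofReal_mul _ _).symm
    rw [e1, ← Equiv.sum_comp (Bky.invol (rf (pt M L))).toPerm, mul_sum]
    unfold SL
    simp only [mul_sum, sum_empty, add_zero]
    rw [sum_comm, Complex.re_sum]
    refine sum_le_sum fun ε _ => ?_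
    simp only [Function.Involutive.coe_toPerm]
    unfold bw6
    by_cases hb : Bal M L (fun e => ε e == rf (pt M L) e)
    · rw [if_pos hb]
      refine le_trans (le_trans (Complex.re_le_norm _) (le_of_eq (congrArg _ ?_)))
        (hx a t M L h0 h1 ht hM hL ε)
      refine sum_congr rfl fun ω _ => ?_
      by_cases hc : ∀ e, ε (nx (pt M L) ω e) = ε e
      · rw [if_pos hc, if_pos ⟨hc, hb⟩]
      · rw [if_neg hc, if_neg (fun hh => hc hh.1), mul_zero]
    · rw [if_neg hb, zero_mul, mul_zero,
        sum_eq_zero fun ω _ => by rw [if_neg (fun hh => hb hh.2), mul_zero], Complex.zero_re]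
  · have e1 := congrArg Complex.re (hk a M L hM hL ∅ 0)
    rw [Complex.re_sum, Complex.re_sum] at e1
    rw [← e1]
    refine sum_congr rfl fun o _ => ?_
    unfold bw6
    by_cases hb : Bal M L o
    · rw [if_pos hb, if_pos hb, sum_empty, Complex.ofReal_zero, mul_zero, Complex.exp_zero, mul_one,
        Complex.ofReal_re]
    · rw [if_neg hb, if_neg hb, Complex.zero_re]

end Vale.Agent.P167.Q
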