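import Vale.Agent.P167.QStm

/-! Convergence of the finite volume expectations, uniformly in the boundary condition. -/

open MeasureTheory Filter Topology Finset

namespace Vale.Agent.P167.Q

open Vale.Agent.P152 Vale.Agent.P167.Pc

namespace Cau

theorem dep_mono {S S' : Finset (ℤ × ℤ)} {F : Bond → ℝ} (h : S ⊆ S')
    (hF : Dep (S : Set (ℤ × ℤ)) F) : Dep (S' : Set (ℤ × ℤ)) F :=
  fun ω ω' hω => hF ω ω' fun v hv => hω v (mem_coe.2 (h (mem_coe.1 hv)))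

theorem sand (hl : T_lin) (hp : T_pl) {r : ℝ} (hr : 1 ≤ r) {S S' : Finset (ℤ × ℤ)}
    {F : Bond → ℝ} (h : S ⊆ S') (hm : Monotone F) (hF : Dep (S : Set (ℤ × ℤ)) F) :
    f1 r S' F ≤ f1 r S F ∧ ∀ ξ, f0 r S F ≤ fx r S' ξ F ∧ fx r S' ξ F ≤ f1 r S F := by
  obtain ⟨h1, h2⟩ := hp r S S' F hr h hm hF
  refine ⟨h1, fun ξ => ?_⟩
  have h3 := h2 ξ (fun _ => 1) (fun _ => zero_le_one) (fun _ _ _ => rfl)
  have h4 : fx r S' ξ (fun _ => 1) = 1 :=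
    (hl _ _ r ea eb nil S' ξ (by linarith)).1 1
  rw [h4] at h3
  simpa using h3

theorem sub_ex (hl : T_lin) {r : ℝ} (hr : 1 ≤ r) (R : ℤ × ℤ → ℤ × ℤ → Prop)
    (S : Finset (ℤ × ℤ)) (ξ : Bond) (F G : Bond → ℝ) :
    ex r ea eb R S ξ (fun ω => F ω - G ω) = ex r ea eb R S ξ F - ex r ea eb R S ξ G := by
  obtain ⟨_, h2, h3, _⟩ := hl _ _ r ea eb R S ξ (by linarith)
  have e : (fun ω => F ω - G ω) = fun ω => F ω + (-1) * G ω := by
    funext ω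
    ring
  rw [e, h2, h3]
  ring

theorem sum_ex (hl : T_lin) {r : ℝ} (hr : 1 ≤ r) (R : ℤ × ℤ → ℤ × ℤ → Prop)
    (S T : Finset (ℤ × ℤ)) (ξ : Bond) (c : ℝ) :
    ex r ea eb R S ξ (fun ω => c * ∑ v ∈ T, op v ω) = c * ∑ v ∈ T, ex r ea eb R S ξ (op v) := by
  obtain ⟨_, _, h3, _, h5, _⟩ := hl _ _ r ea eb R S ξ (by linarith)
  rw [h3, h5]

theorem op_mono (v : ℤ × ℤ) : Monotone (op v : Bond → ℝ) := by
  intro ω ω' h
  have h1 : ω v ≤ ω' v := h v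
  unfold op
  cases h2 : ω v <;> cases h3 : ω' v <;> simp_all
  exact absurd h1 (by decide)

theorem op_dep {S : Finset (ℤ × ℤ)} {v : ℤ × ℤ} (hv : v ∈ S) :
    Dep (S : Set (ℤ × ℤ)) (op v : Bond → ℝ) := by
  intro ω ω' h
  unfold op
  rw [h v (mem_coe.2 hv)]

theorem sum_dep (T : Finset (ℤ × ℤ)) (c : ℝ) :
    Dep (T : Set (ℤ × ℤ)) (fun ω : Bond => c * ∑ v ∈ T, op v ω) := by
  intro ω ω' h
  show c * _ = c * _
  rw [sum_congr rfl fun v hv => op_dep hv ω ω' h]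

theorem gap (hl : T_lin) (hp : T_pl) (hd : T_dif) (hi : S_int) {r : ℝ} (hr : 1 ≤ r)
    (hc : Cont r) {T : Finset (ℤ × ℤ)} {F : Bond → ℝ} (hF : Dep (T : Set (ℤ × ℤ)) F)
    {ε : ℝ} (hε : 0 < ε) : ∃ S, T ⊆ S ∧ f1 r S F - f0 r S F ≤ ε := by
  obtain ⟨_, ⟨b, hb⟩, _⟩ := hi T F fun ω ω' h => hF ω ω' fun v hv => h v (mem_coe.1 hv)
  have hb0 : 0 ≤ b := (abs_nonneg _).trans (hb fun _ => true)
  have hK : 0 < 2 * b * T.card + 1 := by positivity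
  choose U hU1 hU2 using fun v => hc v (ε / (2 * b * T.card + 1)) (div_pos hε hK)
  have hTS : T ⊆ T ∪ T.biUnion U := subset_union_left
  refine ⟨T ∪ T.biUnion U, hTS, ?_⟩
  set S := T ∪ T.biUnion U with hS
  have hG := (hd T F b hb hF).2.1
  have hGd : Dep (S : Set (ℤ × ℤ)) (fun ω => 2 * b * ∑ v ∈ T, op v ω - F ω) := by
    apply dep_mono hTS
    intro ω ω' h
    have h1 := sum_dep T (2 * b) ω ω' h
    have h2 := hF ω ω' h
    simp only at h1 ⊢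
    rw [h1, h2]
  have h1 := ((sand hl hp hr (Subset.refl S) hG hGd).2 fun _ => false).2
  unfold f1 fx at h1
  rw [sub_ex hl hr, sub_ex hl hr, sum_ex hl hr, sum_ex hl hr] at h1
  have h2 : ∀ v ∈ T, f1 r S (op v) - f0 r S (op v) ≤ ε / (2 * b * T.card + 1) := by
    intro v hv
    have h3 : U v ⊆ S := (subset_biUnion_of_mem U hv).trans subset_union_right
    have h4 := sand hl hp hr h3 (op_mono v) (op_dep (hU1 v))
    have h5 := (h4.2 fun _ => false).1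
    have h6 := hU2 v
    have h7 : fx r S (fun _ => false) (op v) = f0 r S (op v) := rfl
    linarith [h4.1]
  have h3 := sum_le_card_nsmul _ _ _ h2
  rw [nsmul_eq_mul, sum_sub_distrib] at h3
  have h4 := mul_le_mul_of_nonneg_left h3 (by linarith : 0 ≤ 2 * b)
  have h5 : 2 * b * (T.card * (ε / (2 * b * T.card + 1))) ≤ ε := by
    rw [← mul_assoc, ← mul_div_assoc, div_le_iff₀ hK]
    nlinarith
  unfold f1 f0 fx at h4 ⊢
  rw [mul_sub] at h4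
  linarith

theorem mon (hl : T_lin) (hp : T_pl) (hd : T_dif) (hi : S_int) {r : ℝ} (hr : 1 ≤ r)
    (hc : Cont r) {T : Finset (ℤ × ℤ)} {F : Bond → ℝ} (hF : Dep (T : Set (ℤ × ℤ)) F)
    (hm : Monotone F) : ∃ m : ℝ, ∀ ε > 0, ∃ S₀, ∀ S, S₀ ⊆ S →
      (∀ ξ, |fx r S ξ F - m| ≤ ε) ∧ |f1 r S F - m| ≤ ε := by
  refine ⟨sSup {x | ∃ S, T ⊆ S ∧ x = f0 r S F}, fun ε hε => ?_⟩
  obtain ⟨S₀, h0, hg⟩ := gap hl hp hd hi hr hc hF hε
  have hbd : BddAbove {x | ∃ S, T ⊆ S ∧ x = f0 r S F} := by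
    refine ⟨f1 r T F, ?_⟩
    rintro x ⟨S, hS, rfl⟩
    exact ((sand hl hp hr hS hm hF).2 fun _ => false).2
  have h1 : f0 r S₀ F ≤ sSup {x | ∃ S, T ⊆ S ∧ x = f0 r S F} := le_csSup hbd ⟨S₀, h0, rfl⟩
  have h2 : sSup {x | ∃ S, T ⊆ S ∧ x = f0 r S F} ≤ f1 r S₀ F := by
    refine csSup_le ⟨_, T, Subset.refl T, rfl⟩ ?_
    rintro x ⟨S, hS, rfl⟩
    have a1 := ((sand hl hp hr (subset_union_left : S ⊆ S ∪ S₀) hm (dep_mono hS hF)).2
      fun _ => false).1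
    have a2 := ((sand hl hp hr (subset_union_right : S₀ ⊆ S ∪ S₀) hm (dep_mono h0 hF)).2
      fun _ => false).2
    exact a1.trans a2
  refine ⟨S₀, fun S hS => ?_⟩
  have a1 := sand hl hp hr hS hm (dep_mono h0 hF)
  refine ⟨fun ξ => ?_, ?_⟩
  · have a2 := a1.2 ξ
    exact abs_le.2 ⟨by linarith [a2.1], by linarith [a2.2]⟩
  · have a2 := (a1.2 fun _ => false).1
    have a3 := ((sand hl hp hr (Subset.refl S) hm (dep_mono (h0.trans hS) hF)).2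
      fun _ => false).2
    exact abs_le.2 ⟨by linarith, by linarith [a1.1]⟩

end Cau

theorem t_cau (hl : T_lin) (hp : T_pl) (hd : T_dif) (hi : S_int) : T_cau := by
  intro r hr hc F hF
  obtain ⟨T, hT⟩ := hF
  obtain ⟨_, ⟨b, hb⟩, _⟩ := hi T F hT
  have hF : Dep (T : Set (ℤ × ℤ)) F := fun ω ω' h => hT ω ω' fun v hv => h v (mem_coe.2 hv)
  obtain ⟨m1, _, m2⟩ := hd T F b hb hF
  have d2 := Cau.sum_dep T (2 * b)
  have d1 : Dep (T : Set (ℤ × ℤ)) (fun ω => 2 * b * ∑ v ∈ T, op v ω + F ω) := by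
    intro ω ω' h
    have h1 := d2 ω ω' h
    have h2 := hF ω ω' h
    simp only at h1 ⊢
    rw [h1, h2]
  obtain ⟨x1, hx1⟩ := Cau.mon hl hp hd hi hr hc d1 m1
  obtain ⟨x2, hx2⟩ := Cau.mon hl hp hd hi hr hc d2 m2
  refine ⟨x1 - x2, fun ε hε => ?_⟩
  obtain ⟨S1, hS1⟩ := hx1 (ε / 2) (half_pos hε)
  obtain ⟨S2, hS2⟩ := hx2 (ε / 2) (half_pos hε)
  refine ⟨S1 ∪ S2, fun S hS => ?_⟩
  obtain ⟨a1, a2⟩ := hS1 S (subset_union_left.trans hS)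
  obtain ⟨b1, b2⟩ := hS2 S (subset_union_right.trans hS)
  have e : ∀ (R : ℤ × ℤ → ℤ × ℤ → Prop) (ξ : Bond), ex r ea eb R S ξ F =
      ex r ea eb R S ξ (fun ω => 2 * b * ∑ v ∈ T, op v ω + F ω) -
        ex r ea eb R S ξ (fun ω => 2 * b * ∑ v ∈ T, op v ω) := by
    intro R ξ
    rw [← Cau.sub_ex hl hr]
    simp only [add_sub_cancel_left]
  refine ⟨fun ξ => ?_, ?_⟩
  · have c1 := abs_le.1 (a1 ξ)
    have c2 := abs_le.1 (b1 ξ)
    unfold fx at c1 c2 ⊢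
    rw [e]
    exact abs_le.2 ⟨by linarith [c1.1, c2.2], by linarith [c1.2, c2.1]⟩
  · have c1 := abs_le.1 a2
    have c2 := abs_le.1 b2
    unfold f1 at c1 c2 ⊢
    rw [e]
    exact abs_le.2 ⟨by linarith [c1.1, c2.2], by linarith [c1.2, c2.1]⟩

end Vale.Agent.P167.Q
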