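import Vale.Agent.P167.QStm2

open MeasureTheory Filter Topology Finset

namespace Vale.Agent.P167.Q

open Vale.Agent.P152 Vale.Agent.P167.Pc

namespace Ch

theorem lim {S : Type} [Fintype S] [DecidableEq S] (A : Matrix S S ℝ) (e : S → S → ℝ) (Λ : ℝ)
    (α β : S → ℝ) (hA : ∀ s t, 0 ≤ A s t) (he : ∀ s t, 0 ≤ e s t) (hΛ : 0 < Λ)
    (hT : ∀ s t, Tendsto (fun n : ℕ => (A ^ n) s t / Λ ^ n) atTop (𝓝 (α s * β t)))
    (hz : ∑ s, ∑ t, e s t * (α s * β t) ≠ 0) :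
    ∃ z, 0 < z ∧ ∀ᶠ n : ℕ in atTop, z / 2 * Λ ^ n < ∑ s, ∑ t, e s t * (A ^ n) s t ∧
      ∑ s, ∑ t, e s t * (A ^ n) s t < 2 * z * Λ ^ n := by
  have h1 : Tendsto (fun n : ℕ => ∑ s, ∑ t, e s t * ((A ^ n) s t / Λ ^ n)) atTop
      (𝓝 (∑ s, ∑ t, e s t * (α s * β t))) :=
    tendsto_finsetSum _ fun s _ => tendsto_finsetSum _ fun t _ => (hT s t).const_mul _
  have h2 : 0 ≤ ∑ s, ∑ t, e s t * (α s * β t) :=
    ge_of_tendsto' h1 fun n => sum_nonneg fun s _ => sum_nonneg fun t _ => mul_nonneg (he s t)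
      (div_nonneg (Matrix.pow_apply_nonneg hA _ _ _) (pow_pos hΛ n).le)
  have h3 := lt_of_le_of_ne h2 hz.symm
  refine ⟨_, h3, ?_⟩
  generalize ∑ s, ∑ t, e s t * (α s * β t) = z at h1 h3
  filter_upwards [h1.eventually (lt_mem_nhds (show z / 2 < z by linarith)),
    h1.eventually (gt_mem_nhds (show z < 2 * z by linarith))] with n a1 a2
  have e1 : ∑ s, ∑ t, e s t * ((A ^ n) s t / Λ ^ n)
      = (∑ s, ∑ t, e s t * (A ^ n) s t) / Λ ^ n := by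
    simp only [Finset.sum_div, mul_div_assoc]
  rw [e1] at a1 a2
  exact ⟨(lt_div_iff₀ (pow_pos hΛ n)).mp a1, (div_lt_iff₀ (pow_pos hΛ n)).mp a2⟩

theorem gen (hg : T_glu) {S : Type} [Fintype S] [DecidableEq S] (A : Matrix S S ℝ)
    (u w : S → ℝ) (Λ : ℝ) (α β : S → ℝ) (hA : ∀ s t, 0 ≤ A s t) (hu : ∀ s, 0 ≤ u s)
    (hw : ∀ s, 0 ≤ w s) (hΛ : 0 < Λ)
    (hT : ∀ s t, Tendsto (fun n : ℕ => (A ^ n) s t / Λ ^ n) atTop (𝓝 (α s * β t)))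
    (hz1 : ∑ s, ∑ t, A t s * (α s * β t) ≠ 0) (hz2 : ∑ s, ∑ t, u s * w t * (α s * β t) ≠ 0)
    (k : ℕ) (hp : ∀ s t, A t s ≠ 0 →
      0 < ∑ x, u x * (A ^ k) x s ∧ 0 < ∑ y, (A ^ (k + 1)) t y * w y) :
    ∃ C : ℝ, ∀ᶠ M : ℕ in atTop, 0 < chn A (fun s t => A t s) M 0 1 ∧
      0 < chn A (fun s t => u s * w t) (M + 2 * k + 1) k 1 ∧
      ∀ G : (ℤ → S) → ℝ, (∀ o, 0 ≤ G o) →
        (∀ o o' : ℤ → S, (∀ x : ℤ, 0 ≤ x → x ≤ M → o x = o' x) → G o = G o') →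
        chn A (fun s t => A t s) M 0 G / chn A (fun s t => A t s) M 0 1 ≤
          C * (chn A (fun s t => u s * w t) (M + 2 * k + 1) k G /
            chn A (fun s t => u s * w t) (M + 2 * k + 1) k 1) := by
  obtain ⟨C₁, hC0, hC⟩ : ∃ C₁ : ℝ, 0 ≤ C₁ ∧ ∀ s t,
      A t s ≤ C₁ * ((∑ x, u x * (A ^ k) x s) * ∑ y, (A ^ (k + 1)) t y * w y) := by
    have n1 : ∀ s t, 0 ≤ (∑ x, u x * (A ^ k) x s) * ∑ y, (A ^ (k + 1)) t y * w y := fun s t =>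
      mul_nonneg (sum_nonneg fun x _ => mul_nonneg (hu x) (Matrix.pow_apply_nonneg hA _ _ _))
        (sum_nonneg fun y _ => mul_nonneg (Matrix.pow_apply_nonneg hA _ _ _) (hw y))
    have n2 : ∀ p : S × S, 0 ≤ A p.2 p.1 /
        ((∑ x, u x * (A ^ k) x p.1) * ∑ y, (A ^ (k + 1)) p.2 y * w y) := fun p =>
      div_nonneg (hA _ _) (n1 _ _)
    refine ⟨∑ p : S × S, A p.2 p.1 /
      ((∑ x, u x * (A ^ k) x p.1) * ∑ y, (A ^ (k + 1)) p.2 y * w y),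
      sum_nonneg fun p _ => n2 p, fun s t => ?_⟩
    by_cases h : A t s = 0
    · rw [h]
      exact mul_nonneg (sum_nonneg fun p _ => n2 p) (n1 s t)
    · rw [← div_le_iff₀ (mul_pos (hp s t h).1 (hp s t h).2)]
      exact single_le_sum (fun p _ => n2 p) (mem_univ (s, t))
  obtain ⟨z₁, p₁, e₁⟩ := lim A (fun s t => A t s) Λ α β hA (fun s t => hA t s) hΛ hT hz1
  obtain ⟨z₂, p₂, e₂⟩ := lim A (fun s t => u s * w t) Λ α β hA
    (fun s t => mul_nonneg (hu s) (hw t)) hΛ hT hz2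
  refine ⟨C₁ * (4 * z₂ * Λ ^ (2 * k + 1) / z₁), ?_⟩
  filter_upwards [e₁, (tendsto_add_atTop_nat (2 * k + 1)).eventually e₂] with M a1 a2
  obtain ⟨g1, g2, g3⟩ := hg S A u w k M C₁ hA hC
  rw [← add_assoc, ← g1 (M + 2 * k + 1) k] at a2
  rw [← g2] at a1
  have x0 : 0 < chn A (fun s t => A t s) M 0 1 := lt_trans (by positivity) a1.1
  have y0 : 0 < chn A (fun s t => u s * w t) (M + 2 * k + 1) k 1 := lt_trans (by positivity) a2.1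
  refine ⟨x0, y0, fun G hG hloc => ?_⟩
  have g4 := g3 G hG hloc
  have g5 : 0 ≤ chn A (fun s t => u s * w t) (M + 2 * k + 1) k G :=
    sum_nonneg fun o _ => mul_nonneg (mul_nonneg (mul_nonneg (hu _) (hw _))
      (prod_nonneg fun i _ => hA _ _)) (hG _)
  generalize chn A (fun s t => A t s) M 0 1 = X at a1 x0
  generalize chn A (fun s t => u s * w t) (M + 2 * k + 1) k 1 = Y at a2 y0
  generalize chn A (fun s t => A t s) M 0 G = X' at g4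
  generalize chn A (fun s t => u s * w t) (M + 2 * k + 1) k G = Y' at g4 g5
  have g6 : Y ≤ 4 * z₂ * Λ ^ (2 * k + 1) / z₁ * X := by
    have h1 : 4 * z₂ * Λ ^ (2 * k + 1) / z₁ * (z₁ / 2 * Λ ^ M) = 2 * z₂ * Λ ^ (M + 2 * k + 1) := by
      rw [add_assoc, pow_add Λ M]
      field_simp
      ring
    have h2 : 4 * z₂ * Λ ^ (2 * k + 1) / z₁ * (z₁ / 2 * Λ ^ M) ≤
        4 * z₂ * Λ ^ (2 * k + 1) / z₁ * X := mul_le_mul_of_nonneg_left a1.1.le (by positivity)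
    linarith [a2.2]
  generalize 4 * z₂ * Λ ^ (2 * k + 1) / z₁ = C₂ at g6
  rw [← mul_div_assoc, div_le_div_iff₀ x0 y0]
  calc X' * Y ≤ C₁ * Y' * Y := mul_le_mul_of_nonneg_right g4 y0.le
    _ ≤ C₁ * Y' * (C₂ * X) := mul_le_mul_of_nonneg_left g6 (mul_nonneg hC0 g5)
    _ = C₁ * C₂ * Y' * X := by ring

theorem tm_nn {c : ℝ} (hc : 0 < c) (l : ℕ) (s t : Colc l) : 0 ≤ tm c l s t := by
  unfold tm
  split_ifs
  · refine prod_nonneg fun y _ => ?_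
    unfold vwt
    split_ifs <;> linarith
  · exact le_rfl

end Ch

theorem t_ch (hg : T_glu) (hp : T_pos) (ht : S_tm) : T_ch := by
  intro c l hc
  obtain ⟨k0, hk⟩ := hp c l hc
  obtain ⟨Λ, α, β, hΛ, hT, z1, z2⟩ := ht c l hc
  refine ⟨k0, fun k hk0 => Ch.gen hg (tm c l) uL uR Λ α β (Ch.tm_nn hc l) (fun s => ?_)
    (fun s => ?_) hΛ hT z1 z2 k (hk k hk0)⟩
  · unfold uL
    split_ifs <;> norm_num
  · unfold uR
    split_ifs <;> norm_num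

end Vale.Agent.P167.Q
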