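import Vale.Agent.P167.QStm

/-! P167, random-cluster model: the loop weight and the cluster weight are comparable. -/

open Finset

namespace Vale.Agent.P167.Q

open Vale.Agent.P152 Vale.Agent.P167.Pc

namespace Cmp

theorem card_eq {E : Type} [Fintype E] (g : E → E) (S : Finset E) {i1 : DecidableEq (Set E)}
    {i2 : DecidableEq (Finset E)} {i3 : ∀ e, DecidablePred (Cls g e)} :
    (S.image fun e => {e' | Cls g e e'}).card =
      (S.image fun e => univ.filter (Cls g e)).card := by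
  have h : (S.image fun e => {e' | Cls g e e'}) =
      (S.image fun e => univ.filter (Cls g e)).image (fun l : Finset E => (l : Set E)) := by
    rw [image_image]
    refine image_congr fun e _ => ?_
    ext x
    simp
  rw [h, card_image_of_injective _ coe_injective]

theorem nl_cl (ht : Pc.S_tor) (M L : ℕ) [NeZero M] [NeZero L] (hM : Even M) (hL : Even L)
    (hLM : L ≤ M) (ω : Tor M L → Bool) :
    (cl M L ω).card ≤ nl (nx (pt M L) ω) ∧ nl (nx (pt M L) ω) ≤ (cl M L ω).card + M := by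
  classical
  have h4 := (ht M L hM hL hLM ω).2.2.2
  have h5 : ((univ.filter (Ctr M L ω)).image fun e => {e' | Cls (nx (pt M L) ω) e e'}).card =
      (cl M L ω).card := by
    unfold cl
    exact card_eq _ _
  rw [← h5]
  unfold nl
  constructor
  · refine card_le_card fun x hx => ?_
    obtain ⟨e, _, he⟩ := mem_image.1 hx
    exact mem_image.2 ⟨e, mem_univ e, he⟩
  · refine le_trans ?_ (Nat.add_le_add_left h4 _)
    refine le_trans (card_le_card fun x hx => ?_) (card_union_le _ _)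
    obtain ⟨e, _, he⟩ := mem_image.1 hx
    by_cases hc : Ctr M L ω e
    · exact mem_union_left _ (mem_image.2 ⟨e, mem_filter.2 ⟨mem_univ e, hc⟩, he⟩)
    · exact mem_union_right _ (mem_image.2 ⟨e, mem_filter.2 ⟨mem_univ e, hc⟩, he⟩)

theorem euler (h1 : T_df1) (h2 : T_df2) (h3 : T_df3) (M L : ℕ) [NeZero M] [NeZero L]
    (hM : Even M) (hL : Even L) : ∃ n : ℕ, ∀ ω : Tor M L → Bool,
    cnt univ ω + 2 * kk (ta (pt M L)) (tb (pt M L)) nil univ ω ≤ nl (nx (pt M L) ω) + n + 2 ∧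
    nl (nx (pt M L) ω) + n ≤ cnt univ ω + 2 * kk (ta (pt M L)) (tb (pt M L)) nil univ ω := by
  obtain ⟨z0, hz0⟩ : ∃ z : Tor M L → Bool, z = fun _ => false := ⟨_, rfl⟩
  obtain ⟨z1, hz1⟩ : ∃ z : Tor M L → Bool, z = fun _ => true := ⟨_, rfl⟩
  refine ⟨nl (nx (pt M L) z0), fun ω => ?_⟩
  have a0 : df M L ω ≤ df M L z0 := h1 M L hM hL fun v => by rw [hz0]; exact Bool.false_le _
  have a1 : df M L z1 ≤ df M L ω := h1 M L hM hL fun v => by rw [hz1]; exact Bool.le_true _
  have b0 : 2 * nl (nx (pt M L) z0) = M * L := by rw [hz0]; exact h2 M L hM hL false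
  have b1 : 2 * nl (nx (pt M L) z1) = M * L := by rw [hz1]; exact h2 M L hM hL true
  have c1 : kk (ta (pt M L)) (tb (pt M L)) nil univ z1 ≤ 1 := by
    rw [hz1]; exact (h3 M L hM hL).1
  have c0 : M * L ≤ 2 * kk (ta (pt M L)) (tb (pt M L)) nil univ z0 := by
    rw [hz0]; exact (h3 M L hM hL).2
  have d0 : cnt (univ : Finset (Tor M L)) z0 = 0 := by simp [cnt, hz0]
  have d1 : cnt (univ : Finset (Tor M L)) z1 = M * L := by
    simp [cnt, hz1, ZMod.card]
  unfold df at a0 a1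
  rw [d0] at a0
  rw [d1] at a1
  generalize M * L = P at *
  omega

end Cmp

theorem t_cmp (ht : Pc.S_tor) (hf : T_fac) (h1 : T_df1) (h2 : T_df2) (h3 : T_df3) : T_cmp := by
  intro a M L _ _ ha0 ha1 hM hL hLM
  have hr2 : 2 * Real.cos a ≤ 2 := by linarith [Real.cos_le_one a]
  have hr1 : 1 ≤ 2 * Real.cos a := by
    have := Real.cos_le_cos_of_nonneg_of_le_pi ha0 (by linarith [Real.pi_pos]) ha1
    rw [Real.cos_pi_div_three] at this
    linarith
  obtain ⟨n, hn⟩ := Cmp.euler h1 h2 h3 M L hM hL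
  have hM2 : 2 ≤ M := by
    obtain ⟨m, hm⟩ := hM
    have := NeZero.ne M
    omega
  have hfa := hf a M L ha0 ha1 hM hL hLM
  generalize 2 * Real.cos a = r at *
  have hr0 : 0 < r := by linarith
  have hp : 0 < r ^ (n + 2 + M) := pow_pos hr0 _
  refine ⟨(r ^ (n + 2 + M))⁻¹, inv_pos.2 hp, fun ω => ?_⟩
  obtain ⟨T, t1, t2, t3, _⟩ := hfa ω
  obtain ⟨e1, e2⟩ := hn ω
  obtain ⟨c1, c2⟩ := Cmp.nl_cl ht M L hM hL hLM ω
  rw [t3, Complex.ofReal_re]
  have hw : wT r M L ω = r ^ (cnt univ ω + 2 * kk (ta (pt M L)) (tb (pt M L)) nil univ ω) := by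
    unfold wT wt
    rw [pow_add]
  rw [hw]
  generalize cnt univ ω + 2 * kk (ta (pt M L)) (tb (pt M L)) nil univ ω = k at *
  generalize (cl M L ω).card = c at *
  constructor
  · refine le_trans ?_ t1
    rw [inv_mul_le_iff₀ hp, ← pow_add]
    exact pow_le_pow_right₀ hr1 (by omega)
  · refine le_trans t2 ?_
    rw [mul_assoc, mul_comm _ (r ^ k), ← mul_assoc, le_mul_inv_iff₀ hp]
    have u1 : r ^ c * r ^ (n + 2 + M) = r ^ (M + 2) * r ^ (c + n) := by
      rw [← pow_add, ← pow_add]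
      congr 1
      omega
    have u2 : r ^ (c + n) ≤ r ^ k := pow_le_pow_right₀ hr1 (by omega)
    have u3 : r ^ (M + 2) ≤ 2 ^ (M + 2) := pow_le_pow_left₀ hr0.le hr2 _
    have u4 : (2 : ℝ) ^ M * 2 ^ (M + 2) ≤ Real.exp (3 * M) := by
      have v1 : (2 : ℝ) ≤ Real.exp 1 := by linarith [Real.add_one_le_exp (1 : ℝ)]
      have v2 : Real.exp (3 * M) = Real.exp 1 ^ (3 * M) := by
        rw [← Real.exp_nat_mul]
        congr 1
        push_cast
        ring
      rw [v2, ← pow_add]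
      exact le_trans (pow_le_pow_right₀ one_le_two (by omega))
        (pow_le_pow_left₀ zero_le_two v1 _)
    calc 2 ^ M * r ^ c * r ^ (n + 2 + M) = 2 ^ M * r ^ (M + 2) * r ^ (c + n) := by
          rw [mul_assoc, u1, mul_assoc]
      _ ≤ 2 ^ M * 2 ^ (M + 2) * r ^ k := by gcongr
      _ ≤ Real.exp (3 * M) * r ^ k := by gcongr

end Vale.Agent.P167.Q
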