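import Vale.Agent.P167.QStm

open MeasureTheory Filter Topology Finset

namespace Vale.Agent.P167.Q

open Vale.Agent.P152 Vale.Agent.P167.Pc

namespace Cont

theorem op_mono (v : ℤ × ℤ) : Monotone (op v : Bond → ℝ) := by
  intro ω ω' h
  have h1 := h v
  unfold op
  revert h1
  cases ω v <;> cases ω' v <;> simp [Bool.le_iff_imp]

theorem op_dep (v : ℤ × ℤ) (S : Finset (ℤ × ℤ)) (hv : v ∈ S) :
    Dep (S : Set (ℤ × ℤ)) (op v : Bond → ℝ) := by
  intro ω ω' h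
  unfold op
  rw [h v (Finset.mem_coe.2 hv)]

theorem f0_mono (hp : T_pl) (hl : T_lin) (r : ℝ) (hr : 1 ≤ r) (v : ℤ × ℤ)
    (S S' : Finset (ℤ × ℤ)) (hv : v ∈ S) (hS : S ⊆ S') : f0 r S (op v) ≤ f0 r S' (op v) := by
  have h1 := ((hp r S S' (op v) hr hS (op_mono v) (op_dep v S hv)).2 (fun _ => false)
    (fun _ => 1) (fun _ => zero_le_one) (fun _ _ _ => rfl)).1
  have h2 : fx r S' (fun _ => false) (fun _ => 1) = 1 :=
    (hl _ _ r ea eb nil S' (fun _ => false) (by linarith)).1 1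
  rw [h2, mul_one] at h1
  simp only [mul_one] at h1
  exact h1

end Cont

open Cont in
theorem t_cont (hp : T_pl) (hl : T_lin) (hs : T_iso) (ha : T_aut) (h1 : T_a1) (h0 : T_a0) :
    T_cont := by
  intro r hr hr2 hP v ε hε
  obtain ⟨S1, hS1, e1⟩ := h1 r hr hr2 hP (ε / 2) (by linarith)
  obtain ⟨S0, hS0, e0⟩ := h0 r hr hr2 hP (ε / 2) (by linarith)
  have a1 : f1 r (S1 ∪ S0) (op (0, 0)) ≤ f1 r S1 (op (0, 0)) :=
    (hp r S1 (S1 ∪ S0) _ hr Finset.subset_union_left (op_mono _) (op_dep _ S1 hS1)).1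
  have a0 : f0 r S0 (op (0, 0)) ≤ f0 r (S1 ∪ S0) (op (0, 0)) :=
    f0_mono hp hl r hr _ S0 _ hS0 Finset.subset_union_right
  obtain ⟨ρ, π, hA, hρ⟩ := ha.2.2.2.2 v
  have b := hs r ρ π hA (S1 ∪ S0) (op (0, 0))
  have e : (fun ω : Bond => op (0, 0) (ω ∘ ρ)) = op v := by
    funext ω
    unfold op
    rw [Function.comp_apply, hρ]
  rw [e] at b
  refine ⟨(S1 ∪ S0).map ρ.toEmbedding, ?_, ?_⟩
  · exact Finset.mem_map.2 ⟨(0, 0), Finset.mem_union_left _ hS1, hρ⟩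
  · rw [b.1, b.2]
    linarith

end Vale.Agent.P167.Q
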