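import Vale.Agent.P167.QStm2
import Vale.Agent.P152.CD3

/-! P167, random-cluster model: the law of the first spin field on the cylinder. -/

open Finset

namespace Vale.Agent.P167.Q

open Vale.Agent.P152 Vale.Agent.P167.Pc

namespace Cy

variable {l : ℕ}

/-- the modified vertex weight -/
noncomputable def ww (c : ℝ) (W : Finset (P152.Cy l)) (f : Bool → ℝ) (v : P152.Cy l)
    (α β : Bool) : ℝ := w6 c α β * if v ∈ W then f α else 1

theorem prodW {W R : Finset (P152.Cy l)} (h : W ⊆ R) (g : P152.Cy l → ℝ) :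
    ∏ v ∈ R, (if v ∈ W then g v else 1) = ∏ v ∈ W, g v := by
  rw [prod_ite_mem, inter_eq_right.2 h]

theorem cw (c : ℝ) (n a : ℕ) {W : Finset (P152.Cy l)} (f : Bool → ℝ) (hW : W ⊆ cE l n)
    (o : ZMod (n + 1) → Colc l) :
    cw8 n (fun _ => w6 c) o * ∏ v ∈ W, f (ab4 (cev v)
      (o ((v.1 - a - 1 + a : ℤ) : ZMod (n + 1)) (v.2, true))
      (o ((v.1 - a + a : ℤ) : ZMod (n + 1)) (v.2, true))
      (o ((v.1 - a + a : ℤ) : ZMod (n + 1)) (v.2 - 1, false))).1 = cw8 n (ww c W f) o := by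
  rw [← prodW hW, cw8, cw8, ← prod_mul_distrib]
  refine prod_congr rfl fun v _ => ?_
  rw [sub_add_cancel, show v.1 - a - 1 + a = v.1 - 1 by ring]
  exact cd3_w8 (w6 c) (fun p => if v ∈ W then f p.1 else 1) _ _ _ _ _

theorem obs (c : ℝ) (W : Finset (P152.Cy l)) (f : Bool → ℝ) (v : P152.Cy l) (α s : Bool) :
    ww c W f v α true + ww c W f v α false * sg s =
      (if α then c + sg s else 1) * if v ∈ W then f α else 1 := by
  cases α <;> simp only [ww, w6] <;> simp <;> split_ifs <;> ring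

theorem main (h1 : S_cons) (h2 : S_d1a) (h3 : S_d1b) (h4 : S_d2g) (h5 : S_ex) (c : ℝ) (n a : ℕ)
    (hn : Even n) (W : Finset (P152.Cy l)) (f : Bool → ℝ) (hW : W ⊆ cE l n) :
    chn (tm c l) (fun s t => uL s * uR t) n a (fun o => ∏ v ∈ W, f (ab4 (cev v)
      (o (v.1 - a - 1) (v.2, true)) (o (v.1 - a) (v.2, true)) (o (v.1 - a) (v.2 - 1, false))).1) *
      2 ^ (cV l n).card = 2 * ssum (cV l n) fun τ => xm c csrc ctgt (cV l n) (cE l n) τ *
        ∏ v ∈ W, f (τ (csrc v) == τ (ctgt v)) := by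
  have e1 : chn (tm c l) (fun s t => uL s * uR t) n a (fun o => ∏ v ∈ W, f (ab4 (cev v)
      (o (v.1 - a - 1) (v.2, true)) (o (v.1 - a) (v.2, true)) (o (v.1 - a) (v.2 - 1, false))).1) =
      ∑ o : ZMod (n + 1) → Colc l, uL (o 0) * uR (o (n : ZMod (n + 1))) * cw8 n (ww c W f) o := by
    rw [h1]
    exact sum_congr rfl fun o _ => by rw [← cw c n a f hW o, mul_assoc]
  rw [e1, h2 l n _ hn, h3 l n _ hn, mul_assoc]
  refine congrArg _ ?_
  rw [ssum, ssum, sum_mul]
  refine sum_congr rfl fun T _ => ?_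
  have e2 := h4 (P152.Cy l) (P152.Cy l) (P152.Cy l) csrc ctgt cfa cfb (cV l n) (cE l n) (cF l n)
    (h5.h1 l n) (h5.h2 l n) (h5.h3 l n)
    (fun v => ww c W f v (gsp T (csrc v) == gsp T (ctgt v)) true)
    (fun v => ww c W f v (gsp T (csrc v) == gsp T (ctgt v)) false)
  have e3 : (ssum (cF l n) fun ω => ∏ v ∈ cE l n,
      ww c W f v (gsp T (csrc v) == gsp T (ctgt v)) (ω (cfa v) == ω (cfb v))) =
      ssum (cF l n) fun ω => ∏ v ∈ cE l n, if ω (cfa v) = ω (cfb v) then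
        ww c W f v (gsp T (csrc v) == gsp T (ctgt v)) true else
        ww c W f v (gsp T (csrc v) == gsp T (ctgt v)) false := by
    refine congrArg _ (funext fun ω => prod_congr rfl fun v _ => ?_)
    cases ω (cfa v) <;> cases ω (cfb v) <;> rfl
  rw [e3, mul_comm, ← e2, xm, ssum, ssum, sum_mul]
  refine sum_congr rfl fun N _ => ?_
  rw [prod_congr rfl fun v _ => obs c W f v _ _, prod_mul_distrib, prodW hW, xw, xag, prod_filter]
  refine congrArg₂ _ (prod_congr rfl fun v _ => ?_) rfl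
  simp only [beq_iff_eq]

end Cy

theorem t_cy (hc : S_cone) (h1 : S_cons) (h2 : S_d1a) (h3 : S_d1b) (h4 : S_d2g) (h5 : S_ex)
    (hi : SX_is) : T_cy := by
  intro c l n a W f _ hn hW
  have e1 := Cy.main h1 h2 h3 h4 h5 c n a hn W f hW
  have e2 := Cy.main (l := l) h1 h2 h3 h4 h5 c n a hn ∅ f (empty_subset _)
  simp only [prod_empty, mul_one] at e2
  rw [← mul_div_mul_right _ _ (pow_ne_zero (cV l n).card (two_ne_zero (α := ℝ))), e1,
    show (1 : (ℤ → Colc l) → ℝ) = fun _ => 1 from rfl, e2, mul_div_mul_left _ _ two_ne_zero]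
  rfl

end Vale.Agent.P167.Q
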