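import Vale.Agent.P167.QStm

/-! P167: the constant configurations on the torus have `M * L / 2` loops. -/

open Finset

namespace Vale.Agent.P167.Q

open Vale.Agent.P152 Vale.Agent.P167.Pc

namespace Df2

theorem it_mod {E : Type} (g : E → E) (h4 : ∀ e, g (g (g (g e))) = e) (n : ℕ) (e : E) :
    g^[n] e = e ∨ g^[n] e = g e ∨ g^[n] e = g (g e) ∨ g^[n] e = g (g (g e)) := by
  induction n with
  | zero => exact Or.inl rfl
  | succ n ih =>
    rw [Function.iterate_succ_apply']
    rcases ih with h | h | h | h <;> rw [h]
    · exact Or.inr (Or.inl rfl)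
    · exact Or.inr (Or.inr (Or.inl rfl))
    · exact Or.inr (Or.inr (Or.inr rfl))
    · exact Or.inl (h4 e)

theorem it_four {E : Type} (g : E → E) (h4 : ∀ e, g (g (g (g e))) = e) (n : ℕ) (e : E) :
    g^[4 * n] e = e := by
  induction n with
  | zero => rfl
  | succ n ih =>
    rw [show 4 * (n + 1) = 4 + 4 * n by ring, Function.iterate_add_apply, ih]
    exact h4 e

theorem cls_iff {E : Type} (g : E → E) (h4 : ∀ e, g (g (g (g e))) = e) (e a : E) :
    Cls g e a ↔ (a = e ∨ a = g e ∨ a = g (g e) ∨ a = g (g (g e))) := by
  constructor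
  · rintro ⟨m, n, h⟩
    have h1 : g^[3 * n + m] e = a := by
      rw [Function.iterate_add_apply, h, ← Function.iterate_add_apply,
        show 3 * n + n = 4 * n by ring, it_four g h4]
    rw [← h1]
    exact it_mod g h4 _ e
  · rintro (h | h | h | h)
    · exact ⟨0, 0, h.symm⟩
    · exact ⟨1, 0, h.symm⟩
    · exact ⟨2, 0, h.symm⟩
    · exact ⟨3, 0, h.symm⟩

theorem count {E : Type} [Fintype E] (g : E → E) (he : Equivalence (Cls g))
    (h4 : ∀ e, g (g (g (g e))) = e) (h1 : ∀ e, g e ≠ e) (h2 : ∀ e, g (g e) ≠ e) :
    4 * nl g = Fintype.card E := by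
  classical
  have h3 : ∀ e, g (g (g e)) ≠ e := fun e h => by
    have := h4 e
    rw [h] at this
    exact h1 e this
  unfold nl
  rw [← Finset.card_univ, Finset.card_eq_sum_card_image (fun e => {e' | Cls g e e'}) univ,
    mul_comm, ← smul_eq_mul, ← Finset.sum_const]
  refine Finset.sum_congr rfl fun b hb => ?_
  obtain ⟨e, -, rfl⟩ := Finset.mem_image.1 hb
  have hf : (univ.filter fun a => {e' | Cls g a e'} = {e' | Cls g e e'}) =
      {e, g e, g (g e), g (g (g e))} := by
    ext a
    simp only [mem_filter, mem_univ, true_and, mem_insert, mem_singleton]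
    rw [← cls_iff g h4]
    constructor
    · intro h
      have ha : a ∈ {e' | Cls g a e'} := he.refl a
      rw [h] at ha
      exact ha
    · intro h
      ext y
      exact ⟨fun hy => he.trans h hy, fun hy => he.trans (he.symm h) hy⟩
  rw [hf, card_insert_of_notMem, card_insert_of_notMem, card_pair (h1 _).symm]
  · simp only [mem_insert, mem_singleton, not_or]
    exact ⟨(h1 _).symm, (h2 _).symm⟩
  · simp only [mem_insert, mem_singleton, not_or]
    exact ⟨(h1 _).symm, (h2 _).symm, (h3 _).symm⟩

section

variable {A B : Type} [Ring A] [Ring B] (par : A × B → Bool)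

theorem a1 (x : A × B) (h : par x = true) :
    nx par (fun _ => true) (x, true) = (x + (1, 0) - (0, 1), false) := by simp [nx, hd, rf, h]

theorem a2 (x : A × B) (h : par x = false) :
    nx par (fun _ => true) (x, true) = (x, false) := by simp [nx, hd, rf, h]

theorem a3 (x : A × B) (h : par x = true) :
    nx par (fun _ => true) (x, false) = (x - (1, 0), true) := by simp [nx, hd, rf, h]

theorem a4 (x : A × B) (h : par x = false) :
    nx par (fun _ => true) (x, false) = (x + (0, 1), true) := by simp [nx, hd, rf, h]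

theorem b1 (x : A × B) (h : par x = true) :
    nx par (fun _ => false) (x, true) = (x + (1, 0), false) := by simp [nx, hd, rf, h]

theorem b2 (x : A × B) (h : par x = false) :
    nx par (fun _ => false) (x, true) = (x - (0, 1), false) := by simp [nx, hd, rf, h]

theorem b3 (x : A × B) (h : par x = true) :
    nx par (fun _ => false) (x, false) = (x, true) := by simp [nx, hd, rf, h]

theorem b4 (x : A × B) (h : par x = false) :
    nx par (fun _ => false) (x, false) = (x + (0, 1) - (1, 0), true) := by simp [nx, hd, rf, h]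

theorem flip (s : Bool) (e : (A × B) × Bool) : (nx par (fun _ => s) e).2 = !e.2 := by
  obtain ⟨x, b⟩ := e
  cases b <;> simp only [nx] <;> split_ifs <;> simp_all

/-- two steps shift the edge by a unit vector -/
theorem two (hc : Chk par) (s b : Bool) (x : A × B) :
    nx par (fun _ => s) (nx par (fun _ => s) (x, b)) =
      (if par x = s then
        (if b then x - (0, 1) else x - (1, 0)) else (if b then x + (0, 1) else x + (1, 0)), b) := by
  have h1 : ∀ y, par (y + (1, 0)) = !par y := fun y => (hc y).1
  have h2 : ∀ y, par (y + (0, 1)) = !par y := fun y => (hc y).2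
  have h3 : ∀ y, par (y - (1, 0)) = !par y := fun y => by
    have := h1 (y - (1, 0)); rw [sub_add_cancel] at this; rw [this, Bool.not_not]
  have h4 : ∀ y, par (y - (0, 1)) = !par y := fun y => by
    have := h2 (y - (0, 1)); rw [sub_add_cancel] at this; rw [this, Bool.not_not]
  cases s <;> cases b <;> cases hp : par x
  · rw [b4 par x hp, b2 par _ (by rw [h3, h2, hp]; rfl), if_pos rfl, if_neg (by decide)]
    congr 1; abel
  · rw [b3 par x hp, b1 par _ hp, if_neg (by decide), if_neg (by decide)]
  · rw [b2 par x hp, b3 par _ (by rw [h4, hp]; rfl), if_pos rfl, if_pos rfl]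
  · rw [b1 par x hp, b4 par _ (by rw [h1, hp]; rfl), if_neg (by decide), if_pos rfl]
    congr 1; abel
  · rw [a4 par x hp, a1 par _ (by rw [h2, hp]; rfl), if_neg (by decide), if_neg (by decide)]
    congr 1; abel
  · rw [a3 par x hp, a2 par _ (by rw [h3, hp]; rfl), if_pos rfl, if_neg (by decide)]
  · rw [a2 par x hp, a4 par _ hp, if_neg (by decide), if_pos rfl]
  · rw [a1 par x hp, a3 par _ (by rw [h4, h1, hp]; rfl), if_pos rfl, if_pos rfl]
    congr 1; abel

theorem main (hc : Chk par) (s : Bool) (e : (A × B) × Bool) :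
    nx par (fun _ => s) (nx par (fun _ => s) e) ≠ e ∧
    nx par (fun _ => s) (nx par (fun _ => s) (nx par (fun _ => s) (nx par (fun _ => s) e))) = e := by
  have h1 : ∀ y, par (y + (1, 0)) = !par y := fun y => (hc y).1
  have h2 : ∀ y, par (y + (0, 1)) = !par y := fun y => (hc y).2
  have h3 : ∀ y, par (y - (1, 0)) = !par y := fun y => by
    have := h1 (y - (1, 0)); rw [sub_add_cancel] at this; rw [this, Bool.not_not]
  have h4 : ∀ y, par (y - (0, 1)) = !par y := fun y => by
    have := h2 (y - (0, 1)); rw [sub_add_cancel] at this; rw [this, Bool.not_not]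
  obtain ⟨x, b⟩ := e
  constructor
  · intro h
    have h' := congrArg (fun e => par e.1) h
    simp only [two par hc] at h'
    split_ifs at h' <;> simp [h1, h2, h3, h4] at h'
  · rw [two par hc s b x, two par hc]
    cases s <;> cases b <;> cases hp : par x <;> simp [h1, h2, h3, h4, hp]

end

end Df2

theorem t_df2 (hb : Pc.S_bas) : T_df2 := by
  intro M L _ _ hM hL s
  have hc : Chk (pt M L) := (hb.2.2.2.2.2 M L hM hL).1
  have h := Df2.count (nx (pt M L) fun _ => s) (hb.2.1 _ _).1 (fun e => (Df2.main _ hc s e).2)
    (fun e h => by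
      have h' := Df2.flip (pt M L) s e
      rw [h] at h'
      simp at h') (fun e => (Df2.main _ hc s e).1)
  rw [Fintype.card_prod, Fintype.card_prod, ZMod.card, ZMod.card, Fintype.card_bool] at h
  omega

end Vale.Agent.P167.Q
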