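import Vale.Agent.P167.QStm

open MeasureTheory Filter Topology Finset

namespace Vale.Agent.P167.Q

open Vale.Agent.P152 Vale.Agent.P167.Pc

namespace Df3

theorem ends {A B : Type} [Ring A] [Ring B] (par : A × B → Bool) (h : Chk par) (v : A × B) :
    par (ta par v) = true ∧ par (tb par v) = true := by
  have h1 : par v = !par (v - (1, 0)) := by
    have := (h (v - (1, 0))).1
    rwa [sub_add_cancel] at this
  have h2 : par v = !par (v - (0, 1)) := by
    have := (h (v - (0, 1))).2
    rwa [sub_add_cancel] at this
  have h3 : par (v - (0, 1)) = !par (v - (1, 1)) := by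
    have := (h (v - (1, 1))).1
    have e : v - (1, 1) + (1, 0) = v - (0, 1) := by ext <;> simp
    rwa [e] at this
  unfold ta tb
  cases hv : par v
  · rw [hv] at h1 h2
    simp only [Bool.false_eq_true, if_false]
    constructor
    · simpa using h1
    · simpa using h2
  · rw [hv, h3] at h2
    simp only [if_true]
    exact ⟨hv, by simpa using h2⟩

theorem eq_of_cn {X E : Type} (a b : E → X) (x y : X) (h : Cn a b nil (fun _ => false) x y) :
    x = y := by
  unfold Cn at h
  induction h with
  | rel u w h => simp [nil] at h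
  | refl => rfl
  | symm _ _ _ ih => exact ih.symm
  | trans _ _ _ _ _ ih1 ih2 => exact ih1.trans ih2

theorem conn (M L : ℕ) (hp : ∀ x, pt M L (pv M L x) = pz x) (a b : ℤ) :
    Cn (ta (pt M L)) (tb (pt M L)) nil (fun _ => true) (pv M L (0, 0)) (pv M L (a + b, a - b)) := by
  have s1 : ∀ a b : ℤ, Cn (ta (pt M L)) (tb (pt M L)) nil (fun _ => true)
      (pv M L (a + 1 + b, a + 1 - b)) (pv M L (a + b, a - b)) := by
    intro a b
    have e : pt M L (pv M L (a + 1 + b, a + 1 - b)) = true := by
      rw [hp]
      simp only [pz, decide_eq_true_eq]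
      exact ⟨a + 1, by ring⟩
    refine Relation.EqvGen.rel _ _ (Or.inl ⟨pv M L (a + 1 + b, a + 1 - b), rfl, ?_, ?_⟩)
    · simp only [ta, e, if_true]
    · simp only [tb, e, if_true]
      ext <;> simp [pv] <;> ring
  have s2 : ∀ a b : ℤ, Cn (ta (pt M L)) (tb (pt M L)) nil (fun _ => true)
      (pv M L (a + b, a - b)) (pv M L (a + (b + 1), a - (b + 1))) := by
    intro a b
    have e : pt M L (pv M L (a + b + 1, a - b)) = false := by
      rw [hp]
      simp only [pz, decide_eq_false_iff_not, Int.not_even_iff_odd]
      exact ⟨a, by ring⟩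
    refine Relation.EqvGen.rel _ _ (Or.inl ⟨pv M L (a + b + 1, a - b), rfl, ?_, ?_⟩)
    · simp only [ta, e, Bool.false_eq_true, if_false]
      ext <;> simp [pv]
    · simp only [tb, e, Bool.false_eq_true, if_false]
      ext <;> simp [pv] <;> ring
  have t1 : ∀ a : ℤ, Cn (ta (pt M L)) (tb (pt M L)) nil (fun _ => true) (pv M L (0, 0))
      (pv M L (a + 0, a - 0)) := by
    intro a
    induction a using Int.induction_on with
    | zero => exact Relation.EqvGen.refl _
    | succ i ih => exact Relation.EqvGen.trans _ _ _ ih (Relation.EqvGen.symm _ _ (s1 i 0))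
    | pred i ih =>
      have h := s1 (-(i : ℤ) - 1) 0
      rw [sub_add_cancel] at h
      exact Relation.EqvGen.trans _ _ _ ih h
  induction b using Int.induction_on with
  | zero => exact t1 a
  | succ i ih => exact Relation.EqvGen.trans _ _ _ ih (s2 a i)
  | pred i ih =>
    have h := s2 a (-(i : ℤ) - 1)
    rw [sub_add_cancel] at h
    exact Relation.EqvGen.trans _ _ _ ih (Relation.EqvGen.symm _ _ h)

theorem half (M L : ℕ) [NeZero M] [NeZero L] (h : Chk (pt M L)) :
    M * L = 2 * (univ.filter fun v : Tor M L => pt M L v = true).card := by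
  have h1 : (univ.filter fun v : Tor M L => pt M L v = true).card =
      (univ.filter fun v : Tor M L => ¬ pt M L v = true).card := by
    refine Finset.card_equiv (Equiv.addRight ((1, 0) : Tor M L)) fun v => ?_
    simp only [mem_filter, mem_univ, true_and, Equiv.coe_addRight, (h v).1]
    cases pt M L v <;> simp
  have h2 := Finset.card_filter_add_card_filter_not (s := (univ : Finset (Tor M L)))
    (fun v => pt M L v = true)
  rw [card_univ, Fintype.card_prod, ZMod.card, ZMod.card] at h2
  omega

end Df3

theorem t_df3 (hb : Pc.S_bas) : T_df3 := by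
  intro M L _ _ hM hL
  obtain ⟨hc, hp, -⟩ := hb.2.2.2.2.2 M L hM hL
  constructor
  · unfold kk
    rw [← Set.ncard_singleton
      {y | Cn (ta (pt M L)) (tb (pt M L)) nil (fun _ => true) (pv M L (0, 0)) y}]
    refine Set.ncard_le_ncard ?_ (Set.finite_singleton _)
    rintro _ ⟨x, hx, rfl⟩
    have hx1 : pt M L x = true := by
      rcases hx with ⟨v, -, rfl⟩ | ⟨v, -, rfl⟩
      · exact (Df3.ends _ hc v).1
      · exact (Df3.ends _ hc v).2
    obtain ⟨i, hi⟩ := ZMod.intCast_surjective x.1
    obtain ⟨j, hj⟩ := ZMod.intCast_surjective x.2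
    have hxe : x = pv M L (i, j) := by ext <;> simp [pv, hi, hj]
    rw [hxe, hp] at hx1
    simp only [pz, decide_eq_true_eq] at hx1
    obtain ⟨a, ha⟩ := hx1
    have h0 := Df3.conn M L hp a (i - a)
    have e1 : a + (i - a) = i := by ring
    have e2 : a - (i - a) = j := by omega
    rw [e1, e2, ← hxe] at h0
    rw [Set.mem_singleton_iff]
    ext y
    exact ⟨fun hy => Relation.EqvGen.trans _ _ _ h0 hy,
      fun hy => Relation.EqvGen.trans _ _ _ (Relation.EqvGen.symm _ _ h0) hy⟩
  · unfold kk
    have hinj : Function.Injective (fun x : Tor M L =>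
        {y | Cn (ta (pt M L)) (tb (pt M L)) nil (fun _ => false) x y}) := by
      intro x y hxy
      have hy : y ∈ {z | Cn (ta (pt M L)) (tb (pt M L)) nil (fun _ => false) y z} :=
        Relation.EqvGen.refl y
      have hxy' : {z | Cn (ta (pt M L)) (tb (pt M L)) nil (fun _ => false) x z} =
        {z | Cn (ta (pt M L)) (tb (pt M L)) nil (fun _ => false) y z} := hxy
      rw [← hxy'] at hy
      exact Df3.eq_of_cn _ _ _ _ hy
    rw [Set.ncard_image_of_injective _ hinj, Df3.half M L hc, ← Set.ncard_coe_finset]
    refine Nat.mul_le_mul_left 2 (Set.ncard_le_ncard ?_ (Set.toFinite _))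
    intro v hv
    have hv1 : pt M L v = true := by simpa using hv
    exact Or.inl ⟨v, by simp, by simp only [ta, hv1, if_true]⟩

end Vale.Agent.P167.Q
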