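import Vale.Agent.P167.QStm

/-! P167, random-cluster model: comparison of a conditional measure with a window. -/

open Finset

namespace Vale.Agent.P167.Q

open Vale.Agent.P152 Vale.Agent.P167.Pc

namespace Dom

variable {X E X' E' : Type} [DecidableEq E] [DecidableEq E']

theorem split {S : Finset E} {S' : Finset E'} {ρ : E' → E} (hi : Set.InjOn ρ S')
    (hS : ∀ e ∈ S', ρ e ∈ S) (g : Finset E → ℝ) :
    ∑ A ∈ S.powerset, g A =
      ∑ B ∈ (S \ S'.image ρ).powerset, ∑ A ∈ S'.powerset, g (B ∪ A.image ρ) := by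
  rw [← sum_product']
  refine sum_nbij' (fun A => (A \ S'.image ρ, S'.filter fun e => ρ e ∈ A))
    (fun p => p.1 ∪ p.2.image ρ) ?_ ?_ ?_ ?_ ?_
  · intro A hA
    simp only [mem_product, mem_powerset] at hA ⊢
    exact ⟨sdiff_subset_sdiff hA subset_rfl, filter_subset _ _⟩
  · intro p hp
    simp only [mem_product, mem_powerset] at hp ⊢
    refine union_subset (hp.1.trans sdiff_subset) fun v hv => ?_
    obtain ⟨e, he, rfl⟩ := mem_image.1 hv
    exact hS e (hp.2 he)
  · intro A _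
    ext v
    simp only [mem_union, mem_sdiff, mem_image, mem_filter]
    constructor
    · rintro (h | ⟨e, he, rfl⟩)
      · exact h.1
      · exact he.2
    · intro h
      by_cases h2 : ∃ e ∈ S', ρ e = v
      · obtain ⟨e, he, rfl⟩ := h2
        exact Or.inr ⟨e, ⟨he, h⟩, rfl⟩
      · exact Or.inl ⟨h, h2⟩
  · intro p hp
    simp only [mem_product, mem_powerset] at hp
    have h1 : ∀ v ∈ p.1, v ∉ S'.image ρ := fun v hv => (mem_sdiff.1 (hp.1 hv)).2
    refine Prod.ext ?_ ?_
    · ext v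
      simp only [mem_sdiff, mem_union]
      constructor
      · rintro ⟨h | h, h2⟩
        · exact h
        · exact absurd (image_subset_image hp.2 h) h2
      · exact fun h => ⟨Or.inl h, h1 v h⟩
    · ext e
      simp only [mem_filter, mem_union]
      constructor
      · rintro ⟨he, h | h⟩
        · exact absurd (mem_image_of_mem ρ he) (h1 _ h)
        · obtain ⟨e', he', h3⟩ := mem_image.1 h
          rwa [← hi (hp.2 he') he h3]
      · exact fun h => ⟨hp.2 h, Or.inr (mem_image_of_mem ρ h)⟩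
  · intro A hA
    refine congrArg g ?_
    ext v
    simp only [mem_union, mem_sdiff, mem_image, mem_filter]
    constructor
    · intro h
      by_cases h2 : ∃ e ∈ S', ρ e = v
      · obtain ⟨e, he, rfl⟩ := h2
        exact Or.inr ⟨e, ⟨he, h⟩, rfl⟩
      · exact Or.inl ⟨h, h2⟩
    · rintro (h | ⟨e, he, rfl⟩)
      · exact h.1
      · exact he.2

theorem cf_ins {S : Finset E} (ξ : E → Bool) (A : Finset E) {e : E} (he : e ∈ S) :
    cf S ξ (insert e A) = Function.update (cf S ξ A) e true := by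
  funext v
  by_cases h : v = e
  · subst h
    simp [cf, he]
  · simp [cf, h]

theorem cf_out {S : Finset E} (ξ : E → Bool) (A : Finset E) (e : E) (he : e ∉ S) :
    cf S ξ A e = ξ e := by
  simp [cf, he]

theorem cf_mono (S : Finset E) (ξ : E → Bool) {A A' : Finset E} (h : A ⊆ A') :
    cf S ξ A ≤ cf S ξ A' := by
  intro v
  unfold cf
  split_ifs
  · by_cases h2 : v ∈ A
    · simp [h2, h h2]
    · simp [h2]
  · exact le_rfl

theorem cf_rho {S : Finset E} {S' : Finset E'} {ρ : E' → E} (hi : Set.InjOn ρ S')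
    (hS : ∀ e ∈ S', ρ e ∈ S) (ξ : E → Bool) (ξ' : E' → Bool) {B : Finset E}
    (hB : B ⊆ S \ S'.image ρ) {A : Finset E'} (hA : A ⊆ S') {e : E'} (he : e ∈ S') :
    cf S ξ (B ∪ A.image ρ) (ρ e) = cf S' ξ' A e := by
  unfold cf
  rw [if_pos (hS e he), if_pos he]
  refine decide_eq_decide.2 ⟨fun h => ?_, fun h => mem_union_right _ (mem_image_of_mem ρ h)⟩
  rcases mem_union.1 h with h | h
  · exact absurd (mem_image_of_mem ρ he) (mem_sdiff.1 (hB h)).2
  · obtain ⟨e', he', h3⟩ := mem_image.1 h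
    rwa [← hi (hA he') he h3]

omit [DecidableEq E'] in
theorem cf_H {S : Finset E} {S' : Finset E'} {ρ : E' → E} (ξ : E → Bool) (B : Finset E)
    {A : Finset E'} (hA : A ⊆ S') {H : (E → Bool) → ℝ} (hH : Dep (ρ '' (S' : Set E'))ᶜ H) :
    H (cf S ξ (B ∪ A.image ρ)) = H (cf S ξ B) := by
  refine hH _ _ fun v hv => ?_
  have : v ∉ A.image ρ := fun h => by
    obtain ⟨e, he, rfl⟩ := mem_image.1 h
    exact hv ⟨e, hA he, rfl⟩
  simp [cf, this]

theorem wt_pos {r : ℝ} (hr : 0 < r) (a b : E → X) (R : X → X → Prop) (S : Finset E)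
    (ω : E → Bool) : 0 < wt r a b R S ω := by
  unfold wt
  positivity

theorem sm_pos {r : ℝ} (hr : 0 < r) (a b : E → X) (R : X → X → Prop) (S : Finset E)
    (ξ : E → Bool) : 0 < sm S ξ (wt r a b R S) :=
  sum_pos (fun _ _ => wt_pos hr a b R S _) ⟨∅, empty_mem_powerset S⟩

open Classical in
theorem rat_le {r : ℝ} (hr : 1 ≤ r) {p q : Prop} (h : p → q) :
    (if p then r else r⁻¹) ≤ if q then r else r⁻¹ := by
  have : r⁻¹ ≤ r := (inv_le_one_of_one_le₀ hr).trans hr
  by_cases hp : p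
  · rw [if_pos hp, if_pos (h hp)]
  · rw [if_neg hp]
    split_ifs
    · exact this
    · exact le_rfl

end Dom

open Dom in
theorem t_dom (hl : T_lin) (hh : T_hol) (hr : T_rat) : T_dom := by
  intro X E X' E' _ _ r a b R S ξ a' b' R' S' ξ' ρ F H h1 hi hS hF hD h0 hH
  have r0 : 0 < r := zero_lt_one.trans_le h1
  have z := sm_pos r0 a b R S ξ
  have z' := sm_pos r0 a' b' R' S' ξ'
  have hf : ∀ A A' : Finset E', A ⊆ A' → A' ⊆ S' → F (cf S' ξ' A) ≤ F (cf S' ξ' A') :=
    fun A A' h _ => hF (cf_mono S' ξ' h)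
  have eN : sm S ξ (fun ω => wt r a b R S ω * (F (ω ∘ ρ) * H ω)) =
      ∑ B ∈ (S \ S'.image ρ).powerset, H (cf S ξ B) *
        ∑ A ∈ S'.powerset, wt r a b R S (cf S ξ (B ∪ A.image ρ)) * F (cf S' ξ' A) := by
    unfold sm
    rw [split hi hS]
    refine sum_congr rfl fun B hB => ?_
    rw [mul_sum]
    refine sum_congr rfl fun A hA => ?_
    beta_reduce
    rw [cf_H ξ B (mem_powerset.1 hA) hH, hD (cf S ξ (B ∪ A.image ρ) ∘ ρ) (cf S' ξ' A) fun e he =>
      cf_rho hi hS ξ ξ' (mem_powerset.1 hB) (mem_powerset.1 hA) he]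
    ring
  have eM : sm S ξ (fun ω => wt r a b R S ω * H ω) =
      ∑ B ∈ (S \ S'.image ρ).powerset, H (cf S ξ B) *
        ∑ A ∈ S'.powerset, wt r a b R S (cf S ξ (B ∪ A.image ρ)) := by
    unfold sm
    rw [split hi hS]
    refine sum_congr rfl fun B _ => ?_
    rw [mul_sum]
    refine sum_congr rfl fun A hA => ?_
    beta_reduce
    rw [cf_H ξ B (mem_powerset.1 hA) hH]
    ring
  have iu : ∀ B ⊆ S \ S'.image ρ, ∀ A ⊆ S', ∀ e ∈ S', e ∉ A →
      wt r a b R S (cf S ξ (B ∪ (insert e A).image ρ)) = wt r a b R S (cf S ξ (B ∪ A.image ρ)) *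
        (open Classical in
          if Cn a b R (cf S ξ (B ∪ A.image ρ)) (a (ρ e)) (b (ρ e)) then r else r⁻¹) := by
    intro B hB A hA e he heA
    rw [image_insert, union_insert, cf_ins ξ _ (hS e he)]
    refine (hr X E a b R S _ (ρ e) (hS e he) ?_).2.2 r r0
    rw [cf_rho hi hS ξ ξ' hB hA he]
    simp [cf, he, heA]
  have iu' : ∀ A : Finset E', ∀ e ∈ S', e ∉ A →
      wt r a' b' R' S' (cf S' ξ' (insert e A)) = wt r a' b' R' S' (cf S' ξ' A) *
        (open Classical in if Cn a' b' R' (cf S' ξ' A) (a' e) (b' e) then r else r⁻¹) := by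
    intro A e he heA
    rw [cf_ins ξ' _ he]
    refine (hr X' E' a' b' R' S' _ e he ?_).2.2 r r0
    simp [cf, he, heA]
  constructor
  · intro hc
    unfold ex
    rw [div_mul_div_comm, div_le_div_iff₀ z (mul_pos z' z), ← mul_assoc]
    refine mul_le_mul_of_nonneg_right ?_ z.le
    rw [eN, eM, sum_mul, mul_sum]
    refine sum_le_sum fun B hB => ?_
    have hB' := mem_powerset.1 hB
    rcases (h0 (cf S ξ B)).eq_or_lt with hz | hz
    · rw [← hz]
      simp
    rw [mul_assoc, mul_left_comm _ (H (cf S ξ B))]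
    refine mul_le_mul_of_nonneg_left ?_ hz.le
    refine hh E' S' (fun A => wt r a b R S (cf S ξ (B ∪ A.image ρ)))
      (fun A => wt r a' b' R' S' (cf S' ξ' A)) (fun A => F (cf S' ξ' A))
      (fun _ => wt_pos r0 _ _ _ _ _) (fun _ => wt_pos r0 _ _ _ _ _) hf ?_
    intro A A' e hA hA' he heA
    have hAS := hA.trans hA'
    have := rat_le h1 (hc (cf S ξ (B ∪ A.image ρ)) (cf S' ξ' A')
      (by rw [cf_H ξ B hAS hH]; exact hz.ne') (cf_out ξ _) (cf_out ξ' _)
      (fun e he => by rw [cf_rho hi hS ξ ξ' hB' hAS he]; exact cf_mono S' ξ' hA e) e he)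
    rw [iu B hB' A hAS e he fun h => heA (hA h), iu' A' e he heA, mul_right_comm, ← mul_assoc]
    exact mul_le_mul_of_nonneg_left this (mul_pos (wt_pos r0 _ _ _ _ _) (wt_pos r0 _ _ _ _ _)).le
  · intro hc
    unfold ex
    rw [div_mul_div_comm, div_le_div_iff₀ (mul_pos z' z) z, ← mul_assoc]
    refine mul_le_mul_of_nonneg_right ?_ z.le
    rw [eN, eM, mul_sum, sum_mul]
    refine sum_le_sum fun B hB => ?_
    have hB' := mem_powerset.1 hB
    rcases (h0 (cf S ξ B)).eq_or_lt with hz | hz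
    · rw [← hz]
      simp
    rw [mul_assoc, mul_left_comm _ (H (cf S ξ B))]
    refine mul_le_mul_of_nonneg_left ?_ hz.le
    refine hh E' S' (fun A => wt r a' b' R' S' (cf S' ξ' A))
      (fun A => wt r a b R S (cf S ξ (B ∪ A.image ρ))) (fun A => F (cf S' ξ' A))
      (fun _ => wt_pos r0 _ _ _ _ _) (fun _ => wt_pos r0 _ _ _ _ _) hf ?_
    intro A A' e hA hA' he heA
    have := rat_le h1 (hc (cf S ξ (B ∪ A'.image ρ)) (cf S' ξ' A)
      (by rw [cf_H ξ B hA' hH]; exact hz.ne') (cf_out ξ _) (cf_out ξ' _)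
      (fun e he => by rw [cf_rho hi hS ξ ξ' hB' hA' he]; exact cf_mono S' ξ' hA e) e he)
    rw [iu B hB' A' hA' e he heA, iu' A e he fun h => heA (hA h), mul_right_comm, ← mul_assoc]
    exact mul_le_mul_of_nonneg_left this (mul_pos (wt_pos r0 _ _ _ _ _) (wt_pos r0 _ _ _ _ _)).le

end Vale.Agent.P167.Q
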