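import Vale.Agent.P167.QStm
import Vale.Agent.P167.PcFac

/-! P167, random-cluster model: evaluation of the sum over the orientations. -/

open MeasureTheory Filter Topology Finset

namespace Vale.Agent.P167.Q

open Vale.Agent.P152 Vale.Agent.P167.Pc

namespace Fac

theorem cos_ge {a : ℝ} (h0 : 0 ≤ a) (h1 : a ≤ Real.pi / 3) : 1 ≤ 2 * Real.cos a := by
  have h := Real.cos_le_cos_of_nonneg_of_le_pi h0 (by linarith [Real.pi_pos]) h1
  rw [Real.cos_pi_div_three] at h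
  linarith

theorem prod_eq {ι : Type} (s : Finset ι) (x : ι → ℝ) {c : ℝ} (hc : c ≠ 0) :
    ∏ l ∈ s, 2 * x l = (∏ l ∈ s, x l / c) * (2 * c) ^ s.card := by
  rw [← prod_const, ← prod_mul_distrib]
  refine prod_congr rfl fun l _ => ?_
  field_simp

end Fac

open Classical in
theorem t_fac (ha : S_abs) (ht : Pc.S_tor) (hb : S_bal) (hA : T_facA) (hB : T_facB)
    (hC : T_facC) (hg : S_gl) : T_fac := by
  intro a M L _ _ a0 a1 hM hL hLM ω
  obtain ⟨t1, -, t3, t4⟩ := ht M L hM hL hLM ω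
  obtain ⟨b1, b2⟩ := hb M L hM hL hLM ω
  obtain ⟨T, h1, h2, h3⟩ := ha _ (nx (pt M L) ω) (Ctr M L ω)
    (fun ε => Bal M L fun e => ε e == rf (pt M L) e) t1 b1 b2
  have hc := Fac.cos_ge a0 a1
  have hc0 : Real.cos a ≠ 0 := by
    intro h
    rw [h] at hc
    linarith
  have hq : 0 ≤ (2 * Real.cos a) ^ (cl M L ω).card := pow_nonneg (by linarith) _
  have key : ∀ (W : Finset Edge) (j : Edge → ℝ), ∃ z : ℂ, ‖z‖ ≤ T ∧
      ((∀ w ∈ W, Ctr M L ω (pe M L w)) → z = T) ∧ SL a M L W j ω =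
      ((∏ l ∈ cl M L ω, Real.cos (∑ e ∈ l, aL a M L W j ω e) / Real.cos a) *
        (2 * Real.cos a) ^ (cl M L ω).card : ℝ) * z := by
    intro W j
    obtain ⟨z, z1, z2, z3⟩ := h3 (aL a M L W j ω)
    refine ⟨z, z1, fun hW => z2 fun e he => ?_, ?_⟩
    · have e1 : ∀ e' ∈ univ.filter (Cls (nx (pt M L) ω) e),
          aL a M L W j ω e' = a / 4 * kap (pt M L) ω e' := fun e' he' => by
        rw [aL, sum_eq_zero, add_zero]
        intro w hw
        rw [mem_filter] at hw he'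
        exact absurd ((Pc.Fac.cls t1 he'.2).2 (hw.2 ▸ hW w hw.1)) he
      rw [sum_congr rfl e1, ← mul_sum, ← Int.cast_sum, t3 e he, Int.cast_zero, mul_zero]
    · rw [hA a M L ω W j, ← Fac.prod_eq _ _ hc0, cl]
      exact (Pc.Fac.sum_eq _ _ _ _ _ _).trans (z3.trans (by rw [Pc.Fac.image_eq]))
  have h1' : (1 : ℝ) ≤ T := by exact_mod_cast h1
  have h2' : (T : ℝ) ≤ 2 ^ M := by exact_mod_cast h2.trans (Nat.pow_le_pow_right two_pos t4)
  refine ⟨T * (2 * Real.cos a) ^ (cl M L ω).card, le_mul_of_one_le_left hq h1',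
    mul_le_mul_of_nonneg_right h2' hq, ?_, fun W j => ⟨?_, fun N hN hG => ?_⟩⟩
  · obtain ⟨z, -, z2, z3⟩ := key ∅ 0
    rw [z3, (hB a M L a0 a1 hM hL hLM ω ∅ 0).2 rfl, z2 (by simp)]
    push_cast
    ring
  · obtain ⟨z, z1, -, z3⟩ := key W j
    rw [z3, norm_mul, Complex.norm_real, Real.norm_eq_abs, abs_mul, abs_of_nonneg hq,
      mul_comm (T : ℝ), ← mul_assoc]
    exact mul_le_mul (mul_le_mul_of_nonneg_right (hB a M L a0 a1 hM hL hLM ω W j).1 hq) z1
      (norm_nonneg _) (by positivity)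
  · obtain ⟨z, -, z2, z3⟩ := key W j
    rw [z3, hC a M L a0 a1 hM hL hLM ω W j N hN hG,
      z2 fun w hw => ⟨w, rfl, ((hg W j N).2.2 _).2 hG w hw⟩]
    push_cast
    ring

end Vale.Agent.P167.Q
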