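import Vale.Agent.P167.QStm

/-! P167, random-cluster model: the product over the contractible classes. -/

open Finset

namespace Vale.Agent.P167.Q

open Vale.Agent.P152 Vale.Agent.P167.Pc

namespace FacB

theorem half {a : ℝ} (h0 : 0 ≤ a) (h1 : a ≤ Real.pi / 3) : 1 / 2 ≤ Real.cos a := by
  rw [← Real.cos_pi_div_three]
  exact Real.cos_le_cos_of_nonneg_of_le_pi h0 (by linarith [Real.pi_pos]) h1

open Classical in
theorem one (hA : S_facA) {a : ℝ} (ha : Real.cos a ≠ 0) {M L : ℕ} [NeZero M] [NeZero L]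
    (hM : Even M) (hL : Even L) (ω : Tor M L → Bool) (W : Finset Edge) (j : Edge → ℝ)
    {l : Finset _} (hl : l ∈ cl M L ω) (h : ∀ w ∈ W, pe M L w ∉ l) :
    Real.cos (∑ e ∈ l, aL a M L W j ω e) / Real.cos a = 1 := by
  obtain ⟨e, he, rfl⟩ := mem_image.1 hl
  obtain ⟨e', rfl, hf⟩ := (mem_filter.1 he).2
  obtain ⟨k1, k2⟩ := (hA M L hM hL ω).2 e' hf
  have e1 : ∑ e ∈ univ.filter (Cls (nx (pt M L) ω) (pe M L e')), aL a M L W j ω e = a / 4 *
      ((∑ e ∈ univ.filter (Cls (nx (pt M L) ω) (pe M L e')), kap (pt M L) ω e : ℤ) : ℝ) := by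
    rw [Int.cast_sum, mul_sum]
    refine sum_congr rfl fun e he => ?_
    rw [aL, sum_eq_zero, add_zero]
    intro w hw
    obtain ⟨h1, rfl⟩ := mem_filter.1 hw
    exact (h w h1 he).elim
  rw [e1, k1]
  rcases k2 with k | k <;> rw [k]
  · rw [show a / 4 * ((4 : ℤ) : ℝ) = a by push_cast; ring, div_self ha]
  · rw [show a / 4 * ((-4 : ℤ) : ℝ) = -a by push_cast; ring, Real.cos_neg, div_self ha]

end FacB

open Classical in
theorem t_facB (hb : Pc.S_bas) (hA : S_facA) : T_facB := by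
  intro a M L _ _ h0 h1 hM hL _ ω W j
  have hc := FacB.half h0 h1
  have hp : 0 < Real.cos a := by linarith
  refine ⟨?_, fun hW => prod_eq_one fun l hl => FacB.one hA hp.ne' hM hL ω W j hl (by simp [hW])⟩
  have q := (hb.2.1 _ (nx (pt M L) ω)).1
  rw [← prod_filter_of_ne
    (p := fun l => l ∈ W.image fun w => univ.filter (Cls (nx (pt M L) ω) (pe M L w)))
    fun l hl h => ?_, abs_prod]
  · refine (prod_le_prod (g := fun _ => 2) (fun _ _ => abs_nonneg _) fun l _ => ?_).trans
      ((prod_const _).trans_le (pow_le_pow_right₀ one_le_two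
        ((card_le_card fun l hl => (mem_filter.1 hl).2).trans card_image_le)))
    rw [abs_div, abs_of_pos hp, div_le_iff₀ hp]
    exact (Real.abs_cos_le_one _).trans (by linarith)
  · by_contra k
    refine h (FacB.one hA hp.ne' hM hL ω W j hl fun w hw a => k (mem_image.2 ⟨w, hw, ?_⟩))
    obtain ⟨e, -, rfl⟩ := mem_image.1 hl
    exact filter_congr fun x _ =>
      ⟨q.trans (mem_filter.1 a).2, q.trans (q.symm (mem_filter.1 a).2)⟩

end Vale.Agent.P167.Q
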