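import Vale.Agent.P167.QStm
import Vale.Agent.P167.PcFacC

/-! P167, random-cluster model: the product over the contractible classes. -/

open MeasureTheory Filter Topology Finset

namespace Vale.Agent.P167.Q

open Vale.Agent.P152 Vale.Agent.P167.Pc

namespace FacC

open Classical in
lemma sum_aL (a : ℝ) (M L : ℕ) (W : Finset Edge) (j : Edge → ℝ) (ω : ZMod M × ZMod L → Bool)
    (l : Finset ((ZMod M × ZMod L) × Bool)) : ∑ e ∈ l, aL a M L W j ω e =
      a / 4 * (∑ e ∈ l, kap (pt M L) ω e : ℤ) +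
        ∑ w ∈ W, if pe M L w ∈ l then j w * sg (rf pz w) else 0 := by
  simp only [aL, sum_add_distrib, sum_filter]
  rw [sum_comm, Int.cast_sum, mul_sum]
  congr 1
  exact sum_congr rfl fun w _ => by simp

lemma cos_ne {a : ℝ} (h0 : 0 ≤ a) (h1 : a ≤ Real.pi / 3) : Real.cos a ≠ 0 := by
  have := Real.pi_pos
  exact (Real.cos_pos_of_mem_Ioo ⟨by linarith, by linarith⟩).ne'

end FacC

open Pc.FacC FacC Classical in
theorem t_facC (hb : Pc.S_bas) (hp : S_per) (hT : S_torA) (hA : S_facA) : T_facC := by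
  intro a M L _ _ h0 h1a hM hL hLM ω W j N hN hg
  have hc := cos_ne h0 h1a
  have eG := (hb.2.1 _ (nx (pt M L) ω)).1
  have eg := (hb.2.1 _ (nx pz (lf M L ω))).1
  have hl := hb.2.2.2.1 (lf M L ω)
  have self : ∀ w, w ∈ loop (lf M L ω) w := fun w => (hl w w).2 (eg.refl w)
  have cls : ∀ w ∈ W, ∀ w' ∈ W,
      Cls (nx (pt M L) ω) (pe M L w) (pe M L w') ↔ w' ∈ loop (lf M L ω) w := by
    intro w hw w' hw'
    obtain ⟨f1, f2⟩ := box hb hp hg hw
    have B := (hT M L hM hL ω).2 w f1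
    refine ⟨fun c => ?_, fun c => B.mapsTo c⟩
    obtain ⟨e, he, q⟩ := B.surjOn c
    rwa [← key hN hLM (f2 e he) ((box hb hp hg hw').2 w' (self w')) q]
  have feq : ∀ a b, Cls (nx (pt M L) ω) a b →
      univ.filter (Cls (nx (pt M L) ω) a) = univ.filter (Cls (nx (pt M L) ω) b) := fun a b c =>
    filter_congr fun e _ => ⟨eG.trans (eG.symm c), eG.trans c⟩
  unfold cl
  rw [← prod_subset (s₁ := W.image fun w => univ.filter (Cls (nx (pt M L) ω) (pe M L w)))]
  · refine prod_im W _ _ _ _ (fun a ha b hb' => ⟨fun c => ?_, fun c => ?_⟩) fun w hw => ?_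
    · have c1 : pe M L b ∈ univ.filter (Cls (nx (pt M L) ω) (pe M L a)) := by
        rw [c]
        exact mem_filter.2 ⟨mem_univ _, eG.refl _⟩
      have c2 := (hl a b).1 ((cls a ha b hb').1 (mem_filter.1 c1).2)
      exact Set.ext fun e => by
        rw [hl, hl]
        exact ⟨eg.trans (eg.symm c2), eg.trans c2⟩
    · exact feq _ _ ((cls a ha b hb').2 (c ▸ self b))
    · rw [sum_aL, ((hA M L hM hL ω).2 w (box hb hp hg hw).1).1]
      congr 3
      refine sum_congr rfl fun w' hw' => ?_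
      simp only [mem_filter, mem_univ, true_and, cls w hw w' hw', ul]
      split_ifs <;> simp
  · intro l hl'
    obtain ⟨w, hw, rfl⟩ := mem_image.1 hl'
    exact mem_image.2 ⟨pe M L w, mem_filter.2 ⟨mem_univ _, w, rfl, (box hb hp hg hw).1⟩, rfl⟩
  · intro l h1 h2
    obtain ⟨_, he, rfl⟩ := mem_image.1 h1
    obtain ⟨e, rfl, hf⟩ := (mem_filter.1 he).2
    obtain ⟨a1, a2⟩ := (hA M L hM hL ω).2 e hf
    rw [sum_aL, a1, sum_eq_zero fun w hw => if_neg fun c =>
      h2 (mem_image.2 ⟨w, hw, (feq _ _ (mem_filter.1 c).2).symm⟩), add_zero]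
    rcases a2 with a3 | a3
    · rw [a3, show a / 4 * ((4 : ℤ) : ℝ) = a by push_cast; ring, div_self hc]
    · rw [a3, show a / 4 * ((-4 : ℤ) : ℝ) = -a by push_cast; ring, Real.cos_neg, div_self hc]

end Vale.Agent.P167.Q
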