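import Vale.Agent.P167.QStm

open MeasureTheory Filter Topology Finset

namespace Vale.Agent.P167.Q

open Vale.Agent.P152 Vale.Agent.P167.Pc

namespace Fe

variable {X E : Type} [DecidableEq E]

theorem chi_nonneg (p : Prop) : 0 ≤ chi p := by
  unfold chi
  split_ifs <;> norm_num

theorem chi_and (p q : Prop) : chi (p ∧ q) = chi p * chi q := by
  unfold chi
  by_cases hp : p <;> by_cases hq : q <;> simp [hp, hq]

theorem split (S : Finset E) {e : E} (he : e ∈ S) (f : Finset E → ℝ) :
    ∑ A ∈ S.powerset, f A = ∑ A ∈ (S.erase e).powerset, (f A + f (insert e A)) := by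
  rw [sum_add_distrib, ← sum_powerset_insert (notMem_erase e S), insert_erase he]

theorem cf_ins (S : Finset E) (ξ : E → Bool) (A : Finset E) {e : E} (he : e ∈ S) :
    cf S ξ (insert e A) = Function.update (cf S ξ A) e true := by
  funext v
  by_cases h : v = e
  · subst h
    simp [cf, he]
  · simp [cf, h]

theorem wt_pos {r : ℝ} (hr : 0 < r) (a b : E → X) (R : X → X → Prop) (S : Finset E)
    (ω : E → Bool) : 0 < wt r a b R S ω := by
  unfold wt
  positivity

theorem one (hr : T_rat) {r : ℝ} (a b : E → X) (R : X → X → Prop) (S : Finset E) (ξ : E → Bool)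
    (s : Bool) (G : (E → Bool) → ℝ) (h1 : 1 ≤ r) {e : E} (he : e ∈ S) (hG : ∀ ω, 0 ≤ G ω) :
    ex r a b R S ξ (fun ω => G (Function.update ω e s)) ≤
      (1 + r) * ex r a b R S ξ fun ω => G ω * chi (ω e = s) := by
  have r0 : 0 < r := by linarith
  unfold ex
  rw [← mul_div_assoc]
  refine div_le_div_of_nonneg_right ?_ (sum_nonneg fun A _ => (wt_pos r0 a b R S _).le)
  unfold sm
  rw [split S he, split S he, mul_sum]
  refine sum_le_sum fun A hA => ?_
  have h0 : cf S ξ A e = false := by
    have : e ∉ A := fun h => notMem_erase e S (mem_powerset.1 hA h)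
    simp [cf, he, this]
  rw [cf_ins S ξ A he]
  have hw := (hr X E a b R S (cf S ξ A) e he h0).2.2 r r0
  have p0 := wt_pos r0 a b R S (cf S ξ A)
  have ri : r⁻¹ ≤ r := (inv_le_one_of_one_le₀ h1).trans h1
  have rr : r * r⁻¹ = 1 := mul_inv_cancel₀ r0.ne'
  have a1 : wt r a b R S (Function.update (cf S ξ A) e true) ≤ r * wt r a b R S (cf S ξ A) := by
    rw [hw]
    split_ifs <;> nlinarith
  have a2 : wt r a b R S (cf S ξ A) ≤ r * wt r a b R S (Function.update (cf S ξ A) e true) := by
    rw [hw]
    split_ifs
    · nlinarith [mul_le_mul h1 h1 zero_le_one r0.le]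
    · nlinarith
  simp only [Function.update_idem, Function.update_self, h0]
  cases s
  · rw [show Function.update (cf S ξ A) e false = cf S ξ A from Function.update_eq_self_iff.2 h0.symm]
    simp only [chi, if_true, Bool.true_eq_false, if_false]
    nlinarith [mul_le_mul_of_nonneg_right a1 (hG (cf S ξ A))]
  · simp only [chi, if_true, Bool.false_eq_true, if_false]
    nlinarith [mul_le_mul_of_nonneg_right a2 (hG (Function.update (cf S ξ A) e true))]

end Fe

open Fe in
theorem t_fe (_hl : T_lin) (hr : T_rat) : T_fe := by
  intro X E _ r a b R S T ξ s G h1 hT hG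
  induction T using Finset.induction_on generalizing G with
  | empty => simp [chi]
  | insert e T he ih =>
    have k1 := one hr a b R S ξ s (fun ω => G fun v => if v ∈ T then s else ω v) h1
      (hT (mem_insert_self e T)) fun ω => hG _
    have k2 := ih (fun ω => G ω * chi (ω e = s)) ((subset_insert e T).trans hT)
      fun ω => mul_nonneg (hG ω) (chi_nonneg _)
    simp only [if_neg he] at k2
    have e1 : (fun ω : E → Bool => G fun v => if v ∈ insert e T then s else ω v) =
        fun ω => G fun v => if v ∈ T then s else Function.update ω e s v := by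
      funext ω
      congr 1
      funext v
      by_cases h : v = e
      · subst h
        simp
      · simp [h]
    have e2 : (fun ω : E → Bool => G ω * chi (∀ v ∈ insert e T, ω v = s)) =
        fun ω => G ω * chi (ω e = s) * chi (∀ v ∈ T, ω v = s) := by
      funext ω
      rw [forall_mem_insert, chi_and, mul_assoc]
    rw [e1, e2, card_insert_of_notMem he, pow_succ', mul_assoc]
    exact k1.trans (mul_le_mul_of_nonneg_left k2 (by linarith))

end Vale.Agent.P167.Q
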