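import Vale.Agent.P167.QStm

open MeasureTheory Filter Topology Finset

namespace Vale.Agent.P167.Q

open Vale.Agent.P152 Vale.Agent.P167.Pc

namespace Fkg

variable {X E : Type} [DecidableEq E]

theorem cf_mono (S : Finset E) (ξ : E → Bool) {A A' : Finset E} (h : A ⊆ A') :
    cf S ξ A ≤ cf S ξ A' := by
  intro v
  unfold cf
  split_ifs
  · by_cases hv : v ∈ A
    · simp [hv, h hv]
    · simp [hv]
  · exact le_rfl

theorem cf_insert (S : Finset E) (ξ : E → Bool) (A : Finset E) {e : E} (he : e ∈ S) :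
    cf S ξ (insert e A) = Function.update (cf S ξ A) e true := by
  funext v
  by_cases hv : v = e
  · subst hv
    simp [cf, he]
  · simp [cf, hv]

theorem cf_false (S : Finset E) (ξ : E → Bool) (A : Finset E) {e : E} (he : e ∈ S) (h : e ∉ A) :
    cf S ξ A e = false := by
  simp [cf, he, h]

omit [DecidableEq E] in
theorem cn_mono (a b : E → X) (R : X → X → Prop) {ω ω' : E → Bool} (h : ω ≤ ω') {x y : X}
    (hc : Cn a b R ω x y) : Cn a b R ω' x y := by
  unfold Cn at hc ⊢
  induction hc with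
  | rel u w huw =>
    refine Relation.EqvGen.rel _ _ ?_
    rcases huw with ⟨v, hv, h1, h2⟩ | hR
    · refine Or.inl ⟨v, ?_, h1, h2⟩
      have h3 := h v
      rw [hv] at h3
      exact top_le_iff.1 h3
    · exact Or.inr hR
  | refl u => exact Relation.EqvGen.refl u
  | symm u w _ ih => exact Relation.EqvGen.symm _ _ ih
  | trans u w z _ _ ih1 ih2 => exact Relation.EqvGen.trans _ _ _ ih1 ih2

omit [DecidableEq E] in
theorem wt_pos {r : ℝ} (hr : 0 < r) (a b : E → X) (R : X → X → Prop) (S : Finset E)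
    (ω : E → Bool) : 0 < wt r a b R S ω := by
  unfold wt
  positivity

end Fkg

open Fkg in
theorem t_fkg (hl : T_lin) (hh : T_hol) (hr : T_rat) : T_fkg := by
  have _hl := hl
  intro X E _ r a b R S ξ F G h1 hF hG
  have r0 : 0 < r := by linarith
  have hb : ∀ A, 0 < G (cf S ξ A) + (1 - G (cf S ξ ∅)) := fun A => by
    have := hG (cf_mono S ξ (empty_subset A))
    linarith
  have key := hh E S (fun A => wt r a b R S (cf S ξ A))
    (fun A => wt r a b R S (cf S ξ A) * (G (cf S ξ A) + (1 - G (cf S ξ ∅))))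
    (fun A => F (cf S ξ A)) (fun A => wt_pos r0 a b R S _)
    (fun A => mul_pos (wt_pos r0 a b R S _) (hb A)) (fun A A' h _ => hF (cf_mono S ξ h)) (by
      intro A A' e hA _ he heA'
      have heA : e ∉ A := fun h => heA' (hA h)
      have e1 := (hr X E a b R S (cf S ξ A) e he (cf_false S ξ A he heA)).2.2 r r0
      have e2 := (hr X E a b R S (cf S ξ A') e he (cf_false S ξ A' he heA')).2.2 r r0
      rw [← cf_insert S ξ A he] at e1
      rw [← cf_insert S ξ A' he] at e2
      have hg := hG (cf_mono S ξ (subset_insert e A'))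
      have hw := mul_pos (wt_pos r0 a b R S (cf S ξ A)) (wt_pos r0 a b R S (cf S ξ A'))
      have hi : r⁻¹ ≤ r := (inv_le_one_of_one_le₀ h1).trans h1
      have hi0 : 0 < r⁻¹ := inv_pos.2 r0
      have fin : ∀ x y : ℝ, 0 < x → x ≤ y →
          wt r a b R S (cf S ξ A) * x * (wt r a b R S (cf S ξ A') *
            (G (cf S ξ A') + (1 - G (cf S ξ ∅)))) ≤
          wt r a b R S (cf S ξ A) * (wt r a b R S (cf S ξ A') * y *
            (G (cf S ξ (insert e A')) + (1 - G (cf S ξ ∅)))) := by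
        intro x y hx hxy
        have h2 : x * (G (cf S ξ A') + (1 - G (cf S ξ ∅))) ≤
            y * (G (cf S ξ (insert e A')) + (1 - G (cf S ξ ∅))) :=
          mul_le_mul hxy (by linarith) (hb A').le (by linarith)
        have h3 := mul_le_mul_of_nonneg_left h2 hw.le
        nlinarith
      simp only [e1, e2]
      split_ifs with c1 c2 c2
      · exact fin r r r0 le_rfl
      · exact absurd (cn_mono a b R (cf_mono S ξ hA) c1) c2
      · exact fin _ _ hi0 hi
      · exact fin _ _ hi0 le_rfl)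
  have hZ : 0 < ∑ A ∈ S.powerset, wt r a b R S (cf S ξ A) :=
    sum_pos (fun A _ => wt_pos r0 a b R S _) ⟨∅, empty_mem_powerset S⟩
  have s1 : ∑ A ∈ S.powerset, wt r a b R S (cf S ξ A) * (G (cf S ξ A) + (1 - G (cf S ξ ∅))) =
      ∑ A ∈ S.powerset, wt r a b R S (cf S ξ A) * G (cf S ξ A) +
        (1 - G (cf S ξ ∅)) * ∑ A ∈ S.powerset, wt r a b R S (cf S ξ A) := by
    rw [mul_sum, ← sum_add_distrib]
    exact sum_congr rfl fun A _ => by ring
  have s2 : ∑ A ∈ S.powerset, wt r a b R S (cf S ξ A) * (G (cf S ξ A) + (1 - G (cf S ξ ∅))) *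
        F (cf S ξ A) =
      ∑ A ∈ S.powerset, wt r a b R S (cf S ξ A) * (F (cf S ξ A) * G (cf S ξ A)) +
        (1 - G (cf S ξ ∅)) * ∑ A ∈ S.powerset, wt r a b R S (cf S ξ A) * F (cf S ξ A) := by
    rw [mul_sum, ← sum_add_distrib]
    exact sum_congr rfl fun A _ => by ring
  simp only [s1, s2] at key
  unfold ex sm
  rw [div_mul_div_comm, div_le_div_iff₀ (mul_pos hZ hZ) hZ]
  have k2 : (∑ A ∈ S.powerset, wt r a b R S (cf S ξ A) * F (cf S ξ A)) *
      (∑ A ∈ S.powerset, wt r a b R S (cf S ξ A) * G (cf S ξ A)) ≤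
      (∑ A ∈ S.powerset, wt r a b R S (cf S ξ A) * (F (cf S ξ A) * G (cf S ξ A))) *
        ∑ A ∈ S.powerset, wt r a b R S (cf S ξ A) := by nlinarith
  have k3 := mul_le_mul_of_nonneg_right k2 hZ.le
  nlinarith

end Vale.Agent.P167.Q
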