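import Vale.Agent.P167.QStm2
import Vale.Agent.P152.CChain

/-! P167: the gluing inequality for chains. -/

open MeasureTheory Filter Topology Finset

namespace Vale.Agent.P167.Q

open Vale.Agent.P152 Vale.Agent.P167.Pc

namespace Glu

variable {S : Type} [Fintype S]

theorem chn_one [DecidableEq S] (A : Matrix S S ℝ) (e : S → S → ℝ) (n a : ℕ) :
    chn A e n a 1 = ∑ s, ∑ t, e s t * (A ^ n) s t := by
  have h1 : cchD 0 fun _ : ℕ → S => (1 : ℝ) := fun _ _ _ => rfl
  have e2 : chn A e n a 1 = cchQ A e (0 + n) 0 fun _ => 1 := by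
    rw [zero_add]
    refine Finset.sum_congr rfl fun o _ => ?_
    rw [mul_comm (e _ _), mul_assoc]
    rfl
  rw [e2, cch_RR A (n := 0) (a := 0) h1 le_rfl, cchQ, cchP,
    ← (Equiv.funUnique (Fin 1) S).symm.sum_comp]
  simp

theorem chn_eq (A : Matrix S S ℝ) (e : S → S → ℝ) (n a : ℕ) {M : ℕ} {G : (ℤ → S) → ℝ}
    (hG : ∀ o o' : ℤ → S, (∀ x : ℤ, 0 ≤ x → x ≤ M → o x = o' x) → G o = G o') :
    chn A e n a G = cchQ A e n a fun p => G fun x => p x.toNat := by
  refine Finset.sum_congr rfl fun o _ => ?_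
  rw [hG _ (fun x => o ((x.toNat + a : ℕ) : ZMod (n + 1))) fun x hx _ => by
    rw [← Int.cast_natCast (R := ZMod (n + 1)) (_ + a)]
    congr 2
    omega, mul_comm (e _ _), mul_assoc]
  rfl

theorem cchQ_le {A : Matrix S S ℝ} (hA : ∀ s t, 0 ≤ A s t) {e e' : S → S → ℝ} {C : ℝ}
    (h : ∀ s t, e s t ≤ C * e' s t) (n a : ℕ) {g : (ℕ → S) → ℝ} (hg : ∀ p, 0 ≤ g p) :
    cchQ A e n a g ≤ C * cchQ A e' n a g := by
  unfold cchQ cchP
  rw [Finset.mul_sum]
  refine Finset.sum_le_sum fun o _ => ?_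
  rw [mul_left_comm C, ← mul_assoc C]
  exact mul_le_mul_of_nonneg_left (mul_le_mul_of_nonneg_right (h _ _) (hg _))
    (Finset.prod_nonneg fun _ _ => hA _ _)

end Glu

open Glu in
theorem t_glu : T_glu := by
  intro S _ _ A u w k M C hA hC
  refine ⟨fun n a => chn_one A _ n a, chn_one A _ M 0, fun G h0 hG => ?_⟩
  have hg : cchD M fun p : ℕ → S => G fun x => p x.toNat := fun p q hpq =>
    hG _ _ fun x _ _ => hpq _ (by omega)
  rw [chn_eq A _ _ _ hG, chn_eq A _ _ _ hG, show M + 2 * k + 1 = M + k + (k + 1) by omega,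
    cch_RR A hg le_rfl, cch_LL A hg]
  refine cchQ_le hA (fun s t => (hC s t).trans (le_of_eq ?_)) M 0 fun p => h0 _
  congr 1
  rw [Finset.sum_mul]
  refine Finset.sum_congr rfl fun x _ => ?_
  rw [Finset.mul_sum, Finset.sum_mul]
  exact Finset.sum_congr rfl fun y _ => by ring

end Vale.Agent.P167.Q
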