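import Vale.Agent.P167.QStm

/-! P167, random-cluster model: the inequality of Holley. -/

open MeasureTheory Filter Topology Finset

namespace Vale.Agent.P167.Q

open Vale.Agent.P152 Vale.Agent.P167.Pc

namespace Hol

theorem step {E : Type} [DecidableEq E] {S : Finset E} {u u' : Finset E → ℝ}
    (hu' : ∀ A, 0 < u' A) (h : ∀ A A' e, A ⊆ A' → A' ⊆ S → e ∈ S → e ∉ A' →
      u (insert e A) * u' A' ≤ u A * u' (insert e A')) {D B : Finset E} (hD : D ⊆ B) (hB : B ⊆ S)
    (C : Finset E) : C ⊆ S → Disjoint C B → u (D ∪ C) * u' B ≤ u D * u' (B ∪ C) := by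
  induction C using Finset.induction_on with
  | empty => intro _ _; rw [union_empty, union_empty]
  | insert e C he ih =>
    intro h1 h2
    rw [insert_subset_iff] at h1
    rw [disjoint_insert_left] at h2
    have h3 := ih h1.2 h2.2
    have h4 := h (D ∪ C) (B ∪ C) e (union_subset_union_left hD) (union_subset hB h1.2) h1.1
      (fun hh => (mem_union.mp hh).elim h2.1 he)
    rw [union_insert, union_insert]
    refine le_of_mul_le_mul_right ?_ (hu' (B ∪ C))
    have h5 := mul_le_mul_of_nonneg_right h4 (hu' B).le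
    have h6 := mul_le_mul_of_nonneg_right h3 (hu' (insert e (B ∪ C))).le
    linarith

end Hol

theorem t_hol : T_hol := by
  intro E _ S u u' f hu hu' hf h
  have h1 : ∀ ⦃A⦄, A ⊆ S → ∀ ⦃B⦄, B ⊆ S → u A * u' B ≤ u (A ∩ B) * u' (A ∪ B) := by
    intro A hA B hB
    have := Hol.step hu' h (inter_subset_right (s₁ := A) (s₂ := B)) hB (A \ B)
      (sdiff_subset.trans hA) sdiff_disjoint
    rwa [union_comm (A ∩ B), sdiff_union_inter, union_sdiff_self_eq_union, union_comm B] at this
  have h2 := Finset.four_functions_theorem (f₁ := fun A => u A * max 0 (f A - f ∅)) (f₂ := u')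
    (f₃ := u) (f₄ := fun A => u' A * max 0 (f A - f ∅)) S
    (fun A => mul_nonneg (hu A).le (le_max_left _ _)) (fun A => (hu' A).le) (fun A => (hu A).le)
    (fun A => mul_nonneg (hu' A).le (le_max_left _ _)) (fun A hA B hB => by
      have h3 : max 0 (f A - f ∅) ≤ max 0 (f (A ∪ B) - f ∅) := max_le_max le_rfl
        (sub_le_sub_right (hf _ _ subset_union_left (union_subset hA hB)) _)
      have h4 := mul_le_mul (h1 hA hB) h3 (le_max_left _ _) (mul_pos (hu _) (hu' _)).le
      linarith) (Subset.refl _) (Subset.refl _)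
  rw [powerset_infs_powerset_self, powerset_sups_powerset_self] at h2
  have h5 : ∀ v : Finset E → ℝ, ∑ A ∈ S.powerset, v A * max 0 (f A - f ∅) =
      ∑ A ∈ S.powerset, v A * f A - (∑ A ∈ S.powerset, v A) * f ∅ := by
    intro v
    rw [sum_mul, ← sum_sub_distrib]
    refine sum_congr rfl (fun A hA => ?_)
    rw [max_eq_right (sub_nonneg.mpr (hf _ _ (empty_subset _) (mem_powerset.mp hA))), mul_sub]
  rw [h5, h5] at h2
  linarith

end Vale.Agent.P167.Q
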