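import Vale.Agent.P167.QStm

/-! P167, random-cluster model: invariance under automorphisms. -/

open Finset

namespace Vale.Agent.P167.Q

open Vale.Agent.P152 Vale.Agent.P167.Pc

namespace Iso

variable {X E : Type} {a b : E → X} {ρ : E ≃ E} {π : X ≃ X} {R R' : X → X → Prop}

/-- the two maps are compatible with the ends -/
def Cp (a b : E → X) (ρ : E ≃ E) (π : X ≃ X) : Prop := ∀ v,
  (a (ρ v) = π (a v) ∧ b (ρ v) = π (b v)) ∨ (a (ρ v) = π (b v) ∧ b (ρ v) = π (a v))

theorem cn_iff (h : Cp a b ρ π) (hR : ∀ x y, R' (π x) (π y) ↔ R x y) (ω : E → Bool) (x y : X) :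
    Cn a b R' ω (π x) (π y) ↔ Cn a b R (ω ∘ ρ) x y := by
  constructor
  · have k : ∀ u w, Cn a b R' ω u w → Cn a b R (ω ∘ ρ) (π.symm u) (π.symm w) := by
      intro u w k
      induction k with
      | rel u w k =>
        rcases k with ⟨v, hv, rfl, rfl⟩ | k
        · obtain ⟨v, rfl⟩ := ρ.surjective v
          rcases h v with ⟨h1, h2⟩ | ⟨h1, h2⟩ <;> rw [h1, h2, π.symm_apply_apply, π.symm_apply_apply]
          · exact .rel _ _ (.inl ⟨v, hv, rfl, rfl⟩)
          · exact .symm _ _ (.rel _ _ (.inl ⟨v, hv, rfl, rfl⟩))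
        · exact .rel _ _ (.inr ((hR _ _).1 (by simpa using k)))
      | refl u => exact .refl _
      | symm u w _ ih => exact .symm _ _ ih
      | trans u w z _ _ i1 i2 => exact .trans _ _ _ i1 i2
    intro q
    simpa using k _ _ q
  · intro k
    induction k with
    | rel u w k =>
      rcases k with ⟨v, hv, rfl, rfl⟩ | k
      · rcases h v with ⟨h1, h2⟩ | ⟨h1, h2⟩
        · exact .rel _ _ (.inl ⟨ρ v, hv, h1, h2⟩)
        · exact .symm _ _ (.rel _ _ (.inl ⟨ρ v, hv, h1, h2⟩))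
      · exact .rel _ _ (.inr ((hR _ _).2 k))
    | refl u => exact .refl _
    | symm u w _ ih => exact .symm _ _ ih
    | trans u w z _ _ i1 i2 => exact .trans _ _ _ i1 i2

theorem end_iff (h : Cp a b ρ π) (v : E) (x : X) :
    (π x = a (ρ v) ∨ π x = b (ρ v)) ↔ (x = a v ∨ x = b v) := by
  rcases h v with ⟨h1, h2⟩ | ⟨h1, h2⟩ <;> rw [h1, h2, π.apply_eq_iff_eq, π.apply_eq_iff_eq]
  exact or_comm

theorem ends (h : Cp a b ρ π) (S : Finset E) :
    a '' (S.map ρ.toEmbedding : Set E) ∪ b '' (S.map ρ.toEmbedding : Set E) =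
      π '' (a '' (S : Set E) ∪ b '' (S : Set E)) := by
  ext x
  obtain ⟨x, rfl⟩ := π.surjective x
  rw [π.injective.mem_set_image, coe_map, Set.image_image, Set.image_image]
  simp only [Set.mem_union, Set.mem_image, ← exists_or, ← and_or_left]
  refine exists_congr fun v => and_congr_right fun _ => ?_
  have k := end_iff h v x
  simpa only [eq_comm, Equiv.coe_toEmbedding] using k

theorem kk_eq (h : Cp a b ρ π) (hR : ∀ x y, R' (π x) (π y) ↔ R x y) (S : Finset E)
    (ω : E → Bool) : kk a b R' (S.map ρ.toEmbedding) ω = kk a b R S (ω ∘ ρ) := by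
  unfold kk
  symm
  rw [ends h, ← Set.ncard_image_of_injective _ (Set.image_injective.2 π.injective),
    Set.image_image, Set.image_image]
  refine congrArg _ (Set.image_congr fun x _ => ?_)
  ext y
  obtain ⟨y, rfl⟩ := π.surjective y
  rw [π.injective.mem_set_image]
  exact (cn_iff h hR ω x y).symm

theorem wt_eq (h : Cp a b ρ π) (hR : ∀ x y, R' (π x) (π y) ↔ R x y) (r : ℝ) (S : Finset E)
    (ω : E → Bool) : wt r a b R' (S.map ρ.toEmbedding) ω = wt r a b R S (ω ∘ ρ) := by
  unfold wt cnt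
  rw [kk_eq h hR, filter_map, card_map]
  rfl

variable [DecidableEq E]

theorem sm_eq (ρ : E ≃ E) (S : Finset E) (f : (E → Bool) → ℝ) :
    sm (S.map ρ.toEmbedding) (fun _ => false) (fun ω => f (ω ∘ ρ)) = sm S (fun _ => false) f := by
  unfold sm
  symm
  refine sum_bij (fun A _ => A.map ρ.toEmbedding)
    (fun A hA => mem_powerset.2 (map_subset_map.2 (mem_powerset.1 hA)))
    (fun A _ B _ k => map_injective _ k) (fun B hB => ?_) fun A _ => congrArg f ?_
  · obtain ⟨A, h1, h2⟩ := subset_map_iff.1 (mem_powerset.1 hB)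
    exact ⟨A, mem_powerset.2 h1, h2.symm⟩
  · funext v
    simp [cf]

theorem ex_eq (h : Cp a b ρ π) (hR : ∀ x y, R' (π x) (π y) ↔ R x y) (r : ℝ) (S : Finset E)
    (F : (E → Bool) → ℝ) :
    ex r a b R' (S.map ρ.toEmbedding) (fun _ => false) (fun ω => F (ω ∘ ρ)) =
      ex r a b R S (fun _ => false) F := by
  unfold ex
  rw [← sm_eq ρ S, ← sm_eq ρ S (wt r a b R S)]
  simp only [← wt_eq h hR]

end Iso

open Iso in
theorem t_iso : T_iso := by
  intro r ρ π h S F
  refine ⟨ex_eq h (fun _ _ => Iff.rfl) r S F, ex_eq h (fun x y => ?_) r S F⟩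
  have k : ∀ x, (∃ v ∉ S.map ρ.toEmbedding, π x = ea v ∨ π x = eb v) ↔
      ∃ v ∉ S, x = ea v ∨ x = eb v := fun x => by
    rw [ρ.surjective.exists]
    exact exists_congr fun v => and_congr (by simp) (end_iff h v x)
  exact and_congr (k x) (k y)

end Vale.Agent.P167.Q
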