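import Vale.Agent.P167.QStm

/-! P167, random-cluster model: the limit at a fixed mesh and the conclusion. -/

open MeasureTheory Filter Topology Finset

namespace Vale.Agent.P167.Q

open Vale.Agent.P152 Vale.Agent.P167.Pc

theorem q_lim (ht : T_tex) {a : ℝ} {φ : Measure Bond} (h0 : 0 ≤ a) (h3 : a ≤ Real.pi / 3)
    (hφ : FKm (2 * Real.cos a) φ) {P : Measure Ori} (hP : IsLimit (2 * Real.cos (a / 2)) P)
    (W : Finset Edge) (j : Edge → ℝ) (N : ℕ) :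
    |∫ o, Real.cos (∑ e ∈ W, j e * sg (o e)) ∂P - ∫ ω, chi (Good W N ω) * PL a W j ω ∂φ| ≤
      2 ^ W.card * (1 - ∫ ω, chi (Good W N ω) ∂φ) := by
  obtain ⟨x, h1, h2⟩ := hP.2 (fun o => Real.cos (∑ e ∈ W, j e * sg (o e)))
    ⟨W, fun o o' h => congrArg Real.cos (Finset.sum_congr rfl fun e he => by rw [h e he])⟩
  refine le_of_forall_pos_le_add fun ε hε => ?_
  obtain ⟨L0, hL⟩ := ht a φ h0 h3 hφ W j N ε hε
  refine le_of_tendsto ((h2.sub_const _).abs) ?_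
  filter_upwards [eventually_ge_atTop L0] with l hl
  have hm : Tendsto (fun m : ℕ => 2 * m + 1) atTop atTop :=
    tendsto_atTop_mono (fun m => by simp only [id]; omega) tendsto_id
  refine le_of_tendsto ((((h1 l).comp hm).sub_const _).abs) ?_
  filter_upwards [eventually_ge_atTop l] with m hm
  exact hL (2 * m + 1 + 1) (2 * l + 2) ⟨m + 1, by ring⟩ ⟨l + 1, by ring⟩ (by omega) (by omega)

theorem ang {q : ℝ} (h1 : 1 ≤ q) (h4 : q ≤ 4) : 0 ≤ Real.arccos (√q / 2) ∧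
    Real.arccos (√q / 2) ≤ Real.pi / 3 ∧ 2 * Real.cos (Real.arccos (√q / 2)) = √q ∧
    1 ≤ √q ∧ √q ≤ 2 := by
  have a1 : 1 ≤ √q := Real.one_le_sqrt.2 h1
  have a2 : √q ≤ 2 := Real.sqrt_le_iff.2 ⟨by norm_num, by linarith⟩
  refine ⟨Real.arccos_nonneg _, ?_, by rw [Real.cos_arccos (by linarith) (by linarith)]; ring,
    a1, a2⟩
  have : Real.arccos (1 / 2) = Real.pi / 3 := by
    rw [← Real.cos_pi_div_three]
    exact Real.arccos_cos (by linarith [Real.pi_pos]) (by linarith [Real.pi_pos])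
  rw [← this]
  exact Real.arccos_le_arccos (by linarith)

theorem cc {a : ℝ} (h0 : 0 ≤ a) (h3 : a ≤ Real.pi / 3) :
    1 < 2 * Real.cos (a / 2) ∧ 2 * Real.cos (a / 2) ≤ 2 ∧
      Real.arcsin (2 * Real.cos (a / 2) / 2) = (Real.pi - a) / 2 := by
  have hp := Real.pi_pos
  have h1 : Real.cos (Real.pi / 3) < Real.cos (a / 2) :=
    Real.cos_lt_cos_of_nonneg_of_le_pi (by linarith) (by linarith) (by linarith)
  rw [Real.cos_pi_div_three] at h1
  refine ⟨by linarith, by linarith [Real.cos_le_one (a / 2)], ?_⟩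
  rw [mul_div_cancel_left₀ _ two_ne_zero, ← Real.sin_pi_div_two_sub,
    Real.arcsin_sin (by linarith) (by linarith)]
  ring

theorem q_goal {q : ℝ} (h1 : 1 ≤ q) (h4 : q ≤ 4) {φ : Measure Bond} (hφ : FKm √q φ)
    (hG : ∀ c : ℝ, 1 < c → c ≤ 2 → ∃ P : Measure Ori, IsLimit c P ∧ ∃ σ : ℝ,
      σ ^ 2 = 1 / Real.arcsin (c / 2) ∧ ConvGFF P σ)
    (ht : T_tex) (hc : T_cut) (ha : ArmQ φ) (hr : S_rep) (hp0 : S_phi) (hp : T_phi)
    (hg : S_gauss) :
    (∀ᵐ ω ∂φ, ∀ e, (loop ω e).Finite) ∧ ∀ f : ℝ × ℝ → ℝ, IsTest f →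
      (∀ δ > 0, (∀ ω, {l ∈ loops ω | mass δ f l ≠ 0}.Finite) ∧ Integrable (Phq q δ f) φ) ∧
      Tendsto (fun δ => ∫ ω, Phq q δ f ω ∂φ) (𝓝[>] 0)
        (𝓝 (Real.exp (-(4 * Real.pi / Real.arccos (-√q / 2) / (4 * Real.pi)) * gcov f f))) := by
  obtain ⟨a0, a3, ac, -, -⟩ := ang h1 h4
  obtain ⟨c1, c2, c3⟩ := cc a0 a3
  obtain ⟨P, hP, σ, hσ, hG⟩ := hG _ c1 c2
  have hc := hc _ φ a0 a3 hφ.1 ha
  refine ⟨ae_all_iff.2 fun e => ?_, fun f hf => ⟨fun δ hδ => ?_, ?_⟩⟩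
  · filter_upwards [(hc {e} 0 _ fun _ _ => rfl).1] with ω h using h e (mem_singleton_self e)
  · obtain ⟨X, g, W, j, h⟩ := hr δ hδ f hf
    exact ⟨fun ω => (hp0 δ f X g W j h ω).1, (hc W j _ fun ω => hp q δ f X g W j h1 h4 h ω).2.1⟩
  · have hp' := Real.pi_pos
    have e2 : -(σ ^ 2 * gcov f f) / 2 =
        -(4 * Real.pi / Real.arccos (-√q / 2) / (4 * Real.pi)) * gcov f f := by
      have : Real.pi - Real.arccos (√q / 2) ≠ 0 := by linarith
      rw [hσ, c3, neg_div (2 : ℝ) √q, Real.arccos_neg]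
      field_simp
    have t := hg P σ hG f hf
    rw [e2] at t
    refine t.congr' ?_
    filter_upwards [self_mem_nhdsWithin] with δ hδ
    obtain ⟨X, g, W, j, h⟩ := hr δ hδ f hf
    have k1 := (hc W j _ fun ω => hp q δ f X g W j h1 h4 h ω).2.2
    have k2 : Tendsto (fun N => 2 ^ W.card * (1 - ∫ ω, chi (Good W N ω) ∂φ)) atTop (𝓝 0) := by
      simpa using ((ha W).const_sub 1).const_mul ((2 : ℝ) ^ W.card)
    have k3 := le_of_tendsto_of_tendsto' ((k1.const_sub _).abs) k2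
      (q_lim ht a0 a3 (by rw [ac]; exact hφ) hP W j)
    simp only [h.ht]
    exact sub_eq_zero.1 (abs_nonpos_iff.1 k3)

end Vale.Agent.P167.Q
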