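import Vale.Agent.P167.QStm

/-! P167, random-cluster model: linearity and differences of increasing functions. -/

open Finset

namespace Vale.Agent.P167.Q

open Vale.Agent.P152 Vale.Agent.P167.Pc

namespace Lin

theorem sm_univ {E : Type} [DecidableEq E] [Fintype E] (ξ : E → Bool) (f : (E → Bool) → ℝ) :
    sm univ ξ f = ∑ ω, f ω := by
  rw [sm, powerset_univ]
  refine Fintype.sum_bijective (cf univ ξ) ⟨fun A A' h => ?_, fun ω => ?_⟩ _ _ fun _ => rfl
  · ext v
    simpa [cf] using congrFun h v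
  · refine ⟨univ.filter fun v => ω v = true, funext fun v => ?_⟩
    simp [cf]

theorem op_mono {E : Type} (v : E) {ω ω' : E → Bool} (h : ω ≤ ω') : op v ω ≤ op v ω' := by
  have k := Bool.le_iff_imp.1 (h v)
  unfold op
  cases e : ω v <;> cases e' : ω' v <;> simp_all

theorem key {T : Finset (ℤ × ℤ)} {F : Bond → ℝ} {b : ℝ} (hb : ∀ ω, |F ω| ≤ b)
    (hF : Dep (T : Set (ℤ × ℤ)) F) {ω ω' : Bond} (h : ω ≤ ω') :
    |F ω - F ω'| ≤ 2 * b * ∑ v ∈ T, op v ω' - 2 * b * ∑ v ∈ T, op v ω := by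
  have b0 : 0 ≤ b := (abs_nonneg _).trans (hb ω)
  have s0 : ∀ v ∈ T, 0 ≤ op v ω' - op v ω := fun v _ => sub_nonneg.2 (op_mono v h)
  rw [← mul_sub, ← sum_sub_distrib]
  by_cases k : ∀ v ∈ T, ω v = ω' v
  · rw [hF ω ω' k, sub_self, abs_zero]
    exact mul_nonneg (by linarith) (sum_nonneg s0)
  · obtain ⟨v, hv, e⟩ : ∃ v ∈ T, ω v ≠ ω' v := by
      by_contra q
      exact k fun v hv => by_contra fun e => q ⟨v, hv, e⟩
    have e1 : op v ω' - op v ω = 1 := by
      have k := Bool.le_iff_imp.1 (h v)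
      unfold op
      cases e2 : ω v <;> cases e3 : ω' v <;> simp_all
    have e2 := single_le_sum s0 hv
    rw [e1] at e2
    have e3 := abs_sub (F ω) (F ω')
    nlinarith [hb ω, hb ω']

end Lin

theorem t_lin : T_lin := by
  intro X E _ r a b R S ξ hr
  have w0 : ∀ ω, 0 < wt r a b R S ω := fun ω => by
    unfold wt
    positivity
  have z0 : 0 < sm S ξ (wt r a b R S) := sum_pos (fun _ _ => w0 _) ⟨∅, empty_mem_powerset S⟩
  refine ⟨fun x => ?_, fun F G => ?_, fun x F => ?_, fun F G h => ?_, fun ι I F => ?_,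
    fun F h => ?_⟩
  · rw [ex, div_eq_iff z0.ne', sm, sm, ← sum_mul, mul_comm]
  · simp only [ex, sm, mul_add, sum_add_distrib, add_div]
  · simp only [ex, sm, ← mul_div_assoc, mul_sum, mul_left_comm x]
  · exact div_le_div_of_nonneg_right
      (sum_le_sum fun A _ => mul_le_mul_of_nonneg_left (h _) (w0 _).le) z0.le
  · simp only [ex, ← sum_div]
    refine congrArg (· / _) ?_
    simp only [sm, mul_sum]
    exact sum_comm
  · subst h
    rw [ex, Lin.sm_univ, Lin.sm_univ]

theorem t_dif : T_dif := by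
  intro T F b hb hF
  refine ⟨fun ω ω' h => ?_, fun ω ω' h => ?_, fun ω ω' h => ?_⟩
  · linarith [(abs_le.1 (Lin.key hb hF h)).2]
  · linarith [(abs_le.1 (Lin.key hb hF h)).1]
  · linarith [abs_nonneg (F ω - F ω'), Lin.key hb hF h]

end Vale.Agent.P167.Q
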