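import Vale.Agent.P167.QStm

/-! P167, random-cluster model: the two forms of the weights agree. -/

open MeasureTheory Filter Topology Finset

namespace Vale.Agent.P167.Q

open Vale.Agent.P152 Vale.Agent.P167.Pc

namespace Link

theorem clus_eq (ω : Bond) : clus ω = fun x => {y | Cn ea eb nil ω x y} := by
  funext x
  simp only [clus, Cn, nil, or_false]

theorem cnt_eq {S A : Finset (ℤ × ℤ)} (ξ : Bond) (h : A ⊆ S) : cnt S (cf S ξ A) = A.card := by
  unfold cnt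
  refine congrArg Finset.card (Finset.ext fun v => ?_)
  rw [mem_filter, cf]
  constructor
  · rintro ⟨h1, h2⟩
    simpa [h1] using h2
  · intro hv
    simp [h hv, hv]

theorem fkw_eq {q : ℝ} (hq : 0 < q) {S A : Finset (ℤ × ℤ)} (ξ : Bond) (h : A ⊆ S) :
    fkw (√q / (1 + √q)) q S ξ A = ((1 + √q) ^ S.card)⁻¹ * wt (√q) ea eb nil S (cf S ξ A) := by
  have r0 := Real.sqrt_pos.2 hq
  obtain ⟨k, hk⟩ := Nat.exists_eq_add_of_le (card_le_card h)
  have e : 1 - √q / (1 + √q) = 1 / (1 + √q) := by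
    field_simp
    ring
  rw [fkw, wt, cnt_eq ξ h, pow_mul, Real.sq_sqrt hq.le, clus_eq, e, hk, Nat.add_sub_cancel_left,
    div_pow, div_pow, pow_add, one_pow]
  show _ * q ^ kk ea eb nil S (cf S ξ A) = _
  field_simp

theorem fkE_eq {q : ℝ} (hq : 0 < q) (S : Finset (ℤ × ℤ)) (ξ : Bond) (F : Bond → ℝ) :
    fkE (√q / (1 + √q)) q S ξ F = fx (√q) S ξ F := by
  have c0 : ((1 + √q) ^ S.card)⁻¹ ≠ 0 := by positivity
  refine Eq.trans ?_ (mul_div_mul_left _ _ c0)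
  rw [sm, sm, mul_sum, mul_sum]
  exact congrArg₂ (· / ·)
    (sum_congr rfl fun A hA => by rw [fkw_eq hq ξ (mem_powerset.1 hA), mul_assoc]; rfl)
    (sum_congr rfl fun A hA => fkw_eq hq ξ (mem_powerset.1 hA))

end Link

theorem t_link : T_link := by
  intro q φ hq ⟨h1, h2⟩
  refine ⟨h1, fun F T hF ε hε => ?_⟩
  obtain ⟨S₀, h⟩ := h2 F ⟨T, hF⟩ ε hε
  exact ⟨S₀, fun S hS ξ => by rw [Link.fkE_eq hq]; exact (h S hS).1 ξ⟩

end Vale.Agent.P167.Q
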