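import Vale.Agent.P167.QStm

/-! The tilt is not seen locally: from monotone to general local functions. -/

open MeasureTheory Filter Topology Finset

namespace Vale.Agent.P167.Q

open Vale.Agent.P152 Vale.Agent.P167.Pc

namespace Loc

theorem int (hi : S_int) (φ : Measure Bond) [IsProbabilityMeasure φ] (T : Finset (ℤ × ℤ))
    (G : Bond → ℝ) (h : Dep (T : Set (ℤ × ℤ)) G) : Integrable G φ := by
  obtain ⟨hm, ⟨b, hb⟩, -⟩ := hi T G h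
  exact (integrable_const b).mono' hm.aestronglyMeasurable (Eventually.of_forall hb)

theorem dsum (T : Finset (ℤ × ℤ)) (b : ℝ) :
    Dep (T : Set (ℤ × ℤ)) fun ω : Bond => 2 * b * ∑ v ∈ T, op v ω := fun ω ω' h => by
  have : ∑ v ∈ T, op v ω = ∑ v ∈ T, op v ω' :=
    Finset.sum_congr rfl fun v hv => by unfold op; rw [h v hv]
  show 2 * b * ∑ v ∈ T, op v ω = 2 * b * ∑ v ∈ T, op v ω'
  rw [this]

theorem mono (h1 : T_loc1) {r : ℝ} {φ : Measure Bond} (hr : 1 ≤ r) (hφ : FKm r φ)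
    (T : Finset (ℤ × ℤ)) (G : Bond → ℝ) (hm : Monotone G) (hd : Dep (T : Set (ℤ × ℤ)) G)
    {ε : ℝ} (hε : 0 < ε) : ∃ L0 : ℕ,
    ∀ (M L : ℕ) [NeZero M] [NeZero L], Even M → Even L → L0 ≤ L → L ≤ M →
    ∀ (U : (Tor M L → Bool) → ℝ) (κ : ℝ), 0 < κ →
    (∀ ω, κ * wT r M L ω ≤ U ω ∧ U ω ≤ Real.exp (3 * M) * κ * wT r M L ω) →
    (∀ (t : ℤ × ℤ) ω, Even (t.1 + t.2) → U (fun v => ω (v + pv M L t)) = U ω) →
    |(∑ ω, U ω * G (lf M L ω)) / ∑ ω, U ω - ∫ ω, G ω ∂φ| ≤ ε := by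
  obtain ⟨S₀, hS⟩ := hφ.2 G ⟨T, hd⟩ (ε / 2) (half_pos hε)
  obtain ⟨a0, a1⟩ := hS (S₀ ∪ T) subset_union_left
  have a2 : |f0 r (S₀ ∪ T) G - ∫ ω, G ω ∂φ| ≤ ε / 2 := a0 _
  obtain ⟨L0, hL⟩ := h1 r (S₀ ∪ T) G hr hm
    (fun ω ω' h => hd ω ω' fun v hv => h v (mem_coe.2 (mem_union_right _ (mem_coe.1 hv))))
    (ε / 2) (half_pos hε)
  refine ⟨L0, fun M L _ _ hM hLe h0 hLM U κ hκ hU ht => ?_⟩
  obtain ⟨b0, b1⟩ := hL M L hM hLe h0 hLM U κ hκ hU ht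
  rw [abs_le] at a1 a2 ⊢
  constructor <;> linarith [a1.1, a1.2, a2.1, a2.2]

end Loc

theorem t_loc (hl : T_lin) (hd : T_dif) (h1 : T_loc1) (hi : S_int) : T_loc := by
  have _ := hl
  rintro r φ hr hφ G ⟨T, hT⟩ ε hε
  haveI := hφ.1
  have dG : Dep (T : Set (ℤ × ℤ)) G := hT
  obtain ⟨-, ⟨b, hb⟩, -⟩ := hi T G hT
  obtain ⟨m1, -, m2⟩ := hd T G b hb dG
  have d2 := Loc.dsum T b
  have d1 : Dep (T : Set (ℤ × ℤ)) fun ω : Bond => 2 * b * ∑ v ∈ T, op v ω + G ω :=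
    fun ω ω' h => congrArg₂ (· + ·) (d2 ω ω' h) (dG ω ω' h)
  obtain ⟨L1, k1⟩ := Loc.mono h1 hr hφ T _ m1 d1 (half_pos hε)
  obtain ⟨L2, k2⟩ := Loc.mono h1 hr hφ T _ m2 d2 (half_pos hε)
  refine ⟨max L1 L2, fun M L _ _ hM hL h0 hLM U κ hκ hU ht => ?_⟩
  have c1 := k1 M L hM hL ((le_max_left _ _).trans h0) hLM U κ hκ hU ht
  have c2 := k2 M L hM hL ((le_max_right _ _).trans h0) hLM U κ hκ hU ht
  rw [integral_add (Loc.int hi φ T _ d2) (Loc.int hi φ T _ dG)] at c1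
  simp only [mul_add, Finset.sum_add_distrib, add_div] at c1
  rw [abs_le] at c1 c2 ⊢
  constructor <;> linarith [c1.1, c1.2, c2.1, c2.2]

end Vale.Agent.P167.Q
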