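import Vale.Agent.P167.QStm
import Vale.Agent.P167.PcLoc

/-! P167, random-cluster model: the tilt is not seen by monotone local functions. -/

open MeasureTheory Filter Topology Finset

namespace Vale.Agent.P167.Q

open Vale.Agent.P152 Vale.Agent.P167.Pc

namespace Loc1

theorem wT_pos {r : ℝ} (hr : 0 < r) (M L : ℕ) [NeZero M] [NeZero L] (ω : Tor M L → Bool) :
    0 < wT r M L ω := mul_pos (pow_pos hr _) (pow_pos hr _)

theorem tE_eq (hl : T_lin) {r : ℝ} (hr : 0 < r) (M L : ℕ) [NeZero M] [NeZero L]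
    (F : (Tor M L → Bool) → ℝ) :
    tE r M L F = (∑ ω, wT r M L ω * F ω) / ∑ ω, wT r M L ω :=
  (hl _ _ r (ta (pt M L)) (tb (pt M L)) nil univ (fun _ => false) hr).2.2.2.2.2 F rfl

end Loc1

open Loc1 Pc.Loc in
theorem t_loc1 (hl : T_lin) (ht : T_tl) (hp : T_prod) (hj : T_jen) (hi : S_int) : T_loc1 := by
  intro r S G hr hG hS ε hε
  have hr0 : 0 < r := one_pos.trans_le hr
  obtain ⟨-, ⟨b0, hb0⟩, -⟩ := hi S G fun ω ω' h => hS ω ω' fun v hv => h v hv
  obtain ⟨k, hk⟩ := box S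
  obtain ⟨b, hb1, hb⟩ : ∃ b : ℝ, 0 < b ∧ ∀ ω, |G ω| ≤ b :=
    ⟨max b0 1, lt_max_of_lt_right one_pos, fun ω => (hb0 ω).trans (le_max_left _ _)⟩
  obtain ⟨s, hs, hs1, hs2⟩ : ∃ s : ℝ, 0 < s ∧ s * b ≤ 1 ∧ s * b ^ 2 ≤ ε / 2 :=
    ⟨min (1 / b) (ε / 2 / b ^ 2), lt_min (by positivity) (by positivity),
      (le_div_iff₀ hb1).1 (min_le_left _ _), (le_div_iff₀ (by positivity)).1 (min_le_right _ _)⟩
  obtain ⟨K, hK, hK2⟩ : ∃ K : ℕ, 2 * k < K ∧ Even (K : ℤ) :=
    ⟨2 * k + 2, by omega, ⟨k + 1, by push_cast; ring⟩⟩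
  have hK0 : 0 < K := by omega
  obtain ⟨n, hn⟩ := exists_nat_ge (4 * (3 * (K : ℝ)) / (s * ε))
  refine ⟨(n + 1) * K + (2 * k + 4), fun M L _ _ hM hL hL0 hLM U κ hκ hU hUs => ?_⟩
  have hL1 : (n + 1) * K ≤ L := le_trans (Nat.le_add_right _ _) hL0
  have hL2 : 2 * k + 4 ≤ L := le_trans (Nat.le_add_left _ _) hL0
  have hq : n + 1 ≤ L / K := (Nat.le_div_iff_mul_le hK0).2 hL1
  have hp' : n + 1 ≤ M / K := (Nat.le_div_iff_mul_le hK0).2 (hL1.trans hLM)
  have hw : ∀ ω, 0 < wT r M L ω := wT_pos hr0 M L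
  have hZ : 0 < ∑ ω, wT r M L ω := sum_pos (fun ω _ => hw ω) univ_nonempty
  have hpos : 0 < ∑ ω, U ω :=
    sum_pos (fun ω _ => (mul_pos hκ (hw ω)).trans_le (hU ω).1) univ_nonempty
  have key : ∀ d g : ℝ, |d| = 1 → (∀ (t : ℤ × ℤ) (H : (Tor M L → Bool) → ℝ), Even (t.1 + t.2) →
      (∀ ω, 0 ≤ H ω) → Dep ((fun v => pv M L (v + t)) '' (S : Set (ℤ × ℤ)))ᶜ H →
      d * tE r M L (fun ω => G (fun v => ω (pv M L (v + t))) * H ω) ≤ g * tE r M L H) →
      d * ((∑ ω, U ω * G (lf M L ω)) / ∑ ω, U ω) - g ≤ ε := by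
    intro d g hd hH
    obtain ⟨tt, htt⟩ : ∃ tt : Fin (M / K) × Fin (L / K) → ℤ × ℤ,
      ∀ i, tt i = ((K : ℤ) * (i.1 : ℕ), (K : ℤ) * (i.2 : ℕ)) := ⟨_, fun _ => rfl⟩
    have hev : ∀ i, Even ((tt i).1 + (tt i).2) := fun i => by
      rw [htt]; exact (hK2.mul_right _).add (hK2.mul_right _)
    obtain ⟨Y, hY⟩ : ∃ Y : Fin (M / K) × Fin (L / K) → (Tor M L → Bool) → ℝ,
      ∀ i ω, Y i ω = d * G (fun v => ω (pv M L (v + tt i))) := ⟨_, fun _ _ => rfl⟩
    have k1 := hp _ _ univ (wT r M L) Y g b s (fun ω => (hw ω).le)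
      (fun i ω => by rw [hY, abs_mul, hd, one_mul]; exact hb _) hs.le hs1 ?_
    · have k2 := hj _ _ univ (wT r M L) U Y κ (3 * M)
        (d * ((∑ ω, U ω * G (lf M L ω)) / ∑ ω, U ω)) s _ (fun ω => (hw ω).le) hZ hκ hs.le hU ?_ k1
      · rw [card_univ, Fintype.card_prod, Fintype.card_fin, Fintype.card_fin, Nat.cast_mul] at k2
        refine num (p := (M / K : ℕ)) (q := (L / K : ℕ)) (A := 3 * M) (K := 3 * K)
          (Nat.cast_pos.2 (by omega)) (Nat.cast_pos.2 (by omega)) hs ?_ ?_ hs2 (by linarith)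
        · have e1 : M ≤ 2 * K * (M / K) := by
            have e2 := Nat.lt_mul_div_succ M hK0
            have e3 : K * 1 ≤ K * (M / K) := Nat.mul_le_mul_left K (by omega)
            nlinarith
          have e4 : (M : ℝ) ≤ 2 * K * (M / K : ℕ) := by exact_mod_cast e1
          linarith
        · have e1 : (n : ℝ) ≤ (L / K : ℕ) := Nat.cast_le.2 (by omega)
          exact (div_le_iff₀ (by positivity)).1 (hn.trans e1)
      · intro i _
        rw [mul_assoc, div_mul_cancel₀ _ hpos.ne',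
          ← shift (pv M L (tt i)) fun ω => U ω * G (lf M L ω), mul_sum]
        refine le_of_eq (sum_congr rfl fun ω _ => ?_)
        rw [hUs _ ω (hev i), hY, mul_left_comm]
        refine congrArg (fun x => U ω * (d * G x)) (funext fun v => ?_)
        exact congrArg ω (pv_add M L _ _).symm
    · intro J _ i _ hiJ
      have h1 := hH (tt i) (fun ω => ∏ j ∈ J, Real.exp (s * Y j ω)) (hev i)
        (fun ω => prod_nonneg fun j _ => (Real.exp_pos _).le) ?_
      · rw [tE_eq hl hr0, tE_eq hl hr0, ← mul_div_assoc, ← mul_div_assoc,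
          div_le_div_iff_of_pos_right hZ, mul_sum] at h1
        refine le_trans (le_of_eq (sum_congr rfl fun ω _ => ?_)) h1
        rw [hY i]
        ring
      · intro ω ω' h
        refine prod_congr rfl fun j hjJ => ?_
        rw [hY, hY, hS (fun v => ω (pv M L (v + tt j))) (fun v => ω' (pv M L (v + tt j)))
          fun v hv => h _ ?_]
        rintro ⟨u, hu, e⟩
        rw [htt, htt] at e
        have h1 := inj1 hK (hk _ hu).1 (hk _ hv).1 (congrArg Prod.fst e)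
        have h2 := inj1 hK (hk _ hu).2 (hk _ hv).2 (congrArg Prod.snd e)
        exact hiJ (by rw [Prod.ext h1.2 h2.2]; exact hjJ)
  have hk' : ∀ v ∈ S, |v.1| ≤ k ∧ |v.2| ≤ k := fun v hv =>
    ⟨abs_le.2 (hk v hv).1, abs_le.2 (hk v hv).2⟩
  have a1 := key 1 (f1 r S G) abs_one fun t H h1 h2 h3 => by
    rw [one_mul]
    exact (ht r M L k S t G H hr hM hL hL2 hLM hk' h1 hG hS h2 h3).2
  have a2 := key (-1) (-f0 r S G) (by simp) fun t H h1 h2 h3 => by
    have := (ht r M L k S t G H hr hM hL hL2 hLM hk' h1 hG hS h2 h3).1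
    linarith
  constructor <;> linarith

end Vale.Agent.P167.Q
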