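import Vale.Agent.P167.QStm

/-! P167, random-cluster model: existence of the infinite volume measure. -/

open MeasureTheory Filter Topology Finset

namespace Vale.Agent.P167.Q

open Vale.Agent.P152 Vale.Agent.P167.Pc

namespace Mex

theorem cont {F : Bond → ℝ} (h : Loc F) : Continuous F := by
  obtain ⟨S, hS⟩ := h
  have e : F = (fun η : S → Bool => F fun v => if h : v ∈ S then η ⟨v, h⟩ else true) ∘
      fun (ω : Bond) (v : S) => ω v := by
    funext ω
    exact hS _ _ fun v hv => by simp [hv]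
  rw [e]
  exact continuous_of_discreteTopology.comp (continuous_pi fun v => continuous_apply _)

theorem fin_meas (r : ℝ) (hr : 0 < r) (S : Finset (ℤ × ℤ)) : ∃ μ : ProbabilityMeasure Bond,
    ∀ F : Bond → ℝ, Continuous F → ∫ ω, F ω ∂(μ : Measure Bond) = f0 r S F := by
  set w : Finset (ℤ × ℤ) → ℝ := fun A => wt r ea eb nil S (cf S (fun _ => false) A) with hw
  have wp : ∀ A, 0 < w A := fun A => by
    simp only [hw, wt]
    positivity
  set Z : ℝ := ∑ A ∈ S.powerset, w A with hZ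
  have Zp : 0 < Z := Finset.sum_pos (fun A _ => wp A) ⟨∅, by simp⟩
  set μ : Measure Bond := ∑ A ∈ S.powerset,
    ENNReal.ofReal (w A / Z) • Measure.dirac (cf S (fun _ => false) A) with hμ
  have hp : IsProbabilityMeasure μ := by
    constructor
    rw [hμ, Measure.finsetSum_apply]
    simp only [Measure.smul_apply, measure_univ, smul_eq_mul, mul_one]
    rw [← ENNReal.ofReal_sum_of_nonneg fun A _ => (div_pos (wp A) Zp).le, ← Finset.sum_div,
      div_self Zp.ne', ENNReal.ofReal_one]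
  refine ⟨⟨μ, hp⟩, fun F hF => ?_⟩
  show ∫ ω, F ω ∂μ = _
  rw [hμ, integral_finsetSum_measure fun A _ =>
    (integrable_dirac (by simp)).smul_measure ENNReal.ofReal_ne_top]
  simp only [integral_smul_measure, integral_dirac, smul_eq_mul]
  unfold f0 fx ex sm
  rw [Finset.sum_div]
  refine Finset.sum_congr rfl fun A _ => ?_
  rw [ENNReal.toReal_ofReal (div_pos (wp A) Zp).le]
  show w A / Z * _ = w A * _ / Z
  ring

end Mex

theorem t_mex (_hl : T_lin) (_hi : S_int) : T_mex := by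
  intro r hr hm
  choose μ hμ using Mex.fin_meas r hr
  obtain ⟨U, hU⟩ := Ultrafilter.exists_le (atTop : Filter (Finset (ℤ × ℤ)))
  obtain ⟨φ, -, hφ⟩ := isCompact_univ.ultrafilter_le_nhds (U.map μ) (by simp)
  refine ⟨φ, inferInstance, fun F hF => ?_⟩
  obtain ⟨m, h1⟩ := hm F hF
  have h2 := ProbabilityMeasure.tendsto_iff_forall_integral_tendsto.1
    (show Tendsto μ U (𝓝 φ) from hφ) (BoundedContinuousFunction.mkOfCompact ⟨F, Mex.cont hF⟩)
  have h3 : Tendsto (fun S => f0 r S F) U (𝓝 (∫ ω, F ω ∂(φ : Measure Bond))) :=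
    h2.congr fun S => hμ S F (Mex.cont hF)
  rw [← tendsto_nhds_unique (h1.mono_left hU) h3]
  exact h1

theorem t_fkm (hc : T_cau) (hm : T_mex) : T_fkm := by
  intro r hr hC
  have key : ∀ F : Bond → ℝ, ∀ m : ℝ, (∀ ε > 0, ∃ S₀, ∀ S, S₀ ⊆ S →
      (∀ ξ, |fx r S ξ F - m| ≤ ε) ∧ |f1 r S F - m| ≤ ε) →
      Tendsto (fun S => f0 r S F) atTop (𝓝 m) := by
    intro F m h
    rw [Metric.tendsto_nhds]
    intro ε hε
    obtain ⟨S₀, h0⟩ := h (ε / 2) (half_pos hε)
    filter_upwards [eventually_ge_atTop S₀] with S hS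
    rw [Real.dist_eq]
    exact ((h0 S hS).1 _).trans_lt (half_lt_self hε)
  obtain ⟨φ, h1, h2⟩ := hm r (by linarith) fun F hF => by
    obtain ⟨m, h⟩ := hc r hr hC F hF
    exact ⟨m, key F m h⟩
  refine ⟨φ, h1, fun F hF => ?_⟩
  obtain ⟨m, h⟩ := hc r hr hC F hF
  rw [← tendsto_nhds_unique (key F m h) (h2 F hF)]
  exact h

end Vale.Agent.P167.Q
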