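import Vale.Agent.P167.QStm2

/-! Exponential moments on the torus from those on the cylinder. -/

open MeasureTheory Filter Topology Finset

namespace Vale.Agent.P167.Q

open Vale.Agent.P152 Vale.Agent.P167.Pc

namespace Mom

noncomputable def ff (s d : ℝ) (b : Bool) : ℝ := Real.exp (s * (d * if b = true then 0 else 1))

/-- the observable in the plane -/
noncomputable def FF (s d : ℝ) (z : Bool) (K : ℕ) (I : Finset (ℕ × ℕ)) (o : Ori) : ℝ :=
  ∏ i ∈ I, ff s d (ab4 z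
    (o ((((1 + K * i.1 : ℕ) : ℤ) - 1, (((if z then 1 else 0) + K * i.2 : ℕ) : ℤ)), true))
    (o ((((1 + K * i.1 : ℕ) : ℤ), (((if z then 1 else 0) + K * i.2 : ℕ) : ℤ)), true))
    (o ((((1 + K * i.1 : ℕ) : ℤ), (((if z then 1 else 0) + K * i.2 : ℕ) : ℤ) - 1), false))).1

theorem FF_nn (s d : ℝ) (z : Bool) (K : ℕ) (I : Finset (ℕ × ℕ)) (o : Ori) : 0 ≤ FF s d z K I o :=
  prod_nonneg fun _ _ => (Real.exp_pos _).le

theorem pt_eq {M L K : ℕ} [NeZero M] [NeZero L] (hM : Even M) (hL : Even L) (hK : Even K)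
    (z : Bool) (i j : ℕ) :
    pt M L (((1 + K * i : ℕ) : ZMod M), (((if z then 1 else 0) + K * j : ℕ) : ZMod L)) = z := by
  unfold pt
  simp only [ZMod.val_natCast]
  have h1 := Nat.mod_mod_of_dvd (1 + K * i) hM.two_dvd
  have h2 := Nat.mod_mod_of_dvd ((if z then 1 else 0) + K * j) hL.two_dvd
  have h3 := Nat.even_iff.mp (hK.mul_right i)
  have h4 := Nat.even_iff.mp (hK.mul_right j)
  cases z
  · simp only [Bool.false_eq_true, if_false, Nat.even_iff, decide_eq_false_iff_not] at h2 ⊢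
    omega
  · simp only [if_true, Nat.even_iff, decide_eq_true_eq] at h2 ⊢
    omega

theorem cev_eq {l K k : ℕ} (hK : Even K) (hk : Even k) (z : Bool) (i j : ℕ) :
    cev (((1 + K * i + k : ℕ), ((if z then 1 else 0) + K * j : ℕ)) : Cy l) = z := by
  unfold cev
  simp only [ZMod.val_natCast]
  have h2 := Nat.mod_mod_of_dvd ((if z then 1 else 0) + K * j) (show 2 ∣ 2 * l + 2 by omega)
  have h3 := Nat.even_iff.mp (hK.mul_right i)
  have h4 := Nat.even_iff.mp (hK.mul_right j)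
  have h5 := Nat.even_iff.mp hk
  rw [← Nat.cast_add]
  cases z
  · simp only [Bool.false_eq_true, if_false, Int.even_coe_nat, Nat.even_iff,
      decide_eq_false_iff_not] at h2 ⊢
    omega
  · simp only [if_true, Int.even_coe_nat, Nat.even_iff, decide_eq_true_eq] at h2 ⊢
    omega

theorem FF_lift {M L K : ℕ} [NeZero M] [NeZero L] (hM : Even M) (hL : Even L) (hK : Even K)
    (s d : ℝ) (z : Bool) (I : Finset (ℕ × ℕ)) (o : TOri M L) :
    FF s d z K I (P152.lift M L o) = ∏ i ∈ I, Real.exp (s * (d * dg M L true o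
      (((1 + K * i.1 : ℕ) : ZMod M), (((if z then 1 else 0) + K * i.2 : ℕ) : ZMod L)))) := by
  unfold FF
  refine prod_congr rfl fun i _ => ?_
  unfold ff dg
  rw [pt_eq hM hL hK]
  simp only [P152.lift, Int.cast_sub, Int.cast_natCast, Int.cast_one, if_true]

theorem lt_of_mem {K L j : ℕ} (_hK : 0 < K) (hj : j < L / K) : K * j + K ≤ L := by
  have h1 : K * (j + 1) ≤ K * (L / K) := Nat.mul_le_mul_left K hj
  have h2 := Nat.mul_div_le L K
  rw [Nat.mul_add, mul_one] at h1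
  omega

theorem FF_ori {l K k m : ℕ} (hK0 : 0 < K) (hK : Even K) (hk : Even k) (s d : ℝ) (z : Bool) :
    FF s d z K (range m ×ˢ range ((2 * l + 2) / K)) ∘ ori = fun o : ℤ → Colc l =>
      ∏ v ∈ (range m ×ˢ range ((2 * l + 2) / K)).image (fun i : ℕ × ℕ =>
        (((1 + K * i.1 + k : ℕ), ((if z then 1 else 0) + K * i.2 : ℕ)) : Cy l)),
      ff s d (ab4 (cev v) (o (v.1 - k - 1) (v.2, true)) (o (v.1 - k) (v.2, true))
        (o (v.1 - k) (v.2 - 1, false))).1 := by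
  funext o
  have hK2 : 2 ≤ K := by obtain ⟨r, hr⟩ := hK; omega
  rw [prod_image]
  · simp only [Function.comp, FF]
    refine prod_congr rfl fun i _ => ?_
    rw [cev_eq hK hk]
    have e1 : ((1 + K * i.1 + k : ℕ) : ℤ) - k = ((1 + K * i.1 : ℕ) : ℤ) := by push_cast; ring
    simp only [ori, e1, Int.cast_sub, Int.cast_natCast, Int.cast_one]
  · intro i hi j hj hij
    have hi2 := lt_of_mem hK0 (mem_range.mp (mem_product.mp hi).2)
    have hj2 := lt_of_mem hK0 (mem_range.mp (mem_product.mp hj).2)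
    have e1 : 1 + K * i.1 + k = 1 + K * j.1 + k := Int.ofNat_inj.mp (congrArg Prod.fst hij)
    have e2 := congrArg (fun v : Cy l => v.2.val) hij
    have hz : (if z then 1 else 0 : ℕ) ≤ 1 := by split_ifs <;> omega
    simp only [ZMod.val_natCast] at e2
    rw [Nat.mod_eq_of_lt (by omega), Nat.mod_eq_of_lt (by omega)] at e2
    exact Prod.ext (Nat.eq_of_mul_eq_mul_left hK0 (by omega))
      (Nat.eq_of_mul_eq_mul_left hK0 (by omega))

theorem bw_nn {c : ℝ} (hc : 0 ≤ c) (M L : ℕ) [NeZero M] [NeZero L] (o : TOri M L) :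
    0 ≤ bw6 c M L o := by
  unfold bw6 twt
  split_ifs
  · refine prod_nonneg fun v _ => ?_
    unfold vwt
    split_ifs <;> simp [hc]
  · exact le_rfl

theorem texp_eq (c : ℝ) (M L : ℕ) [NeZero M] [NeZero L] (F : Ori → ℝ) :
    texp c M L F = (∑ o, bw6 c M L o * F (P152.lift M L o)) / ∑ o, bw6 c M L o := by
  unfold texp bw6
  simp only [ite_mul, zero_mul]

end Mom

open Mom in
theorem t_mom (hc : T_ch) (hy : T_cy) (hm : T_mc) (ht : P152.S_tor) : T_mom := by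
  intro c hc1 hMag hA z
  obtain ⟨h, hh⟩ := hm c hc1 hMag hA z
  refine ⟨h, fun ε hε => ?_⟩
  obtain ⟨K, K0, Kev, hK⟩ := hh ε hε
  refine ⟨K, K0, Kev, fun d s hd s0 s1 L _ hL hKL => ?_⟩
  obtain ⟨l, rfl⟩ : ∃ l, L = 2 * l + 2 := by
    obtain ⟨r, hr⟩ := hL
    exact ⟨r - 1, by omega⟩
  have hK2 : 2 ≤ K := by obtain ⟨r, hr⟩ := Kev; omega
  obtain ⟨k0, hk0⟩ := hc c l (by linarith)
  obtain ⟨k, hk1, hk2, kev⟩ : ∃ k, k0 ≤ k ∧ K ≤ k ∧ Even k :=
    ⟨2 * (k0 + K), by omega, by omega, even_two_mul _⟩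
  obtain ⟨C, hC⟩ := hk0 k hk1
  obtain ⟨N, hN⟩ := eventually_atTop.mp hC
  refine ⟨N + 1 + ⌈C⌉₊, fun M _ hM hM0 => ?_⟩
  obtain ⟨M1, rfl⟩ : ∃ M1, M = M1 + 1 := ⟨M - 1, by omega⟩
  obtain ⟨p1, p2, hG⟩ := hN M1 (by omega)
  have hC1 : 1 ≤ C := by
    have := hG 1 (fun _ => zero_le_one) (fun _ _ _ => rfl)
    rwa [div_self p1.ne', div_self p2.ne', mul_one] at this
  have hC2 : C ≤ Real.exp ((M1 + 1 : ℕ) : ℝ) := by
    have a1 : (⌈C⌉₊ : ℝ) ≤ ((M1 + 1 : ℕ) : ℝ) := by exact_mod_cast (by omega : ⌈C⌉₊ ≤ M1 + 1)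
    have a2 := Real.add_one_le_exp ((M1 + 1 : ℕ) : ℝ)
    have a3 := Nat.le_ceil C
    linarith
  have hden : 0 < ∑ o, bw6 c (M1 + 1) (2 * l + 2) o := by
    refine (sum_nonneg fun o _ => bw_nn (by linarith) _ _ o).lt_of_ne fun h0 => ?_
    have a1 := ht c l M1 0 1
    rw [texp_eq, ← h0, div_zero] at a1
    have a2 : ((1 : Ori → ℝ) ∘ ori : (ℤ → Colc l) → ℝ) = 1 := rfl
    rw [a2, div_self p1.ne'] at a1
    exact zero_ne_one a1
  have nev : Even (M1 + 2 * k + 1) := by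
    obtain ⟨r, hr⟩ := hM
    exact ⟨r + k, by omega⟩
  have hdiv := Nat.mul_div_le (M1 + 1) K
  have b1 := hG (FF s d z K (range ((M1 + 1) / K) ×ˢ range ((2 * l + 2) / K)) ∘ ori)
    (fun o => FF_nn _ _ _ _ _ _) (fun o o' hoo => ?_)
  · rw [← ht, texp_eq, div_le_iff₀ hden, FF_ori (k := k) K0 Kev kev,
      hy c l _ k _ (ff s d) hc1 nev] at b1
    · have b2 := hK d s l (M1 + 2 * k + 1) k ((M1 + 1) / K) hd s0 s1 (by omega) kev hk2 (by omega)
      simp only [FF_lift hM hL Kev] at b1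
      refine b1.trans (mul_le_mul_of_nonneg_right ?_ hden.le)
      rw [Real.exp_add]
      exact (mul_le_mul_of_nonneg_left b2 (by linarith)).trans
        (mul_le_mul_of_nonneg_right hC2 (Real.exp_pos _).le)
    · intro v hv
      obtain ⟨i, hi, rfl⟩ := mem_image.mp hv
      have hi1 := lt_of_mem K0 (mem_range.mp (mem_product.mp hi).1)
      refine mem_product.mpr ⟨mem_Icc.mpr ⟨?_, ?_⟩, mem_univ _⟩
      · exact Int.ofNat_le.mpr (by omega : 1 ≤ 1 + K * i.1 + k)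
      · exact Int.ofNat_le.mpr (by omega : 1 + K * i.1 + k ≤ M1 + 2 * k + 1)
  · simp only [Function.comp, FF, ori]
    refine prod_congr rfl fun i hi => ?_
    have hi1 := lt_of_mem K0 (mem_range.mp (mem_product.mp hi).1)
    rw [hoo (((1 + K * i.1 : ℕ) : ℤ) - 1) (by omega) (by omega),
      hoo ((1 + K * i.1 : ℕ) : ℤ) (by omega) (by omega)]

end Vale.Agent.P167.Q
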