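import Vale.Agent.P167.QStm

/-! Exchanging two images changes the number of orbits by at most one. -/

open Finset

namespace Vale.Agent.P167.Q

open Vale.Agent.P152 Vale.Agent.P167.Pc

namespace Mrg

variable {E : Type} [Fintype E] {C D : E → E → Prop}

open Classical in
/-- number of classes -/
noncomputable def nc (C : E → E → Prop) : ℕ := (univ.image fun e => {e' | C e e'}).card

/-- saturation -/
def sat (D : E → E → Prop) (S : Set E) : Set E := {v | ∃ u ∈ S, D u v}

omit [Fintype E] in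
theorem cls_eq (hC : Equivalence C) {u v : E} : {e | C u e} = {e | C v e} ↔ C u v := by
  constructor
  · intro h
    have h1 : v ∈ {e | C v e} := hC.refl v
    rw [← h] at h1
    exact h1
  · intro h
    ext e
    exact ⟨fun h1 => hC.trans (hC.symm h) h1, fun h1 => hC.trans h h1⟩

omit [Fintype E] in
theorem sat_cls (hC : Equivalence C) (hD : Equivalence D) (h : ∀ u v, C u v → D u v) (u : E) :
    sat D {e | C u e} = {e | D u e} := by
  ext e
  exact ⟨fun ⟨w, h1, h2⟩ => hD.trans (h u w h1) h2, fun h1 => ⟨u, hC.refl u, h1⟩⟩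

open Classical in
theorem nc_eq (hC : Equivalence C) (hD : Equivalence D) (h : ∀ u v, C u v → D u v) :
    nc D = ((univ.image fun e => {e' | C e e'}).image (sat D)).card := by
  unfold nc
  rw [image_image]
  exact congrArg card (image_congr fun u _ => (sat_cls hC hD h u).symm)

theorem nc_mono (hC : Equivalence C) (hD : Equivalence D) (h : ∀ u v, C u v → D u v) :
    nc D ≤ nc C := by
  classical
  rw [nc_eq hC hD h]
  exact card_image_le

theorem nc_lt (hC : Equivalence C) (hD : Equivalence D) (h : ∀ u v, C u v → D u v) {x y : E}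
    (h1 : D x y) (h2 : ¬ C x y) : nc D + 1 ≤ nc C := by
  classical
  refine lt_of_le_of_ne (nc_mono hC hD h) fun h3 => h2 ?_
  rw [nc_eq hC hD h] at h3
  refine (cls_eq hC).1 (card_image_iff.1 h3 (mem_coe.2 (mem_image_of_mem _ (mem_univ x)))
    (mem_coe.2 (mem_image_of_mem _ (mem_univ y))) ?_)
  rw [sat_cls hC hD h, sat_cls hC hD h]
  exact (cls_eq hD).2 h1

theorem nc_le (hC : Equivalence C) (hD : Equivalence D) (h : ∀ u v, C u v → D u v) {y : E}
    (h1 : ∀ u v, D u v → C u v ∨ C y v ∨ C u y) : nc C ≤ nc D + 1 := by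
  classical
  have h2 : Set.InjOn (sat D)
      (((univ.image fun e => {e' | C e e'}).erase {e' | C y e'} : Finset (Set E)) : Set (Set E)) := by
    intro S hS T hT hST
    obtain ⟨hS1, hS2⟩ := mem_erase.1 (mem_coe.1 hS)
    obtain ⟨hT1, hT2⟩ := mem_erase.1 (mem_coe.1 hT)
    obtain ⟨u, -, rfl⟩ := mem_image.1 hS2
    obtain ⟨v, -, rfl⟩ := mem_image.1 hT2
    rw [sat_cls hC hD h, sat_cls hC hD h] at hST
    rcases h1 u v ((cls_eq hD).1 hST) with h3 | h3 | h3
    · exact (cls_eq hC).2 h3
    · exact absurd ((cls_eq hC).2 (hC.symm h3)) hT1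
    · exact absurd ((cls_eq hC).2 h3) hS1
  have h3 := card_image_of_injOn h2
  have h4 := card_le_card (image_subset_image (f := sat D)
    (erase_subset {e' | C y e'} (univ.image fun e => {e' | C e e'})))
  have h5 := pred_card_le_card_erase (s := univ.image fun e => {e' | C e e'}) (a := {e' | C y e'})
  rw [nc_eq hC hD h]
  unfold nc
  omega

omit [Fintype E] in
theorem cls_le {g : E → E} (hD : Equivalence D) (h : ∀ u, D u (g u)) (u v : E) (huv : Cls g u v) :
    D u v := by
  have h1 : ∀ (k : ℕ) u, D u (g^[k] u) := by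
    intro k u
    induction k with
    | zero => exact hD.refl u
    | succ k ih => rw [Function.iterate_succ_apply']; exact hD.trans ih (h _)
  obtain ⟨a, b, hab⟩ := huv
  exact hD.trans (h1 a u) (hab ▸ hD.symm (h1 b v))

omit [Fintype E] in
theorem eqv_join (hC : Equivalence C) (x y : E) :
    Equivalence fun u v => C u v ∨ (C u x ∧ C y v) ∨ (C u y ∧ C x v) := by
  refine ⟨fun u => Or.inl (hC.refl u), ?_, ?_⟩
  · rintro u v (h | ⟨h, h'⟩ | ⟨h, h'⟩)
    · exact Or.inl (hC.symm h)
    · exact Or.inr (Or.inr ⟨hC.symm h', hC.symm h⟩)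
    · exact Or.inr (Or.inl ⟨hC.symm h', hC.symm h⟩)
  · rintro u v w (h | ⟨h, h'⟩ | ⟨h, h'⟩) (k | ⟨k, k'⟩ | ⟨k, k'⟩)
    · exact Or.inl (hC.trans h k)
    · exact Or.inr (Or.inl ⟨hC.trans h k, k'⟩)
    · exact Or.inr (Or.inr ⟨hC.trans h k, k'⟩)
    · exact Or.inr (Or.inl ⟨h, hC.trans h' k⟩)
    · exact Or.inr (Or.inl ⟨h, k'⟩)
    · exact Or.inl (hC.trans h k')
    · exact Or.inr (Or.inr ⟨h, hC.trans h' k⟩)
    · exact Or.inl (hC.trans h k')
    · exact Or.inr (Or.inr ⟨h, k'⟩)

end Mrg

open Mrg in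
theorem t_mrg (h : S_bas1) (hp : S_per) : T_mrg := by
  intro E _ g g' x y hg hx hy hr
  obtain ⟨e1, -⟩ := h.2.1 E g
  obtain ⟨e2, s2⟩ := h.2.1 E g'
  refine ⟨?_, fun hn => ?_⟩
  · have eJ := eqv_join e2 x y
    have a1 : nc (Cls g') ≤ nc _ + 1 := nc_le e2 eJ (fun u v huv => Or.inl huv) (y := y)
      fun u v huv => huv.imp id fun h1 => h1.imp And.right And.left
    have a2 : nc _ ≤ nc (Cls g) := nc_mono e1 eJ (cls_le eJ fun u => by
      by_cases h1 : u = x
      · rw [h1, ← hy]
        exact Or.inr (Or.inl ⟨e2.refl _, s2 y⟩)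
      by_cases h2 : u = y
      · rw [h2, ← hx]
        exact Or.inr (Or.inr ⟨e2.refl _, s2 x⟩)
      rw [← hr u h1 h2]
      exact Or.inl (s2 u))
    exact a1.trans (Nat.succ_le_succ a2)
  · have b1 : ∀ k : ℕ, Cls g' x y ∨ Cls g' x (g^[k + 1] y) := by
      intro k
      induction k with
      | zero => exact Or.inr (by rw [zero_add, Function.iterate_one, ← hx]; exact s2 x)
      | succ k ih =>
        rcases ih with ih | ih
        · exact Or.inl ih
        by_cases h2 : g^[k + 1] y = y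
        · exact Or.inl (h2 ▸ ih)
        have h1 : g^[k + 1] y ≠ x := fun h1 => hn ⟨0, k + 1, h1.symm⟩
        rw [Function.iterate_succ_apply' g (k + 1), ← hr _ h1 h2]
        exact Or.inr (e2.trans ih (s2 _))
    obtain ⟨n, hn1, -⟩ := hp E g y hg (Set.toFinite _)
    have b2 : Cls g' x y := (b1 n).elim id fun h1 => hn1 ▸ h1
    refine nc_lt e1 e2 (cls_le e2 fun u => ?_) b2 hn
    by_cases h1 : u = x
    · rw [h1, ← hy]
      exact e2.trans b2 (s2 y)
    by_cases h2 : u = y
    · rw [h2, ← hx]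
      exact e2.trans (e2.symm b2) (s2 x)
    rw [← hr u h1 h2]
    exact s2 u

end Vale.Agent.P167.Q
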