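import Vale.Agent.P167.QStm2
import Vale.Agent.P167.PcPfe

/-! P167, random-cluster model: finite energy of the refined colouring. -/

open MeasureTheory Filter Topology

namespace Vale.Agent.P167.Q

open Vale.Agent.P152 Vale.Agent.P167.Pc

namespace Pfe

theorem integ (hi : S_int) {φ : Measure Bond} [IsProbabilityMeasure φ] {G : Bond → ℝ}
    (hG : Pc.Loc G) : Integrable G φ := by
  obtain ⟨S, hS⟩ := hG
  obtain ⟨hm, ⟨b, hb⟩, -⟩ := hi S G hS
  exact Integrable.of_bound hm.aestronglyMeasurable b (Eventually.of_forall fun ω => hb ω)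

theorem loc_ov {G : Bond → ℝ} (hG : Pc.Loc G) (R : Finset (ℤ × ℤ)) :
    Pc.Loc (fun ω => G (fun v => if v ∈ R then false else ω v)) := by
  obtain ⟨S, hS⟩ := hG
  refine ⟨S, fun ω ω' h => hS _ _ fun x hx => ?_⟩
  rw [h x hx]

/-- the bonds of the ring -/
noncomputable def rb (n : ℕ) : Finset (ℤ × ℤ) :=
  ((Pc.Pfe.ring n).filter fun x => (x.1 + x.2) % 2 = 1).image iv

theorem cq_ov {n : ℕ} (hn : Odd n) (ω : Bond) :
    cq (fun v => if v ∈ rb n then false else ω v) =
      fun x => if sd x 0 = n then true else cq ω x := by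
  funext x
  unfold cq Pc.col
  by_cases h1 : Odd x.1 ∧ Odd x.2
  · simp only [if_pos h1, ite_self]
  by_cases h2 : Even x.1 ∧ Even x.2
  · have h : ¬ sd x 0 = n := fun h => Pc.Pfe.not_even hn h h2
    simp only [if_neg h1, if_pos h2, if_neg h]
  have hx : (x.1 + x.2) % 2 = 1 := by
    rw [Int.odd_iff, Int.odd_iff] at h1
    rw [Int.even_iff, Int.even_iff] at h2
    omega
  by_cases h : sd x 0 = n
  · have h3 : iv x ∈ rb n := Finset.mem_image_of_mem _
      (Finset.mem_filter.2 ⟨(Pc.Pfe.mem_ring n x).2 h, hx⟩)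
    simp only [if_neg h1, if_neg h2, if_pos h, if_pos h3, Bool.not_false]
  · have h3 : iv x ∉ rb n := fun h' => by
      obtain ⟨y, hy, e⟩ := Finset.mem_image.1 h'
      obtain ⟨y1, y2⟩ := Finset.mem_filter.1 hy
      have e1 : (y.1 + y.2 + 1) / 2 = (x.1 + x.2 + 1) / 2 := congrArg Prod.fst e
      have e2 : (y.2 - y.1 + 1) / 2 = (x.2 - x.1 + 1) / 2 := congrArg Prod.snd e
      have e3 : y = x := Prod.ext (by omega) (by omega)
      exact h (e3 ▸ (Pc.Pfe.mem_ring n y).1 y1)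
    simp only [if_neg h1, if_neg h2, if_neg h, if_neg h3]

end Pfe

open Pfe in
theorem t_pfe (hs : T_sym) (hq : T_qi) (hi : S_int) : T_pfe := by
  intro r φ hr hφ n hn
  have := hφ.1
  have h4 : (0 : ℝ) < (1 + r) ^ (rb n).card := by positivity
  refine ⟨1 / (1 + r) ^ (rb n).card, by positivity, fun A B hA hB hAB => ?_⟩
  have hA' := (hs r φ hr hφ _ hA).1
  have hB' := (hs r φ hr hφ _ hB).1
  have h1 := (hq r φ hr hφ).2.2 (rb n) _ hB' fun ω => Pc.Pfe.ind_nonneg _ _
  have h2 : ∫ s, ind A (cq s) ∂φ ≤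
      ∫ ω, ind B (cq (fun v => if v ∈ rb n then false else ω v)) ∂φ := by
    refine integral_mono (integ hi hA') (integ hi (loc_ov hB' (rb n))) fun s => ?_
    show ind A (cq s) ≤ ind B (cq (fun v => if v ∈ rb n then false else s v))
    rw [cq_ov hn]
    by_cases hs : cq s ∈ A
    · have h3 := hAB _ hs
      unfold ind
      rw [if_pos hs, if_pos h3]
    · have h3 : ind A (cq s) = 0 := by unfold ind; rw [if_neg hs]
      rw [h3]
      exact Pc.Pfe.ind_nonneg _ _
  show 1 / (1 + r) ^ (rb n).card * ∫ s, ind A (cq s) ∂φ ≤ ∫ s, ind B (cq s) ∂φ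
  rw [one_div, inv_mul_le_iff₀ h4]
  exact h2.trans h1

end Vale.Agent.P167.Q
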