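import Vale.Agent.P167.QStm
import Vale.Agent.P167.PcPhi

/-! The product over all loops equals the product over the loops meeting the window. -/

open MeasureTheory Filter Topology Finset

namespace Vale.Agent.P167.Q

open Vale.Agent.P152 Vale.Agent.P167.Pc

namespace Phi

theorem factor (hw : S_wind) (ht : S_turn) (a : ℝ) {δ : ℝ} {f : ℝ × ℝ → ℝ} {X : Finset (ℤ × ℤ)}
    {g : ℤ × ℤ → ℝ} {W : Finset Edge} {j : Edge → ℝ} (R : Rep δ f X g W j) (ω : Bond) (e : Edge)
    (hf : (loop ω e).Finite) :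
    Real.cos (a / 4 * (∑ᶠ b ∈ loop ω e, kap pz ω b : ℤ) +
      ∑ b ∈ W, j b * ul (loop ω e) b) = Real.cos (a + mass δ f (loop ω e)) := by
  obtain ⟨x, hx, hl, hy⟩ := hw ω e hf
  have h1 := Pc.Phi.sum_ul R _ _ hy
  have h2 := Pc.Phi.loop_eq hx
  have h3 := ht ω x (by rw [h2]; exact hf) (by rw [h2]; exact hl)
  rw [h2] at h3
  rw [h1, h3]
  cases pz x
  · simp only [sg, Bool.false_eq_true, if_false]
    rw [← Real.cos_neg]
    refine congrArg Real.cos ?_
    push_cast
    ring
  · simp only [sg, if_true]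
    refine congrArg Real.cos ?_
    push_cast
    ring

end Phi

theorem t_phi (hb : Pc.S_bas) (hw : S_wind) (ht : S_turn) : T_phi := by
  classical
  intro q δ f X g W j hq1 hq4 R ω hW
  have hs1 : 1 ≤ √q := Real.one_le_sqrt.2 hq1
  have hs2 : √q ≤ 2 := Real.sqrt_le_iff.2 ⟨by norm_num, by linarith⟩
  have hc : Real.cos (Real.arccos (√q / 2)) = √q / 2 :=
    Real.cos_arccos (by linarith) (by linarith)
  have hs0 : √q ≠ 0 := by linarith
  unfold Phq PL
  rw [finprod_mem_eq_prod_of_inter_mulSupport_eq _ (t := W.image (loop ω))]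
  · refine Finset.prod_congr (by congr) fun l hl => ?_
    obtain ⟨e, he, rfl⟩ := Finset.mem_image.1 hl
    rw [Phi.factor hw ht _ R ω e (hW e he), hc]
    field_simp
  · ext l
    simp only [Set.mem_inter_iff, Finset.mem_coe, Function.mem_mulSupport]
    constructor
    · rintro ⟨hl, hm⟩
      refine ⟨Pc.Phi.sub_image hw R ω hl fun h0 => hm ?_, hm⟩
      rw [h0, add_zero, hc]
      field_simp
    · rintro ⟨hl, hm⟩
      obtain ⟨e, he, rfl⟩ := Finset.mem_image.1 hl
      exact ⟨⟨hW e he, e, rfl⟩, hm⟩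

end Vale.Agent.P167.Q
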