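import Vale.Agent.P167.QStm

namespace Vale.Agent.P167.Q

open Vale.Agent.P152 Vale.Agent.P167.Pc

namespace Pl

theorem gen {X : Type} {p q : X → X → Prop} (h : ∀ u w, p u w → q u w) {x y : X}
    (c : Relation.EqvGen p x y) : Relation.EqvGen q x y := by
  induction c with
  | rel u w e => exact Relation.EqvGen.rel _ _ (h u w e)
  | refl u => exact Relation.EqvGen.refl u
  | symm u w _ ih => exact Relation.EqvGen.symm _ _ ih
  | trans u v w _ _ i1 i2 => exact Relation.EqvGen.trans _ _ _ i1 i2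

theorem up {S : Finset (ℤ × ℤ)} {R : ℤ × ℤ → ℤ × ℤ → Prop} (hR : ∀ u w, R u w → Bd S u w)
    {ω ω' : Bond} (h : ∀ e ∈ S, ω e ≤ ω' e) {x y : ℤ × ℤ} (c : Cn ea eb R ω x y) :
    Cn ea eb (Bd S) ω' x y := by
  refine gen (fun u w e => ?_) c
  rcases e with ⟨v, h1, h2, h3⟩ | e
  · by_cases hv : v ∈ S
    · exact Or.inl ⟨v, Bool.le_iff_imp.1 (h v hv) h1, h2, h3⟩
    · exact Or.inr ⟨⟨v, hv, Or.inl h2.symm⟩, v, hv, Or.inr h3.symm⟩
  · exact Or.inr (hR u w e)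

theorem low {S : Finset (ℤ × ℤ)} {ω ω' : Bond} (h0 : ∀ e ∉ S, ω' e = false)
    (h : ∀ e ∈ S, ω' e ≤ ω e) {x y : ℤ × ℤ} (c : Cn ea eb nil ω' x y) : Cn ea eb nil ω x y := by
  refine gen (fun u w e => ?_) c
  rcases e with ⟨v, h1, h2, h3⟩ | e
  · by_cases hv : v ∈ S
    · exact Or.inl ⟨v, Bool.le_iff_imp.1 (h v hv) h1, h2, h3⟩
    · rw [h0 v hv] at h1
      exact absurd h1 Bool.false_ne_true
  · exact Or.inr e

theorem bd {S S' : Finset (ℤ × ℤ)} (hS : S ⊆ S') (u w : ℤ × ℤ) (h : Bd S' u w) : Bd S u w := by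
  obtain ⟨⟨v, h1, h2⟩, v', h3, h4⟩ := h
  exact ⟨⟨v, fun e => h1 (hS e), h2⟩, v', fun e => h3 (hS e), h4⟩

end Pl

theorem t_pl (hl : T_lin) (hd : T_dom) : T_pl := by
  intro r S S' F hr hS hF hD
  have hi : Set.InjOn (id : ℤ × ℤ → ℤ × ℤ) (S : Set (ℤ × ℤ)) := fun _ _ _ _ e => e
  refine ⟨?_, fun ξ H h0 hH => ?_⟩
  · have e := (hd _ _ _ _ r ea eb (Bd S') S' (fun _ => false) ea eb (Bd S) S (fun _ => false) id F
      (fun _ => 1) hr hi (fun _ h => hS h) hF hD (fun _ => zero_le_one) fun _ _ _ => rfl).1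
      fun ω ω' _ _ _ h e _ c => Pl.up (Pl.bd hS) h c
    rw [(hl _ _ r ea eb (Bd S') S' (fun _ => false) (by linarith)).1 1, mul_one] at e
    simp only [mul_one] at e
    exact e
  · have hH' : Dep (id '' (S : Set (ℤ × ℤ)))ᶜ H := by rwa [Set.image_id]
    exact ⟨(hd _ _ _ _ r ea eb nil S' ξ ea eb nil S (fun _ => false) id F H hr hi
        (fun _ h => hS h) hF hD h0 hH').2 fun ω ω' _ _ h1 h e _ c => Pl.low h1 h c,
      (hd _ _ _ _ r ea eb nil S' ξ ea eb (Bd S) S (fun _ => false) id F H hr hi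
        (fun _ h => hS h) hF hD h0 hH').1
        fun ω ω' _ _ _ h e _ c => Pl.up (fun _ _ x => False.elim x) h c⟩

end Vale.Agent.P167.Q
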