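import Vale.Agent.P167.QStm2
import Vale.Agent.P152.CTm

/-! P167, random-cluster model: positivity of the end vectors. -/

open Finset

namespace Vale.Agent.P167.Q

open Vale.Agent.P152 Vale.Agent.P167.Pc

namespace Pos

theorem pw {S : Type} [Fintype S] [DecidableEq S] {V : Matrix S S ℝ} (h0 : ∀ a b, 0 ≤ V a b)
    {j : ℕ} (hj : ∀ a b, 0 < (V ^ (j + 1)) a b) {n : ℕ} (hn : j + 1 ≤ n) :
    ∀ a b, 0 < (V ^ n) a b := by
  induction n, hn using Nat.le_induction with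
  | base => exact hj
  | succ n _ ih =>
    intro a b
    have h := (hj a b).ne'
    rw [pow_succ, Matrix.mul_apply] at h ⊢
    obtain ⟨e, -, he⟩ := exists_ne_zero_of_sum_ne_zero h
    exact sum_pos' (fun x _ => mul_nonneg (ih a x).le (h0 x b))
      ⟨e, mem_univ _, mul_pos (ih a e) ((h0 e b).lt_of_ne' (right_ne_zero_of_mul he))⟩

theorem tri {S H : Type} [Fintype H] {P : Matrix S H ℝ} {Q : Matrix H H ℝ} {T : Matrix H S ℝ}
    (hP : ∀ a b, 0 ≤ P a b) (hQ : ∀ a b, 0 < Q a b) (hT : ∀ a b, 0 ≤ T a b) (x s : S) :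
    0 ≤ (P * Q * T) x s ∧ ∀ a b, P x a ≠ 0 → T b s ≠ 0 → 0 < (P * Q * T) x s := by
  have h1 : ∀ b, 0 ≤ (P * Q) x b := fun b => sum_nonneg fun a _ => mul_nonneg (hP x a) (hQ a b).le
  refine ⟨sum_nonneg fun b _ => mul_nonneg (h1 b) (hT b s), fun a b ha hb =>
    sum_pos' (fun b _ => mul_nonneg (h1 b) (hT b s)) ⟨b, mem_univ _, mul_pos
      (sum_pos' (fun a _ => mul_nonneg (hP x a) (hQ a b).le)
        ⟨a, mem_univ _, mul_pos ((hP x a).lt_of_ne' ha) (hQ a b)⟩) ((hT b s).lt_of_ne' hb)⟩⟩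

end Pos

theorem t_pos (hb : P152.S_bas) (hp : S_prim) (ht : S_tm) : T_pos := by
  have _ := ht
  intro c l hc
  obtain ⟨-, -, h2, j, h3⟩ := hp c l hc
  refine ⟨j + 2, fun k hk s t h => ?_⟩
  obtain ⟨k, rfl⟩ : ∃ m, k = m + 1 := ⟨k - 1, by omega⟩
  have b0 : CBal (ctm_s l) := hb.bal l _ true fun y _ => ctm_s_ne y
  have b1 : ctm_T c l ⟨fun y => ctm_s l (y, true), b0⟩ (ctm_s l) = 1 := by
    rw [ctm_T, if_pos b0]
    exact Finset.prod_eq_one fun y _ => by simp [vwt, ctm_s]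
  have b2 : ctm_P l (ctm_s l) ⟨fun y => ctm_s l (y, true), b0⟩ = 1 := if_pos rfl
  have b3 : uL (ctm_s l) = 1 := if_pos ⟨fun _ => rfl, fun y _ => ctm_s_ne y⟩
  have b4 : uR (ctm_s l) = 1 := if_pos fun y _ => ctm_s_ne y
  have b5 : ∀ x : Colc l, 0 ≤ uL x ∧ 0 ≤ uR x := fun x => by
    unfold uL uR
    constructor <;> split_ifs <;> norm_num
  rw [← ctm_PT, Matrix.mul_apply] at h
  obtain ⟨ξ, -, hξ⟩ := exists_ne_zero_of_sum_ne_zero h
  have k1 := Pos.tri ctm_P_nonneg (Pos.pw h2 h3 (show j + 1 ≤ k by omega)) (ctm_T_nonneg hc)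
  have k2 := Pos.tri ctm_P_nonneg (Pos.pw h2 h3 (show j + 1 ≤ k + 1 by omega)) (ctm_T_nonneg hc)
  rw [ctm_pow, ctm_pow]
  refine ⟨sum_pos' (fun x _ => mul_nonneg (b5 x).1 (k1 x s).1) ⟨ctm_s l, mem_univ _, ?_⟩,
    sum_pos' (fun y _ => mul_nonneg (k2 t y).1 (b5 y).2) ⟨ctm_s l, mem_univ _, ?_⟩⟩
  · rw [b3, one_mul]
    exact (k1 _ s).2 _ ξ (b2.trans_ne one_ne_zero) (right_ne_zero_of_mul hξ)
  · rw [b4, mul_one]
    exact (k2 t _).2 ξ _ (left_ne_zero_of_mul hξ) (b1.trans_ne one_ne_zero)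

end Vale.Agent.P167.Q
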