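import Vale.Agent.P167.QStm

/-! Exponential moments of a product and the entropy inequality. -/

open MeasureTheory Filter Topology Finset

namespace Vale.Agent.P167.Q

open Vale.Agent.P152 Vale.Agent.P167.Pc

namespace Prod

theorem exp_bd {s b y : ℝ} (hs : 0 ≤ s) (hb : s * b ≤ 1) (hy : |y| ≤ b) :
    Real.exp (s * y) ≤ 1 + s * y + (s * b) ^ 2 := by
  have h1 : |s * y| ≤ s * b := by
    rw [abs_mul, abs_of_nonneg hs]
    exact mul_le_mul_of_nonneg_left hy hs
  have h2 := Real.abs_exp_sub_one_sub_id_le (h1.trans hb)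
  have h3 : (s * y) ^ 2 ≤ (s * b) ^ 2 := by
    rw [← sq_abs (s * y)]
    exact pow_le_pow_left₀ (abs_nonneg _) h1 2
  linarith [le_abs_self (Real.exp (s * y) - 1 - s * y)]

end Prod

theorem t_prod : T_prod := by
  intro Ω ι _ _ I w Y g b s hw hY hs hb hg
  suffices h : ∀ J : Finset ι, J ⊆ I → ∑ ω, w ω * ∏ i ∈ J, Real.exp (s * Y i ω) ≤
      Real.exp (J.card * (s * g + (s * b) ^ 2)) * ∑ ω, w ω from h I subset_rfl
  intro J
  induction J using Finset.induction_on with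
  | empty => intro _; simp
  | insert i J hi ih =>
    intro hJ
    have hJI : J ⊆ I := (subset_insert i J).trans hJ
    have h1 := hg J hJI i (hJ (mem_insert_self i J)) hi
    have h2 := ih hJI
    have p : ∀ ω, 0 ≤ w ω * ∏ j ∈ J, Real.exp (s * Y j ω) := fun ω =>
      mul_nonneg (hw ω) (prod_nonneg fun j _ => (Real.exp_pos _).le)
    have p0 : 0 ≤ ∑ ω, w ω * ∏ j ∈ J, Real.exp (s * Y j ω) := sum_nonneg fun ω _ => p ω
    have h3 : ∑ ω, w ω * ∏ j ∈ insert i J, Real.exp (s * Y j ω) ≤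
        (1 + (s * b) ^ 2) * ∑ ω, w ω * ∏ j ∈ J, Real.exp (s * Y j ω) +
          s * ∑ ω, w ω * (Y i ω * ∏ j ∈ J, Real.exp (s * Y j ω)) := by
      rw [mul_sum, mul_sum, ← sum_add_distrib]
      refine sum_le_sum fun ω _ => ?_
      rw [prod_insert hi]
      have := mul_le_mul_of_nonneg_left (Prod.exp_bd hs hb (hY i ω)) (p ω)
      linarith
    have h4 := mul_le_mul_of_nonneg_left h1 hs
    have h5 := mul_le_mul_of_nonneg_right (Real.add_one_le_exp (s * g + (s * b) ^ 2)) p0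
    have h6 := mul_le_mul_of_nonneg_left h2 (Real.exp_pos (s * g + (s * b) ^ 2)).le
    rw [← mul_assoc, ← Real.exp_add] at h6
    rw [card_insert_of_notMem hi]
    have e : ((J.card + 1 : ℕ) : ℝ) * (s * g + (s * b) ^ 2) =
        s * g + (s * b) ^ 2 + J.card * (s * g + (s * b) ^ 2) := by
      push_cast
      ring
    rw [e]
    linarith

theorem t_jen : T_jen := by
  intro Ω ι _ I w U Y κ K x s y hw hw0 hκ hs hU hx hy
  have U0 : ∀ ω, 0 ≤ U ω := fun ω => (mul_nonneg hκ.le (hw ω)).trans (hU ω).1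
  have z1 : κ * ∑ ω, w ω ≤ ∑ ω, U ω := by
    rw [mul_sum]
    exact sum_le_sum fun ω _ => (hU ω).1
  have Z0 : 0 < ∑ ω, U ω := (mul_pos hκ hw0).trans_le z1
  obtain ⟨a, ha⟩ : ∃ a : ℝ, a = I.card * s * x := ⟨_, rfl⟩
  rw [← ha]
  have h1 : a * ∑ ω, U ω ≤ ∑ ω, U ω * ∑ i ∈ I, s * Y i ω := by
    have e : ∑ ω, U ω * ∑ i ∈ I, s * Y i ω = ∑ i ∈ I, s * ∑ ω, U ω * Y i ω := by
      simp only [mul_sum]
      rw [sum_comm]
      exact sum_congr rfl fun i _ => sum_congr rfl fun ω _ => by ring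
    have h := sum_le_sum fun i (hi : i ∈ I) => mul_le_mul_of_nonneg_left (hx i hi) hs
    rw [sum_const, nsmul_eq_mul] at h
    rw [e, ha]
    linarith
  have h2 : ∑ ω, Real.exp a * ((1 - a) * U ω + U ω * ∑ i ∈ I, s * Y i ω) ≤
      ∑ ω, Real.exp K * κ * (w ω * ∏ i ∈ I, Real.exp (s * Y i ω)) := by
    refine sum_le_sum fun ω _ => ?_
    rw [← Real.exp_sum]
    generalize ∑ i ∈ I, s * Y i ω = X
    have k1 : Real.exp a * (X - a + 1) ≤ Real.exp X := by
      have := mul_le_mul_of_nonneg_left (Real.add_one_le_exp (X - a)) (Real.exp_pos a).le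
      rwa [← Real.exp_add, add_sub_cancel] at this
    have k2 := mul_le_mul_of_nonneg_left k1 (U0 ω)
    have k3 := mul_le_mul_of_nonneg_right (hU ω).2 (Real.exp_pos X).le
    linarith
  rw [← mul_sum, ← mul_sum, sum_add_distrib, ← mul_sum] at h2
  have h3 := mul_le_mul_of_nonneg_left hy (mul_pos (Real.exp_pos K) hκ).le
  have h4 := mul_le_mul_of_nonneg_left z1 (mul_pos (Real.exp_pos K) (Real.exp_pos y)).le
  have h5 := mul_le_mul_of_nonneg_left h1 (Real.exp_pos a).le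
  have h6 : Real.exp a * ∑ ω, U ω ≤ Real.exp (K + y) * ∑ ω, U ω := by
    rw [Real.exp_add]
    linarith
  exact Real.exp_le_exp.1 (le_of_mul_le_mul_right h6 Z0)

end Vale.Agent.P167.Q
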