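import Vale.Agent.P167.QStm2

open MeasureTheory Filter Topology Finset

namespace Vale.Agent.P167.Q

open Vale.Agent.P152 Vale.Agent.P167.Pc

namespace Prs

theorem core {Ω : Type} [Fintype Ω] [Nonempty Ω] (w U e : Ω → ℝ) (κ K x y S B : ℝ)
    (hw : ∀ ω, 0 < w ω) (hκ : 0 < κ) (he : ∀ ω, 0 ≤ e ω)
    (hU : ∀ ω, κ * w ω ≤ U ω ∧ U ω ≤ Real.exp K * κ * w ω)
    (h1 : ∑ ω, e ω * U ω ≤ Real.exp x * S) (h2 : ∑ ω, U ω = B) (h3 : S ≤ Real.exp y * B) :
    (∑ ω, w ω * e ω) / ∑ ω, w ω ≤ Real.exp (x + y + K) := by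
  have hpos : 0 < ∑ ω, w ω := Finset.sum_pos (fun ω _ => hw ω) Finset.univ_nonempty
  rw [div_le_iff₀ hpos]
  refine le_of_mul_le_mul_left ?_ hκ
  have h4 : κ * ∑ ω, w ω * e ω ≤ ∑ ω, e ω * U ω := by
    rw [Finset.mul_sum]
    refine Finset.sum_le_sum fun ω _ => ?_
    have := mul_le_mul_of_nonneg_left (hU ω).1 (he ω)
    linarith
  have h5 : B ≤ Real.exp K * κ * ∑ ω, w ω := by
    rw [← h2, Finset.mul_sum]
    exact Finset.sum_le_sum fun ω _ => (hU ω).2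
  calc κ * ∑ ω, w ω * e ω ≤ Real.exp x * S := h4.trans h1
    _ ≤ Real.exp x * (Real.exp y * (Real.exp K * κ * ∑ ω, w ω)) :=
        mul_le_mul_of_nonneg_left
          (h3.trans (mul_le_mul_of_nonneg_left h5 (Real.exp_pos _).le)) (Real.exp_pos _).le
    _ = κ * (Real.exp (x + y + K) * ∑ ω, w ω) := by
        rw [Real.exp_add, Real.exp_add]; ring

theorem cpos {a : ℝ} (h0 : 0 ≤ a) (h1 : a ≤ Real.pi / 3) : 0 < 2 * Real.cos a := by
  have := Real.pi_pos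
  have : 0 < Real.cos a := Real.cos_pos_of_mem_Ioo ⟨by linarith, by linarith⟩
  linarith

end Prs

theorem t_prs (hl : T_lin) (hc : T_cmp) (hy : T_bky) : T_prs := by
  intro a h0 h1 hab
  have hr := Prs.cpos h0 h1
  refine ⟨3, fun ε hε => ?_⟩
  obtain ⟨u0, hu0, L0, hL⟩ := hab ε hε
  refine ⟨min 1 (min (ε / 2) u0), by positivity, fun t ht => ⟨L0, fun L _ hLe hL0 => ?_⟩⟩
  have ht1 : |t| ≤ 1 := ht.trans (min_le_left _ _)
  have ht2 : |t| ≤ ε / 2 := ht.trans ((min_le_right _ _).trans (min_le_left _ _))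
  have ht3 : |t| ≤ u0 := ht.trans ((min_le_right _ _).trans (min_le_right _ _))
  obtain ⟨M0, hM⟩ := hL L hLe hL0
  refine ⟨max M0 L, fun M _ hMe hM0 => ?_⟩
  have habs : |t / 2| = |t| / 2 := by rw [abs_div, abs_two]
  have hA := hM M hMe ((le_max_left _ _).trans hM0) (t / 2)
    (by rw [habs]; linarith [abs_nonneg t])
  obtain ⟨κ, hκ, hU⟩ := hc a M L h0 h1 hMe hLe ((le_max_right _ _).trans hM0)
  obtain ⟨hy1, hy2⟩ := hy a t M L h0 h1 ht1 hMe hLe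
  have hE := (hl (Tor M L) (Tor M L) (2 * Real.cos a) (ta (pt M L)) (tb (pt M L)) nil univ
    (fun _ => false) hr).2.2.2.2.2 (fun ω => Real.exp (t * cnt univ ω)) rfl
  have key := Prs.core (wT (2 * Real.cos a) M L) (fun ω => (SL a M L ∅ 0 ω).re)
    (fun ω => Real.exp (t * cnt univ ω)) κ (3 * M) _ _ _ _
    (fun ω => mul_pos (pow_pos hr _) (pow_pos hr _)) hκ (fun ω => (Real.exp_pos _).le) hU
    hy1 hy2 hA
  unfold tE
  rw [hE]
  refine key.trans (Real.exp_le_exp.mpr ?_)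
  have hML : (0 : ℝ) ≤ M * L := by positivity
  have h2 : t ^ 2 ≤ ε / 2 * |t| := by
    rw [← sq_abs, sq]
    exact mul_le_mul_of_nonneg_right ht2 (abs_nonneg t)
  rw [habs]
  have h3 := mul_le_mul_of_nonneg_right h2 hML
  nlinarith

end Vale.Agent.P167.Q
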