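import Vale.Agent.P167.QStm2
import Vale.Agent.P167.PcPst

/-! P167, random-cluster model: the colouring is a symmetric associated mixing state. -/

open MeasureTheory Filter Topology

namespace Vale.Agent.P167.Q

open Vale.Agent.P152 Vale.Agent.P167.Pc

namespace Pst

theorem intq (hi : S_int) {φ : Measure Bond} [IsProbabilityMeasure φ] {G : Bond → ℝ}
    (h : Pc.Loc G) : Integrable G φ := by
  obtain ⟨A, hA⟩ := h
  obtain ⟨h1, ⟨b, h2⟩, -⟩ := hi A _ hA
  exact Integrable.of_bound h1.aestronglyMeasurable b (Eventually.of_forall h2)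

theorem cq_anti : Antitone cq := by
  intro s s' h
  refine Pc.Pst.col_mono fun x => ?_
  have := h (iv x)
  revert this
  cases s (iv x) <;> cases s' (iv x) <;> simp

theorem neg_loc {G : Bond → ℝ} (h : Pc.Loc G) : Pc.Loc fun ω => -G ω :=
  h.imp fun _ k ω ω' e => congrArg Neg.neg (k ω ω' e)

theorem farq (S B : Finset (ℤ × ℤ)) :
    ∀ᶠ t : Site in cofinite, Disjoint S (B.image fun x => iv (tr2 t x)) := by
  rw [Filter.eventually_cofinite]
  refine (((S ×ˢ B).image fun p => (((p.1.1 - (iv p.2).1) - (p.1.2 - (iv p.2).2)) / 2,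
    ((p.1.1 - (iv p.2).1) + (p.1.2 - (iv p.2).2)) / 2)).finite_toSet).subset fun t ht => ?_
  obtain ⟨x, hx, hx'⟩ := Finset.not_disjoint_iff.1 ht
  obtain ⟨y, hy, rfl⟩ := Finset.mem_image.1 hx'
  refine Finset.mem_coe.2 (Finset.mem_image.2
    ⟨(iv (tr2 t y), y), Finset.mem_product.2 ⟨hx, hy⟩, ?_⟩)
  simp only [tr2, iv, Prod.ext_iff]
  omega

end Pst

open Pst in
theorem t_pst (hs : T_sym) (hq : T_qi) (hm : T_qm) (hi : S_int) : T_pst := by
  intro r φ hr hφ
  have := hφ.1
  have loc : ∀ {F}, CLoc F → Pc.Loc fun ω => F (cq ω) := fun h => (hs r φ hr hφ _ h).1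
  refine ⟨fun F G hF hG => integral_add (intq hi (loc hF)) (intq hi (loc hG)),
    fun a F _ => integral_const_mul a _, fun F _ h => integral_nonneg fun s => h _, by simp [pq],
    fun F G hF hG mF mG => ?_, fun t F hF => (hs r φ hr hφ _ hF).2.1 t,
    fun F hF => (hs r φ hr hφ _ hF).2.2.1, fun F hF => (hs r φ hr hφ _ hF).2.2.2.1,
    fun F G hF hG => ?_⟩
  · have k := (hq r φ hr hφ).2.1 _ _ (neg_loc (loc hF)) (neg_loc (loc hG))
      (mF.comp_antitone cq_anti).neg (mG.comp_antitone cq_anti).neg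
    simp only [integral_neg, neg_mul_neg] at k
    exact k
  have htr := (hs r φ hr hφ _ hG).2.1
  obtain ⟨B, hB⟩ := hG
  obtain ⟨-, ⟨b, hb⟩, -⟩ := hi B G hB
  have b1 : 0 < |b| + 1 := by positivity
  rw [Metric.tendsto_nhds]
  intro ε hε
  obtain ⟨S, hS⟩ := hm r φ hr hφ _ (loc hF) (ε / 2 / (|b| + 1)) (by positivity)
  filter_upwards [farq S B] with t ht
  have k := hS _ (fun ω => (|b| + 1)⁻¹ * cmv (tr2 t) G (cq ω))
    (fun ω ω' h => by
      refine congrArg _ (hB _ _ fun x hx => ?_)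
      exact Pc.Pst.col_congr (s := fun x => !ω (iv x)) (s' := fun x => !ω' (iv x)) (x := tr2 t x)
        (congrArg not (h _ (Finset.mem_coe.2 (Finset.mem_image_of_mem _ hx))))) ht
    (fun ω => by
      rw [abs_mul, abs_of_pos (inv_pos.2 b1), inv_mul_le_iff₀ b1, mul_one]
      exact (hb _).trans ((le_abs_self b).trans (le_add_of_nonneg_right zero_le_one)))
  simp only [mul_left_comm _ (|b| + 1)⁻¹, integral_const_mul] at k
  rw [← mul_sub, abs_mul, abs_of_pos (inv_pos.2 b1), inv_mul_le_iff₀ b1,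
    mul_div_cancel₀ _ b1.ne'] at k
  rw [Real.dist_eq, ← htr t]
  exact k.trans_lt (half_lt_self hε)

end Vale.Agent.P167.Q
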