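import Vale.Agent.P167.QStm

/-! P167, random-cluster model: invariance, association and finite energy in infinite volume. -/

open MeasureTheory Filter Topology

namespace Vale.Agent.P167.Q

open Vale.Agent.P167.Pc

namespace Qi

theorem lim {r : ℝ} {φ : Measure Bond} (h : FKm r φ) {F : Bond → ℝ} (hF : Pc.Loc F) :
    Tendsto (fun S => f0 r S F) atTop (𝓝 (∫ ω, F ω ∂φ)) := by
  refine Metric.tendsto_nhds.2 fun ε hε => ?_
  obtain ⟨S₀, h0⟩ := h.2 F hF (ε / 2) (half_pos hε)
  filter_upwards [eventually_ge_atTop S₀] with S hS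
  exact ((h0 S hS).1 _).trans_lt (half_lt_self hε)

theorem map_top (ρ : ℤ × ℤ ≃ ℤ × ℤ) :
    Tendsto (fun S : Finset (ℤ × ℤ) => S.map ρ.toEmbedding) atTop atTop := by
  refine tendsto_atTop.2 fun S₀ => ?_
  filter_upwards [eventually_ge_atTop (S₀.map ρ.symm.toEmbedding)] with S hS v hv
  exact Finset.mem_map.2 ⟨ρ.symm v, hS (Finset.mem_map_of_mem _ hv), ρ.apply_symm_apply v⟩

end Qi

theorem t_qi (hl : T_lin) (hf : T_fkg) (he : T_fe) (hs : T_iso) : T_qi := by
  intro r φ hr h
  refine ⟨fun ρ π F ha hF => ?_, fun F G hF hG mF mG => ?_, fun T G hG G0 => ?_⟩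
  · have l : Pc.Loc fun ω => F (ω ∘ ρ) := by
      obtain ⟨S, hS⟩ := hF
      exact ⟨S.map ρ.toEmbedding, fun ω ω' k =>
        hS _ _ fun v hv => k _ (Finset.mem_map_of_mem ρ.toEmbedding hv)⟩
    exact tendsto_nhds_unique (((Qi.lim h l).comp (Qi.map_top ρ)).congr fun S =>
      (hs r ρ π ha S F).1) (Qi.lim h hF)
  · have l : Pc.Loc fun ω => F ω * G ω := by
      obtain ⟨S, hS⟩ := hF
      obtain ⟨S', hS'⟩ := hG
      exact ⟨S ∪ S', fun ω ω' k => by
        dsimp only
        rw [hS ω ω' fun v hv => k v (Finset.mem_union_left _ hv),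
          hS' ω ω' fun v hv => k v (Finset.mem_union_right _ hv)]⟩
    exact le_of_tendsto_of_tendsto' ((Qi.lim h hF).mul (Qi.lim h hG)) (Qi.lim h l) fun S =>
      hf _ _ r ea eb nil S _ F G hr mF mG
  · have l : Pc.Loc fun ω => G fun v => if v ∈ T then false else ω v := by
      obtain ⟨S, hS⟩ := hG
      exact ⟨S, fun ω ω' k => hS _ _ fun v hv => by rw [k v hv]⟩
    refine le_of_tendsto_of_tendsto (Qi.lim h l) ((Qi.lim h hG).const_mul _) ?_
    filter_upwards [eventually_ge_atTop T] with S hS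
    refine (he _ _ r ea eb nil S T _ false G hr hS G0).trans (mul_le_mul_of_nonneg_left
      ((hl _ _ r ea eb nil S _ (by linarith)).2.2.2.1 _ _ fun ω => ?_) (by positivity))
    refine mul_le_of_le_one_right (G0 ω) ?_
    unfold chi
    split_ifs <;> norm_num

end Vale.Agent.P167.Q
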