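import Vale.Agent.P167.QStm

/-! P167, random-cluster model: mixing of the infinite volume measure. -/

open MeasureTheory Filter Topology Finset

namespace Vale.Agent.P167.Q

open Vale.Agent.P152 Vale.Agent.P167.Pc

namespace Qm

theorem loc_of {T : Finset (ℤ × ℤ)} {F : Bond → ℝ} (h : Dep (T : Set (ℤ × ℤ)) F) : Pc.Loc F :=
  ⟨T, fun ω ω' e => h ω ω' fun v hv => e v (mem_coe.1 hv)⟩

theorem loc_mul {F G : Bond → ℝ} (hF : Pc.Loc F) (hG : Pc.Loc G) : Pc.Loc fun ω => F ω * G ω := by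
  obtain ⟨S, hS⟩ := hF
  obtain ⟨T, hT⟩ := hG
  exact ⟨S ∪ T, fun ω ω' e => by
    simp only [hS ω ω' fun v hv => e v (mem_union_left _ hv),
      hT ω ω' fun v hv => e v (mem_union_right _ hv)]⟩

theorem intg (hi : S_int) (φ : Measure Bond) [IsProbabilityMeasure φ] {G : Bond → ℝ}
    (h : Pc.Loc G) : Integrable G φ := by
  obtain ⟨S, hS⟩ := h
  obtain ⟨m, ⟨b, hb⟩, -⟩ := hi S G hS
  exact Integrable.of_bound m.aestronglyMeasurable b (Eventually.of_forall hb)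

theorem tend {r : ℝ} {φ : Measure Bond} (h : FKm r φ) {G : Bond → ℝ} (hG : Pc.Loc G) :
    Tendsto (fun S => fx r S (fun _ => false) G) atTop (𝓝 (∫ ω, G ω ∂φ)) := by
  refine Metric.tendsto_nhds.2 fun ε hε => ?_
  obtain ⟨S₀, h0⟩ := h.2 G hG (ε / 2) (half_pos hε)
  exact (eventually_ge_atTop S₀).mono fun S hS =>
    ((h0 S hS).1 _).trans_lt (half_lt_self hε)

theorem mono (hp : T_pl) (hi : S_int) {r : ℝ} {φ : Measure Bond} (hr : 1 ≤ r) (h : FKm r φ)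
    {F : Bond → ℝ} {T0 : Finset (ℤ × ℤ)} (hF : Dep (T0 : Set (ℤ × ℤ)) F) (hm : Monotone F)
    {η : ℝ} (hη : 0 < η) : ∃ S : Finset (ℤ × ℤ), ∀ (T : Finset (ℤ × ℤ)) (H : Bond → ℝ),
      Dep (T : Set (ℤ × ℤ)) H → Disjoint S T → (∀ ω, |H ω| ≤ 1) →
      |∫ ω, F ω * H ω ∂φ - (∫ ω, F ω ∂φ) * ∫ ω, H ω ∂φ| ≤ 2 * η := by
  have := h.1
  have lF := loc_of hF
  obtain ⟨S₀, h0⟩ := h.2 F lF η hη
  refine ⟨S₀ ∪ T0, fun T H hH hd h1 => ?_⟩
  obtain ⟨a0, a1⟩ := h0 (S₀ ∪ T0) subset_union_left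
  have dF : Dep ((S₀ ∪ T0 : Finset (ℤ × ℤ)) : Set (ℤ × ℤ)) F := fun ω ω' e =>
    hF ω ω' fun v hv => e v (mem_coe.2 (mem_union_right _ (mem_coe.1 hv)))
  have dK : Dep ((S₀ ∪ T0 : Finset (ℤ × ℤ)) : Set (ℤ × ℤ))ᶜ fun ω => H ω + 1 := fun ω ω' e => by
    simp only [hH ω ω' fun v hv => e v fun hv' => disjoint_left.1 hd (mem_coe.1 hv') (mem_coe.1 hv)]
  have lH := loc_of hH
  have lK : Pc.Loc fun ω => H ω + 1 := loc_of (T := T) fun ω ω' e => by simp only [hH ω ω' e]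
  have k0 : ∀ ω, 0 ≤ H ω + 1 := fun ω => by linarith [(abs_le.1 (h1 ω)).1]
  have t1 := tend h lK
  have t2 := tend h (loc_mul lF lK)
  have b0 := le_of_tendsto_of_tendsto (t1.const_mul (f0 r (S₀ ∪ T0) F)) t2
    ((eventually_ge_atTop (S₀ ∪ T0)).mono fun S hS =>
      ((hp r _ S F hr hS hm dF).2 _ _ k0 dK).1)
  have b1 := le_of_tendsto_of_tendsto t2 (t1.const_mul (f1 r (S₀ ∪ T0) F))
    ((eventually_ge_atTop (S₀ ∪ T0)).mono fun S hS =>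
      ((hp r _ S F hr hS hm dF).2 _ _ k0 dK).2)
  have e1 : ∫ ω, (H ω + 1) ∂φ = ∫ ω, H ω ∂φ + 1 := by
    rw [integral_add (intg hi φ lH) (integrable_const _)]
    simp
  have e2 : ∫ ω, F ω * (H ω + 1) ∂φ = ∫ ω, F ω * H ω ∂φ + ∫ ω, F ω ∂φ := by
    simp only [mul_add, mul_one]
    exact integral_add (intg hi φ (loc_mul lF lH)) (intg hi φ lF)
  have e3 : |∫ ω, H ω ∂φ| ≤ 1 := by
    simpa using norm_integral_le_of_norm_le_const (μ := φ) (f := H) (Eventually.of_forall h1)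
  rw [e1, e2] at b0 b1
  have a2 : |f0 r (S₀ ∪ T0) F - ∫ ω, F ω ∂φ| ≤ η := a0 _
  rw [abs_le] at a1 a2 e3 ⊢
  constructor <;> nlinarith [a1.2, a2.1, e3.1, e3.2]

end Qm

open Qm

theorem t_qm (hl : T_lin) (hp : T_pl) (hd : T_dif) (hi : S_int) : T_qm := by
  have _hl := hl
  intro r φ hr h F ⟨T0, hT⟩ ε hε
  have := h.1
  obtain ⟨-, ⟨b, hb⟩, -⟩ := hi T0 F hT
  have dF : Dep (T0 : Set (ℤ × ℤ)) F := fun ω ω' e => hT ω ω' fun v hv => e v (mem_coe.2 hv)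
  obtain ⟨m1, -, m2⟩ := hd T0 F b hb dF
  have d2 : Dep (T0 : Set (ℤ × ℤ)) fun ω : Bond => 2 * b * ∑ v ∈ T0, op v ω := fun ω ω' e => by
    simp only
    rw [sum_congr rfl fun v hv => show op v ω = op v ω' by simp only [op, e v (mem_coe.2 hv)]]
  have d1 : Dep (T0 : Set (ℤ × ℤ)) fun ω : Bond => 2 * b * ∑ v ∈ T0, op v ω + F ω :=
    fun ω ω' e => congrArg₂ (· + ·) (d2 ω ω' e) (dF ω ω' e)
  obtain ⟨S1, h1⟩ := mono hp hi hr h d1 m1 (η := ε / 4) (by linarith)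
  obtain ⟨S2, h2⟩ := mono hp hi hr h d2 m2 (η := ε / 4) (by linarith)
  refine ⟨S1 ∪ S2, fun T H hH hD hH1 => ?_⟩
  have a1 := h1 T H hH (disjoint_union_left.1 hD).1 hH1
  have a2 := h2 T H hH (disjoint_union_left.1 hD).2 hH1
  simp only [add_mul] at a1
  rw [integral_add (intg hi φ (loc_mul (loc_of d2) (loc_of hH)))
    (intg hi φ (loc_mul (loc_of dF) (loc_of hH))),
    integral_add (intg hi φ (loc_of d2)) (intg hi φ (loc_of dF)), add_mul] at a1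
  rw [abs_le] at a1 a2 ⊢
  constructor <;> linarith [a1.1, a1.2, a2.1, a2.2]

end Vale.Agent.P167.Q
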