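import Vale.Agent.P167.QStm

namespace Vale.Agent.P167.Q

open Vale.Agent.P152 Vale.Agent.P167.Pc

namespace Rat

theorem cls_eq {X : Type} {C : X → X → Prop} (hC : Equivalence C) (x y : X) :
    {z | C x z} = {z | C y z} ↔ C x y := by
  constructor
  · intro h
    have : y ∈ {z | C y z} := hC.refl y
    rw [← h] at this
    exact this
  · intro h
    ext z
    exact ⟨fun h' => hC.trans (hC.symm h) h', fun h' => hC.trans h h'⟩

theorem drop {X : Type} {C C2 : X → X → Prop} (hC : Equivalence C) (hC2 : Equivalence C2)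
    {p q : X} (h : ∀ x y, C2 x y ↔ C x y ∨ (C x p ∧ C q y) ∨ (C x q ∧ C p y)) (hpq : ¬C p q)
    {D : Set X} (hD : D.Finite) (hp : p ∈ D) (hq : q ∈ D) :
    ((fun x => {y | C2 x y}) '' D).ncard + 1 = ((fun x => {y | C x y}) '' D).ncard := by
  let D' : Set X := {x ∈ D | ¬C x q}
  have hD' : D'.Finite := hD.subset fun x hx => hx.1
  have e1 : (fun x => {y | C x y}) '' D = insert {y | C q y} ((fun x => {y | C x y}) '' D') := by
    ext s
    constructor
    · rintro ⟨x, hx, rfl⟩
      by_cases hxq : C x q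
      · exact Or.inl ((cls_eq hC x q).2 hxq)
      · exact Or.inr ⟨x, ⟨hx, hxq⟩, rfl⟩
    · rintro (rfl | ⟨x, hx, rfl⟩)
      · exact ⟨q, hq, rfl⟩
      · exact ⟨x, hx.1, rfl⟩
  have e2 : {y | C q y} ∉ (fun x => {y | C x y}) '' D' := by
    rintro ⟨x, hx, he⟩
    exact hx.2 ((cls_eq hC x q).1 he)
  have e3 : ∀ x, {y | ∃ z ∈ {y | C x y}, C2 z y} = {y | C2 x y} := fun x => by
    ext y
    exact ⟨fun ⟨z, hz, hzy⟩ => hC2.trans ((h x z).2 (Or.inl hz)) hzy,
      fun hy => ⟨x, hC.refl x, hy⟩⟩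
  have e4 : (fun x => {y | C2 x y}) '' D =
      (fun s : Set X => {y | ∃ z ∈ s, C2 z y}) '' ((fun x => {y | C x y}) '' D') := by
    rw [Set.image_image]
    simp only [e3]
    refine Set.Subset.antisymm ?_ (Set.image_mono fun x hx => hx.1)
    rintro _ ⟨x, hx, rfl⟩
    by_cases hxq : C x q
    · exact ⟨p, ⟨hp, hpq⟩, (cls_eq hC2 p x).2 ((h p x).2 (Or.inr (Or.inl
        ⟨hC.refl p, hC.symm hxq⟩)))⟩
    · exact ⟨x, ⟨hx, hxq⟩, rfl⟩
  rw [e1, Set.ncard_insert_of_notMem e2 (hD'.image _), e4, Set.InjOn.ncard_image]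
  rintro _ ⟨x, hx, rfl⟩ _ ⟨y, hy, rfl⟩ he
  simp only [e3] at he
  rcases (h x y).1 ((cls_eq hC2 x y).1 he) with h1 | h1 | h1
  · exact (cls_eq hC x y).2 h1
  · exact absurd (hC.symm h1.2) hy.2
  · exact absurd h1.1 hx.2

variable {X E : Type} [DecidableEq E] (a b : E → X) (R : X → X → Prop) (ω : E → Bool) (e : E)

theorem mono {x y : X} (h : Cn a b R ω x y) : Cn a b R (Function.update ω e true) x y := by
  refine Relation.EqvGen.mono ?_ x y h
  rintro u w (⟨v, hv, h1⟩ | h1)
  · refine Or.inl ⟨v, ?_, h1⟩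
    by_cases hve : v = e
    · rw [hve, Function.update_self]
    · rw [Function.update_of_ne hve, hv]
  · exact Or.inr h1

theorem upd (x y : X) : Cn a b R (Function.update ω e true) x y ↔
    Cn a b R ω x y ∨ (Cn a b R ω x (a e) ∧ Cn a b R ω (b e) y) ∨
      (Cn a b R ω x (b e) ∧ Cn a b R ω (a e) y) := by
  have hC : Equivalence (Cn a b R ω) := Relation.EqvGen.is_equivalence _
  have hC2 : Equivalence (Cn a b R (Function.update ω e true)) := Relation.EqvGen.is_equivalence _
  have hab : Cn a b R (Function.update ω e true) (a e) (b e) :=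
    Relation.EqvGen.rel _ _ (Or.inl ⟨e, Function.update_self .., rfl, rfl⟩)
  constructor
  · intro h
    induction h with
    | rel u w h =>
      rcases h with ⟨v, hv, h1, h2⟩ | h1
      · by_cases hve : v = e
        · subst hve h1 h2
          exact Or.inr (Or.inl ⟨hC.refl _, hC.refl _⟩)
        · rw [Function.update_of_ne hve] at hv
          exact Or.inl (Relation.EqvGen.rel _ _ (Or.inl ⟨v, hv, h1, h2⟩))
      · exact Or.inl (Relation.EqvGen.rel _ _ (Or.inr h1))
    | refl u => exact Or.inl (hC.refl u)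
    | symm u w _ ih =>
      rcases ih with h | h | h
      · exact Or.inl (hC.symm h)
      · exact Or.inr (Or.inr ⟨hC.symm h.2, hC.symm h.1⟩)
      · exact Or.inr (Or.inl ⟨hC.symm h.2, hC.symm h.1⟩)
    | trans u v w _ _ ih1 ih2 =>
      rcases ih1 with h | h | h <;> rcases ih2 with k | k | k
      · exact Or.inl (hC.trans h k)
      · exact Or.inr (Or.inl ⟨hC.trans h k.1, k.2⟩)
      · exact Or.inr (Or.inr ⟨hC.trans h k.1, k.2⟩)
      · exact Or.inr (Or.inl ⟨h.1, hC.trans h.2 k⟩)
      · exact Or.inr (Or.inl ⟨h.1, k.2⟩)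
      · exact Or.inl (hC.trans h.1 k.2)
      · exact Or.inr (Or.inr ⟨h.1, hC.trans h.2 k⟩)
      · exact Or.inl (hC.trans h.1 k.2)
      · exact Or.inr (Or.inr ⟨h.1, k.2⟩)
  · rintro (h | h | h)
    · exact mono a b R ω e h
    · exact hC2.trans (hC2.trans (mono a b R ω e h.1) hab) (mono a b R ω e h.2)
    · exact hC2.trans (hC2.trans (mono a b R ω e h.1) (hC2.symm hab)) (mono a b R ω e h.2)

end Rat

theorem t_rat : T_rat := by
  intro X E _ a b R S ω e he hω
  have hC : Equivalence (Cn a b R ω) := Relation.EqvGen.is_equivalence _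
  have hcnt : cnt S (Function.update ω e true) = cnt S ω + 1 := by
    unfold cnt
    rw [← Finset.card_insert_of_notMem (a := e) (by simp [hω])]
    congr 1
    ext v
    by_cases hve : v = e
    · simp [hve, he]
    · simp [hve]
  by_cases hab : Cn a b R ω (a e) (b e)
  · have h1 : Cn a b R (Function.update ω e true) = Cn a b R ω := by
      ext x y
      rw [Rat.upd]
      refine ⟨?_, Or.inl⟩
      rintro (h | h | h)
      · exact h
      · exact hC.trans (hC.trans h.1 hab) h.2
      · exact hC.trans (hC.trans h.1 (hC.symm hab)) h.2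
    have h2 : kk a b R S (Function.update ω e true) = kk a b R S ω := by
      unfold kk
      rw [h1]
    refine ⟨by rw [if_pos hab, h2, add_zero], hcnt, fun r _ => ?_⟩
    rw [if_pos hab, wt, wt, hcnt, h2, pow_succ]
    ring
  · have h2 : kk a b R S (Function.update ω e true) + 1 = kk a b R S ω :=
      Rat.drop hC (Relation.EqvGen.is_equivalence _) (Rat.upd a b R ω e) hab
        ((S.finite_toSet.image a).union (S.finite_toSet.image b))
        (Or.inl ⟨e, he, rfl⟩) (Or.inr ⟨e, he, rfl⟩)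
    refine ⟨by rw [if_neg hab, h2], hcnt, fun r hr => ?_⟩
    rw [if_neg hab, wt, wt, hcnt, ← h2]
    field_simp
    ring

end Vale.Agent.P167.Q
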