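import Vale.Agent.P167.QStm2

open MeasureTheory Filter Topology Finset

namespace Vale.Agent.P167.Q

open Vale.Agent.P152 Vale.Agent.P167.Pc

namespace Seq

variable {V : Type}

theorem spos [DecidableEq V] (Λ : Finset V) {w : (V → Bool) → ℝ} (hw : ∀ τ, 0 < w τ) :
    0 < ssum Λ w :=
  Finset.sum_pos (fun _ _ => hw _) ⟨∅, Finset.empty_mem_powerset _⟩

theorem key [DecidableEq V] (Λ : Finset V) (m H F : (V → Bool) → ℝ)
    (h : 0 < ssum Λ fun τ => m τ * H τ) :
    xav Λ m (fun τ => F τ * H τ) = xav Λ (fun τ => m τ * H τ) F * xav Λ m H := by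
  have h1 : (fun σ => m σ * (F σ * H σ)) = fun σ => m σ * H σ * F σ := by
    funext σ
    ring
  simp only [xav]
  rw [h1, div_mul_div_comm, mul_comm (ssum Λ fun τ => m τ * H τ) (ssum Λ m), ← div_mul_div_comm,
    div_self h.ne', mul_one]

theorem mono1 (x y : V) : Monotone (bb x y true) := by
  intro τ τ' h
  have h1 : τ x ≤ τ' x := h x
  have h2 : τ y ≤ τ' y := h y
  simp only [bb]
  revert h1 h2
  cases τ x <;> cases τ y <;> cases τ' x <;> cases τ' y <;> simp

theorem mono2 (x y : V) : Monotone fun τ => 1 - bb x y false τ := by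
  intro τ τ' h
  have h1 : τ x ≤ τ' x := h x
  have h2 : τ y ≤ τ' y := h y
  simp only [bb]
  revert h1 h2
  cases τ x <;> cases τ y <;> cases τ' x <;> cases τ' y <;> simp

theorem flip1 (x y : V) : (fun τ : V → Bool => bb x y true fun v => !τ v) = bb x y false := by
  funext τ
  simp [bb]

theorem flip2 (x y : V) :
    (fun τ : V → Bool => 1 - bb x y false fun v => !τ v) = fun τ => 1 - bb x y true τ := by
  funext τ
  simp [bb]

theorem agr (x y : V) : (fun τ : V → Bool => if τ x = τ y then (1 : ℝ) else 0) =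
    fun τ => bb x y true τ + bb x y false τ := by
  funext τ
  simp only [bb]
  cases τ x <;> cases τ y <;> simp

theorem xag_flip {E : Type} (s t : E → V) (R : Finset E) (τ : V → Bool) :
    xag s t R (fun v => !τ v) = xag s t R τ := by
  unfold xag
  refine Finset.filter_congr fun m _ => ?_
  exact Bool.not_inj_iff

end Seq

open _root_.Vale.Agent.P167.Q.Seq in
theorem t_seq (hh : SX_hol) (hm : SX_mar) (hi : SX_is) : T_seq := by
  intro V E _ c s t Λ Λ' R x y H hc hΛ hH hD hfl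
  have p1 : ∀ τ, 0 < xm c s t Λ R τ := fun τ => hi.pos V E c s t Λ _ hc
  have p2 : ∀ τ, 0 < xm c s t Λ' R τ := fun τ => hi.pos V E c s t Λ' _ hc
  have pw : ∀ τ, 0 < xm c s t Λ R τ * H τ := fun τ => mul_pos (p1 τ) (hH τ)
  have hlat : ∀ τ τ' : V → Bool, (∀ v, v ∉ Λ' → τ' v = true) →
      xm c s t Λ R τ * H τ * xm c s t Λ' R τ' ≤
        xm c s t Λ R (τ ⊓ τ') * H (τ ⊓ τ') * xm c s t Λ' R (τ ⊔ τ') := by
    intro τ τ' h
    have h1 : H (τ ⊓ τ') = H τ := by
      refine hD _ _ fun v hv => ?_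
      have h2 : τ' v = true := h v (by simpa using hv)
      rw [Pi.inf_apply, h2]
      cases τ v <;> rfl
    have h3 := hm.lat V E c s t Λ Λ' R τ τ' hc hΛ h
    rw [h1]
    nlinarith [mul_le_mul_of_nonneg_right h3 (hH τ).le]
  have hfw : ∀ τ : V → Bool, xm c s t Λ R (fun v => !τ v) * H (fun v => !τ v) =
      xm c s t Λ R τ * H τ := by
    intro τ
    rw [hfl τ]
    simp only [xm, xag_flip]
  obtain ⟨a1, a2⟩ := hh V Λ Λ' (fun τ => xm c s t Λ R τ * H τ) (xm c s t Λ' R) (bb x y true) hΛ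
    pw p2 hlat (mono1 x y)
  obtain ⟨b1, b2⟩ := hh V Λ Λ' (fun τ => xm c s t Λ R τ * H τ) (xm c s t Λ' R)
    (fun τ => 1 - bb x y false τ) hΛ pw p2 hlat (mono2 x y)
  have a3 := a2 hfw
  have b3 := b2 hfw
  rw [flip1] at a3
  rw [flip2] at b3
  have s1 := spos Λ pw
  have s2 := spos Λ' p2
  rw [xav_sub, xav_sub, xav_const s1, xav_const s2] at b1 b3
  have hZ : 0 ≤ xav Λ (xm c s t Λ R) H := div_nonneg s1.le (spos Λ p1).le
  rw [key Λ _ H _ s1, Seq.agr, xav_add]
  constructor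
  · exact mul_le_mul_of_nonneg_right (by linarith) hZ
  · exact mul_le_mul_of_nonneg_right (by linarith) hZ

end Vale.Agent.P167.Q
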