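import Vale.Agent.P167.QStm2
import Vale.Agent.P167.PcTr
import Vale.Agent.P167.PcTor

/-! P167, random-cluster model: translations of the six vertex model on the torus. -/

open Finset

namespace Vale.Agent.P167.Q

open Vale.Agent.P152 Vale.Agent.P167.Pc

namespace Sh

theorem vwt_nn {c : ℝ} (hc : 0 < c) (w e s n : Bool) : 0 ≤ vwt c w e s n := by
  unfold vwt
  split_ifs <;> positivity

variable {M L : ℕ} [NeZero M] [NeZero L]

theorem par (k : ∀ x, pt M L (pv M L x) = pz x) (v u : Tor M L) :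
    pt M L (v + u) = (pt M L v == pt M L u) := by
  obtain ⟨a, b⟩ := v
  obtain ⟨a', b'⟩ := u
  obtain ⟨a, rfl⟩ := ZMod.intCast_surjective a
  obtain ⟨b, rfl⟩ := ZMod.intCast_surjective b
  obtain ⟨a', rfl⟩ := ZMod.intCast_surjective a'
  obtain ⟨b', rfl⟩ := ZMod.intCast_surjective b'
  have e : ((a : ZMod M), (b : ZMod L)) + ((a' : ZMod M), (b' : ZMod L)) =
      pv M L ((a, b) + (a', b')) := by simp [pv]
  rw [e, show ((a : ZMod M), (b : ZMod L)) = pv M L (a, b) from rfl,
    show ((a' : ZMod M), (b' : ZMod L)) = pv M L (a', b') from rfl, k, k, k, pz, pz, pz,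
    Prod.fst_add, Prod.snd_add, add_add_add_comm]
  simp only [Int.even_add (m := a + b)]
  by_cases h : Even (a + b) <;> by_cases h' : Even (a' + b') <;> simp [h, h']

omit [NeZero M] [NeZero L] in
theorem e1 (v u : Tor M L) : ((v.1 - 1, v.2) : Tor M L) + u = ((v + u).1 - 1, (v + u).2) :=
  Prod.ext (sub_add_eq_add_sub _ _ _) rfl

omit [NeZero M] [NeZero L] in
theorem e2 (v u : Tor M L) : ((v.1, v.2 - 1) : Tor M L) + u = ((v + u).1, (v + u).2 - 1) :=
  Prod.ext rfl (sub_add_eq_add_sub _ _ _)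

end Sh

theorem t_sh (hb : Pc.S_bas) : T_sh := by
  intro c M L _ _ hc hM hL
  obtain ⟨ck, k, -⟩ := hb.2.2.2.2.2 M L hM hL
  have nn : ∀ o, 0 ≤ bw6 c M L o := fun o => by
    unfold bw6
    split_ifs
    exacts [prod_nonneg fun v _ => Sh.vwt_nn hc _ _ _ _, le_rfl]
  have hd : ∀ (u : Tor M L) (o : TOri M L) b v,
      dg M L b (fun e => o (e.1 + u, e.2)) v = dg M L (b == pt M L u) o (v + u) := by
    intro u o b v
    simp only [dg, Sh.e1, Sh.e2, Sh.par k v u]
    cases b <;> cases pt M L u <;> cases pt M L v <;> simp [ab4]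
  refine ⟨nn, sum_pos' (fun o _ => nn o) ⟨fun e => true == Pc.rf (pt M L) e, mem_univ _, ?_⟩,
    fun u o => ⟨?_, ?_, hd u o⟩⟩
  · have b : Bal M L fun e => true == Pc.rf (pt M L) e := (Tor.bal_iff _).2 fun x => by
      have k := Equiv.sum_comp (Equiv.addRight (1 : ZMod L)) fun y => sg (pt M L (x, y))
      have e : ∀ y, sg (pt M L (x, Equiv.addRight (1 : ZMod L) y)) = -sg (pt M L (x, y)) :=
        fun y => by
          rw [← Tor.sg_not, ← (ck (x, y)).2]
          simp
      simp only [e, sum_neg_distrib] at k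
      simp only [Pc.rf, Bool.true_beq]
      linarith
    rw [bw6, if_pos b]
    refine prod_pos fun v _ => ?_
    have a1 := (ck (v.1 - 1, v.2)).1
    have a2 := (ck (v.1, v.2 - 1)).2
    simp only [Prod.mk_add_mk, sub_add_cancel, add_zero, Prod.mk.eta] at a1 a2
    simp only [Pc.rf, Bool.true_beq, Bool.false_beq, ← a2]
    rw [a1]
    cases pt M L (v.1 - 1, v.2) <;> simpa [vwt] using hc
  · have t : twt c M L (fun e => o (e.1 + u, e.2)) = twt c M L o := by
      unfold twt
      rw [← Equiv.prod_comp (Equiv.addRight u) fun v : Tor M L => vwt c (o ((v.1 - 1, v.2), true))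
        (o (v, true)) (o ((v.1, v.2 - 1), false)) (o (v, false))]
      simp only [Sh.e1, Sh.e2, Equiv.coe_addRight]
    have b : Bal M L (fun e => o (e.1 + u, e.2)) ↔ Bal M L o := Tr.bal u o
    rw [bw6, bw6, t]
    by_cases h : Bal M L o
    · rw [if_pos h, if_pos (b.2 h)]
    · rw [if_neg h, if_neg fun h' => h (b.1 h')]
  · rw [AB, AB, mul_sum, ← Equiv.sum_comp (Equiv.addRight u) fun v =>
      sg (pt M L u) * (dg M L false o v - dg M L true o v)]
    simp only [hd, Equiv.coe_addRight]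
    cases pt M L u <;> simp [sg]

end Vale.Agent.P167.Q
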