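import Vale.Agent.P167.QStm

/-! P167, random-cluster model: the conditional form of the inequality of Jensen. -/

open MeasureTheory Filter Topology Finset

namespace Vale.Agent.P167.Q

open Vale.Agent.P152 Vale.Agent.P167.Pc

namespace Sj

theorem card_seam (M L : ℕ) [NeZero M] [NeZero L] :
    (univ.filter fun v : Tor M L => v.1 = 0 ∨ v.2 = 0).card ≤ L + M := by
  have h : (univ.filter fun v : Tor M L => v.1 = 0 ∨ v.2 = 0) ⊆
      univ.image (fun y : ZMod L => ((0 : ZMod M), y)) ∪
        univ.image fun x : ZMod M => (x, (0 : ZMod L)) := by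
    intro v hv
    rw [mem_filter] at hv
    rcases hv.2 with h | h
    · exact mem_union_left _ (mem_image.2 ⟨v.2, mem_univ _, Prod.ext h.symm rfl⟩)
    · exact mem_union_right _ (mem_image.2 ⟨v.1, mem_univ _, Prod.ext rfl h.symm⟩)
  refine (card_le_card h).trans ((card_union_le _ _).trans (add_le_add ?_ ?_))
  · exact card_image_le.trans (by rw [card_univ, ZMod.card])
  · exact card_image_le.trans (by rw [card_univ, ZMod.card])

theorem pow_le {r : ℝ} (h1 : 1 ≤ r) (h2 : r ≤ 2) {k M : ℕ} (hk : k ≤ M + M) :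
    (1 + r) ^ k ≤ Real.exp (4 * M) := by
  have h3 : 1 + r ≤ Real.exp 2 := by linarith [Real.add_one_le_exp 2]
  calc (1 + r) ^ k ≤ (1 + r) ^ (M + M) := pow_le_pow_right₀ (by linarith) hk
    _ ≤ Real.exp 2 ^ (M + M) := pow_le_pow_left₀ (by linarith) h3 _
    _ = Real.exp (4 * M) := by
      rw [← Real.exp_nat_mul]
      congr 1
      push_cast
      ring

theorem pt_le (x y : ℝ) (p : Prop) :
    Real.exp x * (y * chi p) + Real.exp x * (1 - x) * chi p ≤ Real.exp y := by
  unfold chi
  split_ifs
  · have h := Real.add_one_le_exp (y - x)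
    have e : Real.exp y = Real.exp x * Real.exp (y - x) := by
      rw [← Real.exp_add]
      congr 1
      ring
    rw [e]
    nlinarith [Real.exp_pos x]
  · simpa using (Real.exp_pos y).le

end Sj

theorem t_sj (hl : T_lin) (hf : T_fe) : T_sj := by
  intro r M L _ _ s t x h1 h2 hLM hx
  have hr : 0 < r := by linarith
  obtain ⟨c0, cadd, cmul, cmono, -, -⟩ :=
    hl _ _ r (ta (pt M L)) (tb (pt M L)) nil univ (fun _ => false) hr
  have hP := hf _ _ r (ta (pt M L)) (tb (pt M L)) nil univ
    (univ.filter fun v : Tor M L => v.1 = 0 ∨ v.2 = 0) (fun _ => false) s (fun _ => 1) h1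
    (subset_univ _) fun _ => zero_le_one
  have e : (fun ω : Tor M L → Bool => (1 : ℝ) *
      chi (∀ v ∈ univ.filter fun v : Tor M L => v.1 = 0 ∨ v.2 = 0, ω v = s)) = sem M L s := by
    funext ω
    simp only [one_mul, sem, mem_filter, mem_univ, true_and]
  rw [c0, e] at hP
  have hP0 : 0 ≤ tE r M L (sem M L s) := by
    have := cmono (fun _ => 0) (sem M L s) fun ω => by
      unfold sem chi
      split_ifs <;> norm_num
    rwa [c0] at this
  have hP1 : 1 ≤ Real.exp (4 * M) * tE r M L (sem M L s) :=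
    hP.trans (mul_le_mul_of_nonneg_right
      (Sj.pow_le h1 h2 ((Sj.card_seam M L).trans (by omega))) hP0)
  have hJ := cmono (fun ω => Real.exp x * (t * cnt univ ω * sem M L s ω) +
      Real.exp x * (1 - x) * sem M L s ω) (fun ω => Real.exp (t * cnt univ ω))
    fun ω => Sj.pt_le x _ _
  rw [cadd, cmul, cmul] at hJ
  have hJ' : Real.exp x * tE r M L (sem M L s) ≤
      tE r M L fun ω => Real.exp (t * cnt univ ω) := by
    refine le_trans ?_ hJ
    have := mul_le_mul_of_nonneg_left hx (Real.exp_pos x).le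
    unfold tE at this ⊢
    linarith
  calc Real.exp x ≤ Real.exp x * (Real.exp (4 * M) * tE r M L (sem M L s)) :=
        le_mul_of_one_le_right (Real.exp_pos x).le hP1
    _ = Real.exp (4 * M) * (Real.exp x * tE r M L (sem M L s)) := by ring
    _ ≤ _ := mul_le_mul_of_nonneg_left hJ' (Real.exp_pos _).le

end Vale.Agent.P167.Q
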