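import Vale.Agent.P167.QStm

/-! P167, random-cluster model: an open seam dominates the wired measure. -/

open MeasureTheory Filter Topology Finset

namespace Vale.Agent.P167.Q

open Vale.Agent.P152 Vale.Agent.P167.Pc

namespace Sm1

theorem inj {M : ℕ} {a b : ℤ} (ha : 0 ≤ a) (ha' : a < M) (hb : 0 ≤ b) (hb' : b < M)
    (h : (a : ZMod M) = b) : a = b := by
  have h1 := (ZMod.intCast_eq_intCast_iff_dvd_sub a b M).1 h
  have h2 := Int.eq_zero_of_abs_lt_dvd h1 (abs_lt.2 ⟨by omega, by omega⟩)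
  omega

theorem mem_rc {M L : ℕ} {v : ℤ × ℤ} :
    v ∈ rc M L ↔ (1 ≤ v.1 ∧ v.1 < M) ∧ 1 ≤ v.2 ∧ v.2 < L := by
  simp only [rc, mem_product, mem_Ico]

theorem corner {x v : ℤ × ℤ} (h : x = ea v ∨ x = eb v) :
    (v.1 = x.1 ∨ v.1 = x.1 + 1) ∧ (v.2 = x.2 ∨ v.2 = x.2 + 1) := by
  unfold ea eb at h
  split_ifs at h <;> rcases h with rfl | rfl <;> simp

theorem col (j : ℤ) : eb (0, j + 1) = ea (0, j) := by
  unfold ea eb
  by_cases h : Even j <;> simp [h]

theorem row (j : ℤ) : ea (j + 1, 0) = ea (j, 0) ∨ eb (j + 1, 0) = eb (j, 0) := by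
  unfold ea eb
  by_cases h : Even j <;> simp [h]

theorem chain {X : Type} {C : X → X → Prop} (hC : Equivalence C) (f : ℤ → X)
    (h : ∀ j, C (f (j + 1)) (f j)) (j : ℤ) : C (f 0) (f j) := by
  induction j using Int.induction_on with
  | zero => exact hC.refl _
  | succ i ih => exact hC.trans ih (hC.symm (h i))
  | pred i ih =>
    have := h (-(i : ℤ) - 1)
    rw [sub_add_cancel] at this
    exact hC.trans ih this

variable {M L : ℕ}

theorem ends (h : ∀ x, pt M L (pv M L x) = pz x) (e : ℤ × ℤ) :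
    ta (pt M L) (pv M L e) = pv M L (ea e) ∧ tb (pt M L) (pv M L e) = pv M L (eb e) := by
  unfold ta tb ea eb
  rw [h, pz]
  by_cases h' : Even (e.1 + e.2) <;> simp [h', pv]

theorem seam (h : ∀ x, pt M L (pv M L x) = pz x) (ω : Tor M L → Bool)
    (hs : ∀ v : Tor M L, v.1 = 0 ∨ v.2 = 0 → ω v = true) (u : Tor M L) (hu : u.1 = 0 ∨ u.2 = 0) :
    Cn (ta (pt M L)) (tb (pt M L)) nil ω (pv M L (0, 0)) (ta (pt M L) u) ∧
      Cn (ta (pt M L)) (tb (pt M L)) nil ω (pv M L (0, 0)) (tb (pt M L) u) := by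
  have hC : Equivalence (Cn (ta (pt M L)) (tb (pt M L)) nil ω) := Relation.EqvGen.is_equivalence _
  have ed : ∀ v : Tor M L, v.1 = 0 ∨ v.2 = 0 →
      Cn (ta (pt M L)) (tb (pt M L)) nil ω (ta (pt M L) v) (tb (pt M L) v) := fun v hv =>
    Relation.EqvGen.rel _ _ (Or.inl ⟨v, hs v hv, rfl, rfl⟩)
  have e0 : ta (pt M L) (pv M L (0, 0)) = pv M L (0, 0) := by
    rw [(ends h _).1]
    simp [ea]
  have k : Cn (ta (pt M L)) (tb (pt M L)) nil ω (pv M L (0, 0)) (ta (pt M L) u) := by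
    obtain ⟨a, b⟩ := u
    rcases hu with hu | hu
    · obtain ⟨j, rfl⟩ := ZMod.intCast_surjective b
      have e1 : (a, (j : ZMod L)) = pv M L (0, j) := Prod.ext (hu.trans Int.cast_zero.symm) rfl
      rw [e1, ← e0]
      refine chain hC (fun j => ta (pt M L) (pv M L (0, j))) (fun j => ?_) j
      have := ed (pv M L (0, j + 1)) (Or.inl Int.cast_zero)
      rwa [(ends h _).2, col, ← (ends h _).1] at this
    · obtain ⟨j, rfl⟩ := ZMod.intCast_surjective a
      have e1 : ((j : ZMod M), b) = pv M L (j, 0) := Prod.ext rfl (hu.trans Int.cast_zero.symm)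
      rw [e1, ← e0]
      refine chain hC (fun j => ta (pt M L) (pv M L (j, 0))) (fun j => ?_) j
      rcases row j with r | r
      · rw [(ends h _).1, r, ← (ends h _).1]
        exact hC.refl _
      · have a1 := ed (pv M L (j + 1, 0)) (Or.inr Int.cast_zero)
        rw [(ends h _).2, r, ← (ends h _).2] at a1
        exact hC.trans a1 (hC.symm (ed _ (Or.inr Int.cast_zero)))
  exact ⟨k, hC.trans k (ed u hu)⟩

theorem lift (h : ∀ x, pt M L (pv M L x) = pz x) (ω : Tor M L → Bool) (ω' : Bond)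
    (hs : ∀ v : Tor M L, v.1 = 0 ∨ v.2 = 0 → ω v = true) (h0 : ∀ e ∉ rc M L, ω' e = false)
    (h1 : ∀ e ∈ rc M L, ω' e ≤ ω (pv M L e)) (e : ℤ × ℤ) (he : e ∈ rc M L)
    (hc : Cn ea eb (Bd (rc M L)) ω' (ea e) (eb e)) :
    Cn (ta (pt M L)) (tb (pt M L)) nil ω (ta (pt M L) (pv M L e)) (tb (pt M L) (pv M L e)) := by
  classical
  have hC : Equivalence (Cn (ta (pt M L)) (tb (pt M L)) nil ω) := Relation.EqvGen.is_equivalence _
  obtain ⟨p, hp⟩ : ∃ p : ℤ × ℤ → Tor M L, p = fun x =>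
    if ∃ w ∈ rc M L, x = ea w ∨ x = eb w then pv M L x else pv M L (0, 0) := ⟨_, rfl⟩
  have pa : ∀ w ∈ rc M L, p (ea w) = ta (pt M L) (pv M L w) ∧
      p (eb w) = tb (pt M L) (pv M L w) := fun w hw => by
    rw [hp, (ends h _).1, (ends h _).2]
    exact ⟨if_pos ⟨w, hw, Or.inl rfl⟩, if_pos ⟨w, hw, Or.inr rfl⟩⟩
  have pb : ∀ x, (∃ v ∉ rc M L, x = ea v ∨ x = eb v) →
      Cn (ta (pt M L)) (tb (pt M L)) nil ω (pv M L (0, 0)) (p x) := by
    rintro x ⟨v, hv, hx⟩
    rw [hp]
    dsimp only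
    split_ifs with h'
    · obtain ⟨w, hw, hx'⟩ := h'
      have c1 := corner hx
      have c2 := corner hx'
      rw [mem_rc] at hv hw
      have c3 : (v.1 = 0 ∨ v.1 = M) ∨ v.2 = 0 ∨ v.2 = L := by omega
      have c4 : (pv M L v).1 = 0 ∨ (pv M L v).2 = 0 := by
        rcases c3 with (c | c) | c | c <;> simp [pv, c]
      obtain ⟨s1, s2⟩ := seam h ω hs _ c4
      rcases hx with rfl | rfl
      · rwa [← (ends h _).1]
      · rwa [← (ends h _).2]
    · exact hC.refl _
  have key : ∀ x y, Cn ea eb (Bd (rc M L)) ω' x y →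
      Cn (ta (pt M L)) (tb (pt M L)) nil ω (p x) (p y) := by
    intro x y hxy
    induction hxy with
    | rel x y r =>
      rcases r with ⟨v, r1, rfl, rfl⟩ | ⟨r1, r2⟩
      · have hv : v ∈ rc M L := by
          by_contra hv
          rw [h0 v hv] at r1
          exact Bool.false_ne_true r1
        have h2 := h1 v hv
        rw [r1] at h2
        rw [(pa v hv).1, (pa v hv).2]
        exact Relation.EqvGen.rel _ _ (Or.inl ⟨_, top_le_iff.1 h2, rfl, rfl⟩)
      · exact hC.trans (hC.symm (pb x r1)) (pb y r2)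
    | refl x => exact hC.refl _
    | symm x y _ ih => exact hC.symm ih
    | trans x y z _ _ i1 i2 => exact hC.trans i1 i2
  have := key _ _ hc
  rwa [(pa e he).1, (pa e he).2] at this

end Sm1

theorem t_sm1 (hb : Pc.S_bas) (hd : T_dom) : T_sm1 := by
  intro r M L _ _ hr hM hL v hv
  have hp := (hb.2.2.2.2.2 M L hM hL).2.1
  have nz : ∀ e ∈ rc M L, ¬((pv M L e).1 = 0 ∨ (pv M L e).2 = 0) := fun e he h => by
    rw [Sm1.mem_rc] at he
    rcases h with h | h
    · have := Sm1.inj (M := M) (a := e.1) (b := 0) (by omega) (by omega) le_rfl (by omega)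
        (h.trans Int.cast_zero.symm)
      omega
    · have := Sm1.inj (M := L) (a := e.2) (b := 0) (by omega) (by omega) le_rfl (by omega)
        (h.trans Int.cast_zero.symm)
      omega
  refine (hd _ _ _ _ r (ta (pt M L)) (tb (pt M L)) nil univ (fun _ => false) ea eb
    (Bd (rc M L)) (rc M L) (fun _ => false) (pv M L) (op v) (sem M L true) hr ?_
    (fun _ _ => mem_univ _) ?_ ?_ ?_ ?_).2 ?_
  · intro a ha b hb h
    have ha' := Sm1.mem_rc.1 (mem_coe.1 ha)
    have hb' := Sm1.mem_rc.1 (mem_coe.1 hb)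
    exact Prod.ext (Sm1.inj (by omega) ha'.1.2 (by omega) hb'.1.2 (congrArg Prod.fst h))
      (Sm1.inj (by omega) ha'.2.2 (by omega) hb'.2.2 (congrArg Prod.snd h))
  · intro ω ω' h
    have := h v
    unfold op
    generalize ω v = a, ω' v = b at this
    cases a <;> cases b
    · exact le_rfl
    · norm_num
    · exact absurd this (show ¬(true ≤ false) by decide)
    · exact le_rfl
  · intro ω ω' h
    unfold op
    rw [h v (mem_coe.2 hv)]
  · intro ω
    unfold sem chi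
    split_ifs <;> norm_num
  · intro ω ω' h
    unfold sem
    congr 1
    refine propext (forall_congr' fun u => imp_congr_right fun hu => ?_)
    rw [h u fun ⟨e, he, h'⟩ => nz e (mem_coe.1 he) (h' ▸ hu)]
  · intro ω ω' h _ h0 h1 e he hc
    refine Sm1.lift hp ω ω' ?_ h0 h1 e he hc
    by_contra h'
    exact h (if_neg h')

end Vale.Agent.P167.Q
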