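import Vale.Agent.P167.QStm2

open MeasureTheory

namespace Vale.Agent.P167.Q

open Vale.Agent.P152 Vale.Agent.P167.Pc

namespace Sym

theorem cq_comp (g ρ : ℤ × ℤ → ℤ × ℤ)
    (hg : ∀ x, ((g x).1 % 2 = x.1 % 2 ∧ (g x).2 % 2 = x.2 % 2) ∨
      ((g x).1 % 2 = x.2 % 2 ∧ (g x).2 % 2 = x.1 % 2))
    (hρ : ∀ x : ℤ × ℤ, x.1 % 2 ≠ x.2 % 2 → iv (g x) = ρ (iv x)) (ω : Bond) :
    cq ω ∘ g = cq (ω ∘ ρ) := by
  funext x
  have h := hg x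
  simp only [cq, Pc.col, Function.comp, Int.odd_iff, Int.even_iff]
  by_cases h1 : x.1 % 2 = 1 ∧ x.2 % 2 = 1
  · rw [if_pos h1, if_pos (by omega)]
  · rw [if_neg h1, if_neg (by omega)]
    by_cases h2 : x.1 % 2 = 0 ∧ x.2 % 2 = 0
    · rw [if_pos h2, if_pos (by omega)]
    · rw [if_neg h2, if_neg (by omega), hρ x (by omega)]

theorem loc {F : Col → ℝ} (hF : CLoc F) : Pc.Loc fun ω => F (cq ω) := by
  obtain ⟨A, hA⟩ := hF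
  refine ⟨A.image iv, fun ω ω' h => hA _ _ fun x hx => ?_⟩
  simp only [cq, Pc.col, h _ (Finset.mem_image_of_mem iv hx)]

theorem inv (hq : T_qi) {r : ℝ} {φ : Measure Bond} (hr : 1 ≤ r) (hφ : FKm r φ) {F : Col → ℝ}
    (hF : CLoc F) (g : ℤ × ℤ → ℤ × ℤ) {ρ π : ℤ × ℤ ≃ ℤ × ℤ} (ha : Aut ρ π)
    (hg : ∀ x, ((g x).1 % 2 = x.1 % 2 ∧ (g x).2 % 2 = x.2 % 2) ∨
      ((g x).1 % 2 = x.2 % 2 ∧ (g x).2 % 2 = x.1 % 2))
    (hρ : ∀ x : ℤ × ℤ, x.1 % 2 ≠ x.2 % 2 → iv (g x) = ρ (iv x)) :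
    pq φ (cmv g F) = pq φ F := by
  simp only [pq, cmv, cq_comp g ρ hg hρ]
  exact (hq r φ hr hφ).1 ρ π (fun ω => F (cq ω)) ha (loc hF)

end Sym

open Vale.Agent.P167.Q.Sym in
theorem t_sym (ha : T_aut) (hq : T_qi) : T_sym := by
  intro r φ hr hφ F hF
  obtain ⟨a1, ⟨ρ2, π2, a2, e2⟩, ⟨ρ3, π3, a3, e3⟩, ⟨ρ4, π4, a4, e4⟩, -⟩ := ha
  refine ⟨loc hF, fun t => ?_, inv hq hr hφ hF _ a2 (fun x => Or.inr ⟨rfl, rfl⟩) fun x hx => ?_,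
    inv hq hr hφ hF _ a3 (fun x => Or.inl ?_) fun x hx => ?_,
    inv hq hr hφ hF _ a4 (fun x => Or.inl ?_) fun x hx => ?_⟩
  · obtain ⟨ρ, π, a, e⟩ := a1 (t.1 + t.2, t.2 - t.1) ⟨t.2, by ring⟩
    refine inv hq hr hφ hF _ a (fun x => Or.inl ?_) fun x _ => ?_
    · simp only [tr2]
      omega
    · rw [e]
      simp only [iv, tr2, Prod.mk_add_mk, Prod.mk.injEq]
      omega
  · rw [e2]
    simp only [iv, Prod.fst_swap, Prod.snd_swap, Prod.mk.injEq]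
    omega
  · simp only [Prod.fst_neg, Prod.snd_neg]
    omega
  · rw [e3]
    simp only [iv, Prod.fst_neg, Prod.snd_neg, Prod.mk.injEq]
    omega
  · simp only [and_true]
    omega
  · rw [e4]
    simp only [iv, Prod.mk.injEq]
    omega

end Vale.Agent.P167.Q
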