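import Vale.Agent.P167.QStm
import Vale.Agent.P167.PcTex

/-! P167, random-cluster model: the torus expectation. -/

open MeasureTheory Filter Topology Finset

namespace Vale.Agent.P167.Q

open Vale.Agent.P152 Vale.Agent.P167.Pc

namespace Tex

theorem num (hk : T_bkw) (a : ℝ) (M L : ℕ) [NeZero M] [NeZero L] (hM : Even M) (hL : Even L)
    (W : Finset Edge) (j : Edge → ℝ) :
    texp (2 * Real.cos (a / 2)) M L (fun o => Real.cos (∑ e ∈ W, j e * sg (o e))) =
      (∑ ω, (SL a M L W j ω).re) / ∑ ω, (SL a M L ∅ 0 ω).re := by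
  have h1 := congrArg Complex.re (hk a M L hM hL W j)
  have h2 := congrArg Complex.re (hk a M L hM hL ∅ 0)
  rw [Complex.re_sum, Complex.re_sum] at h1 h2
  rw [← h1, ← h2, texp]
  refine congrArg₂ _ (sum_congr rfl fun o _ => ?_) (sum_congr rfl fun o _ => ?_)
  · split_ifs
    · rw [Complex.re_ofReal_mul, mul_comm Complex.I, Complex.exp_ofReal_mul_I_re]
    · rfl
  · split_ifs
    · rw [sum_empty, Complex.ofReal_zero, mul_zero, Complex.exp_zero, mul_one, Complex.ofReal_re]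
    · rfl

end Tex

theorem t_tex (hk : T_bkw) (hf : T_fac) (hc : T_cmp) (ht : T_tr) (hl : T_loc) (hg : S_gl)
    (hg2 : T_gl) : T_tex := by
  intro a φ a0 a1 hφ W j N ε hε
  have r1 : 1 ≤ 2 * Real.cos a := by
    have := Real.cos_le_cos_of_nonneg_of_le_pi a0 (by linarith [Real.pi_pos]) a1
    rw [Real.cos_pi_div_three] at this
    linarith
  have hη : 0 < ε / (1 + 2 ^ W.card) := by positivity
  obtain ⟨L₁, h1⟩ := hl _ φ r1 hφ _ (hg2 a W j N a0 a1).1 _ hη
  obtain ⟨L₂, h2⟩ := hl _ φ r1 hφ _ (hg W j N).1 _ hη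
  refine ⟨L₁ + L₂ + (2 * N + 1), fun M L _ _ hM hL hL0 hLM => ?_⟩
  choose T t1 t2 t3 t4 using hf a M L a0 a1 hM hL hLM
  obtain ⟨κ, k0, k1⟩ := hc a M L a0 a1 hM hL hLM
  have t5 : ∀ ω, (SL a M L ∅ 0 ω).re = T ω := fun ω => by rw [t3, Complex.ofReal_re]
  have t6 : ∀ (t : ℤ × ℤ) ω, Even (t.1 + t.2) → T (fun v => ω (v + pv M L t)) = T ω :=
    fun t ω h => by rw [← t5, ← t5, ht a M L hM hL t ω h]
  simp only [t5] at k1
  rw [Tex.num hk a M L hM hL, sum_congr rfl fun ω _ => t5 ω]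
  refine (Pc.Tex.fin (K := 2 ^ W.card) (by positivity)
    (fun ω => (one_le_pow₀ r1).trans (t1 ω)) (fun ω => ?_)
    (h1 M L hM hL (by omega) hLM T κ k0 k1 t6)
    (h2 M L hM hL (by omega) hLM T κ k0 k1 t6)).trans_eq ?_
  · by_cases hG : Good W N (lf M L ω)
    · rw [(t4 ω W j).2 N (by omega) hG, Complex.ofReal_re, chi, if_pos hG]
      simp [mul_comm]
    · rw [chi, if_neg hG, zero_mul, mul_zero, sub_zero, sub_zero]
      exact (Complex.abs_re_le_norm _).trans (t4 ω W j).1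
  · rw [mul_div_cancel₀ _ (by positivity)]

end Vale.Agent.P167.Q
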