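import Vale.Agent.P167.QStm

/-! Windows in the torus: comparison with the free and the wired measure. -/

open MeasureTheory Filter Topology Finset

namespace Vale.Agent.P167.Q

open Vale.Agent.P152 Vale.Agent.P167.Pc

namespace Tl

lemma cast_inj {n N : ℕ} (h : 2 * N < n) {a b : ℤ} (ha : |a| ≤ N) (hb : |b| ≤ N)
    (e : (a : ZMod n) = (b : ZMod n)) : a = b := by
  have h1 := (ZMod.intCast_eq_intCast_iff_dvd_sub a b n).1 e
  have h2 : |b - a| < (n : ℤ) := by
    rw [abs_le] at ha hb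
    rw [abs_lt]
    constructor <;> omega
  have := Int.eq_zero_of_abs_lt_dvd h1 h2
  omega

lemma pv_inj {M L N : ℕ} (h : 2 * N < L) (hL : L ≤ M) (t : ℤ × ℤ) {x y : ℤ × ℤ}
    (hx : |x.1| ≤ N ∧ |x.2| ≤ N) (hy : |y.1| ≤ N ∧ |y.2| ≤ N)
    (q : pv M L (x + t) = pv M L (y + t)) : x = y := by
  simp only [pv, Prod.fst_add, Prod.snd_add, Int.cast_add, Prod.mk.injEq, add_left_inj] at q
  exact Prod.ext (cast_inj (h.trans_le hL) hx.1 hy.1 q.1) (cast_inj h hx.2 hy.2 q.2)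

lemma par {M L : ℕ} (hp : ∀ x, pt M L (pv M L x) = pz x) {t : ℤ × ℤ} (ht : Even (t.1 + t.2))
    (v : ℤ × ℤ) : pt M L (pv M L (v + t)) = true ↔ Even (v.1 + v.2) := by
  rw [hp, pz, decide_eq_true_iff]
  have e : (v + t).1 + (v + t).2 = (v.1 + v.2) + (t.1 + t.2) := by
    simp only [Prod.fst_add, Prod.snd_add]
    ring
  rw [e, Int.even_add]
  simp [ht]

lemma pv_sub (M L : ℕ) (t v : ℤ × ℤ) (i j : ℤ) :
    pv M L (v - (i, j) + t) = pv M L (v + t) - ((i : ZMod M), (j : ZMod L)) := by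
  simp only [pv, Prod.fst_add, Prod.snd_add, Prod.fst_sub, Prod.snd_sub, Int.cast_add,
    Int.cast_sub, Prod.mk_sub_mk, Prod.mk.injEq]
  constructor <;> ring

lemma hta {M L : ℕ} (hp : ∀ x, pt M L (pv M L x) = pz x) {t : ℤ × ℤ} (ht : Even (t.1 + t.2))
    (v : ℤ × ℤ) : ta (pt M L) (pv M L (v + t)) = pv M L (ea v + t) := by
  unfold ta ea
  by_cases h : Even (v.1 + v.2)
  · rw [if_pos ((par hp ht v).2 h), if_pos h]
  · rw [if_neg (fun q => h ((par hp ht v).1 q)), if_neg h, pv_sub]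
    simp

lemma htb {M L : ℕ} (hp : ∀ x, pt M L (pv M L x) = pz x) {t : ℤ × ℤ} (ht : Even (t.1 + t.2))
    (v : ℤ × ℤ) : tb (pt M L) (pv M L (v + t)) = pv M L (eb v + t) := by
  unfold tb eb
  by_cases h : Even (v.1 + v.2)
  · rw [if_pos ((par hp ht v).2 h), if_pos h, pv_sub]
    simp
  · rw [if_neg (fun q => h ((par hp ht v).1 q)), if_neg h, pv_sub]
    simp

lemma pv_shift {M L : ℕ} {t x : ℤ × ℤ} {u : Tor M L} (i j : ℤ)
    (h : pv M L (x + t) = u - ((i : ZMod M), (j : ZMod L))) :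
    pv M L (x + (i, j) + t) = u := by
  have h1 := pv_sub M L t (x + (i, j)) i j
  rw [add_sub_cancel_right, h] at h1
  exact (sub_left_inj.1 h1).symm

lemma lift_a {M L : ℕ} (hp : ∀ x, pt M L (pv M L x) = pz x) {t : ℤ × ℤ} (ht : Even (t.1 + t.2))
    (u : Tor M L) (x : ℤ × ℤ) (h : pv M L (x + t) = ta (pt M L) u) :
    ∃ v, pv M L (v + t) = u ∧ ea v = x := by
  unfold ta at h
  by_cases q : pt M L u = true
  · rw [if_pos q] at h
    refine ⟨x, h, ?_⟩
    rw [← h] at q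
    unfold ea
    rw [if_pos ((par hp ht x).1 q)]
  · rw [if_neg q] at h
    have h1 : pv M L (x + (1, 0) + t) = u := pv_shift 1 0 (by simpa using h)
    refine ⟨x + (1, 0), h1, ?_⟩
    rw [← h1] at q
    unfold ea
    rw [if_neg (fun z => q ((par hp ht _).2 z)), add_sub_cancel_right]

lemma lift_b {M L : ℕ} (hp : ∀ x, pt M L (pv M L x) = pz x) {t : ℤ × ℤ} (ht : Even (t.1 + t.2))
    (u : Tor M L) (x : ℤ × ℤ) (h : pv M L (x + t) = tb (pt M L) u) :
    ∃ v, pv M L (v + t) = u ∧ eb v = x := by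
  unfold tb at h
  by_cases q : pt M L u = true
  · rw [if_pos q] at h
    have h1 : pv M L (x + (1, 1) + t) = u := pv_shift 1 1 (by simpa using h)
    refine ⟨x + (1, 1), h1, ?_⟩
    rw [← h1] at q
    unfold eb
    rw [if_pos ((par hp ht _).1 q), add_sub_cancel_right]
  · rw [if_neg q] at h
    have h1 : pv M L (x + (0, 1) + t) = u := pv_shift 0 1 (by simpa using h)
    refine ⟨x + (0, 1), h1, ?_⟩
    rw [← h1] at q
    unfold eb
    rw [if_neg (fun z => q ((par hp ht _).2 z)), add_sub_cancel_right]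

lemma end_box {k : ℕ} {e x : ℤ × ℤ} (he : |e.1| ≤ k ∧ |e.2| ≤ k) (hx : x = ea e ∨ x = eb e) :
    |x.1| ≤ ((k + 1 : ℕ) : ℤ) ∧ |x.2| ≤ ((k + 1 : ℕ) : ℤ) := by
  obtain ⟨h1, h2⟩ := he
  rw [abs_le] at h1 h2
  rw [abs_le, abs_le]
  unfold ea eb at hx
  rcases hx with rfl | rfl <;> split_ifs <;>
    simp only [Prod.fst_sub, Prod.snd_sub, Nat.cast_add, Nat.cast_one] <;> omega

lemma sect {M L k : ℕ} (hk : 2 * k + 4 ≤ L) (hL : L ≤ M) (S : Finset (ℤ × ℤ)) (t : ℤ × ℤ)
    (hS : ∀ v ∈ S, |v.1| ≤ k ∧ |v.2| ≤ k) : ∃ σ : Tor M L → ℤ × ℤ,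
    (∀ e ∈ S, σ (pv M L (ea e + t)) = ea e ∧ σ (pv M L (eb e + t)) = eb e) ∧
    ∀ y, pv M L (σ y + t) = y ∨ ∃ v ∉ S, σ y = ea v ∨ σ y = eb v := by
  classical
  have h0 : (((k : ℤ) + 1, (k : ℤ) + 1) : ℤ × ℤ) ∉ S := by
    intro h
    have := (abs_le.1 (hS _ h).1).2
    simp only at this
    omega
  have key : ∀ x, (∃ e ∈ S, x = ea e ∨ x = eb e) → ∀ h : ∃ z, (∃ e ∈ S, z = ea e ∨ z = eb e) ∧
      pv M L (z + t) = pv M L (x + t), h.choose = x := by
    rintro x ⟨e, he, hx⟩ h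
    obtain ⟨⟨e', he', hz⟩, h2⟩ := h.choose_spec
    exact pv_inj (N := k + 1) (by omega) hL t (end_box (hS _ he') hz) (end_box (hS _ he) hx) h2
  refine ⟨fun y => if h : ∃ z, (∃ e ∈ S, z = ea e ∨ z = eb e) ∧ pv M L (z + t) = y then h.choose
    else ea ((k : ℤ) + 1, (k : ℤ) + 1), fun e he => ⟨?_, ?_⟩, fun y => ?_⟩
  · have h : ∃ z, (∃ e ∈ S, z = ea e ∨ z = eb e) ∧ pv M L (z + t) = pv M L (ea e + t) :=
      ⟨ea e, ⟨e, he, Or.inl rfl⟩, rfl⟩
    simp only [dif_pos h]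
    exact key _ ⟨e, he, Or.inl rfl⟩ h
  · have h : ∃ z, (∃ e ∈ S, z = ea e ∨ z = eb e) ∧ pv M L (z + t) = pv M L (eb e + t) :=
      ⟨eb e, ⟨e, he, Or.inr rfl⟩, rfl⟩
    simp only [dif_pos h]
    exact key _ ⟨e, he, Or.inr rfl⟩ h
  · by_cases h : ∃ z, (∃ e ∈ S, z = ea e ∨ z = eb e) ∧ pv M L (z + t) = y
    · simp only [dif_pos h]
      exact Or.inl h.choose_spec.2
    · simp only [dif_neg h]
      exact Or.inr ⟨_, h0, Or.inl rfl⟩

lemma le_true {x y : Bool} (h : x ≤ y) (hx : x = true) : y = true := by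
  subst hx
  cases y
  · exact absurd h (by decide)
  · rfl

end Tl

open Tl in
theorem t_tl (hb : Pc.S_bas) (hd : T_dom) : T_tl := by
  intro r M L _ _ k S t F H hr hM hL hk hLM hS ht hF hFS hH hHS
  have hp := (hb.2.2.2.2.2 M L hM hL).2.1
  have hinj : Set.InjOn (fun v => pv M L (v + t)) (S : Set (ℤ × ℤ)) := fun x hx y hy q =>
    pv_inj (N := k) (by omega) hLM t (hS x hx) (hS y hy) q
  constructor
  · refine (hd _ _ _ _ r (ta (pt M L)) (tb (pt M L)) nil univ (fun _ => false) ea eb nil S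
      (fun _ => false) (fun v => pv M L (v + t)) F H hr hinj (fun _ _ => mem_univ _) hF hFS hH
      hHS).2 ?_
    intro ω ω' _ _ h0 hle e _ hc
    rw [hta hp ht, htb hp ht]
    generalize ea e = x at hc
    generalize eb e = y at hc
    induction hc with
    | rel x y h =>
      rcases h with ⟨v, hv, rfl, rfl⟩ | h
      · have hvS : v ∈ S := by
          by_contra hn
          rw [h0 v hn] at hv
          exact Bool.false_ne_true hv
        exact Relation.EqvGen.rel _ _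
          (Or.inl ⟨pv M L (v + t), le_true (hle v hvS) hv, hta hp ht v, htb hp ht v⟩)
      · exact h.elim
    | refl x => exact Relation.EqvGen.refl _
    | symm x y _ ih => exact Relation.EqvGen.symm _ _ ih
    | trans x y z _ _ ih1 ih2 => exact Relation.EqvGen.trans _ _ _ ih1 ih2
  · refine (hd _ _ _ _ r (ta (pt M L)) (tb (pt M L)) nil univ (fun _ => false) ea eb (Bd S) S
      (fun _ => false) (fun v => pv M L (v + t)) F H hr hinj (fun _ _ => mem_univ _) hF hFS hH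
      hHS).1 ?_
    intro ω ω' _ _ _ hle e he hc
    obtain ⟨σ, h1, h2⟩ := sect hk hLM S t hS
    have main : ∀ y y', Cn (ta (pt M L)) (tb (pt M L)) nil ω y y' →
        Cn ea eb (Bd S) ω' (σ y) (σ y') := by
      intro y y' h
      induction h with
      | rel y y' h =>
        rcases h with ⟨u, hu, rfl, rfl⟩ | h
        · by_cases hm : ∃ v ∈ S, pv M L (v + t) = u
          · obtain ⟨v, hv, rfl⟩ := hm
            rw [hta hp ht, htb hp ht, (h1 v hv).1, (h1 v hv).2]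
            exact Relation.EqvGen.rel _ _ (Or.inl ⟨v, le_true (hle v hv) hu, rfl, rfl⟩)
          · refine Relation.EqvGen.rel _ _ (Or.inr ⟨?_, ?_⟩)
            · rcases h2 (ta (pt M L) u) with q | q
              · obtain ⟨v, hv1, hv2⟩ := lift_a hp ht u _ q
                exact ⟨v, fun hv => hm ⟨v, hv, hv1⟩, Or.inl hv2.symm⟩
              · exact q
            · rcases h2 (tb (pt M L) u) with q | q
              · obtain ⟨v, hv1, hv2⟩ := lift_b hp ht u _ q
                exact ⟨v, fun hv => hm ⟨v, hv, hv1⟩, Or.inr hv2.symm⟩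
              · exact q
        · exact h.elim
      | refl x => exact Relation.EqvGen.refl _
      | symm x y _ ih => exact Relation.EqvGen.symm _ _ ih
      | trans x y z _ _ ih1 ih2 => exact Relation.EqvGen.trans _ _ _ ih1 ih2
    have := main _ _ hc
    simp only [hta hp ht, htb hp ht, (h1 e he).1, (h1 e he).2] at this
    exact this

end Vale.Agent.P167.Q
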