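import Vale.Agent.P167.QStm2

/-! P167, random-cluster model: local means in the tilted six vertex model. -/

open MeasureTheory Filter Topology Finset

namespace Vale.Agent.P167.Q

open Vale.Agent.P152 Vale.Agent.P167.Pc

namespace Tm

theorem par_add {M : ℕ} [NeZero M] (hM : Even M) (a b : ZMod M) :
    (a + b).val % 2 = (a.val + b.val) % 2 := by
  rw [ZMod.val_add]
  exact Nat.mod_mod_of_dvd _ (even_iff_two_dvd.1 hM)

theorem pt_sub {M L : ℕ} [NeZero M] [NeZero L] (hM : Even M) (hL : Even L) (v v2 : Tor M L)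
    (h : pt M L v = pt M L v2) : pt M L (v2 - v) = true := by
  have h1 := par_add hM v.1 (v2.1 - v.1)
  have h2 := par_add hL v.2 (v2.2 - v.2)
  rw [add_sub_cancel] at h1 h2
  unfold pt at h ⊢
  have h3 : Even (v.1.val + v.2.val) ↔ Even (v2.1.val + v2.2.val) := decide_eq_decide.1 h
  rw [Nat.even_iff, Nat.even_iff] at h3
  rw [decide_eq_true_iff, Nat.even_iff, Prod.fst_sub, Prod.snd_sub]
  omega

theorem pt_nat {M L : ℕ} [NeZero M] [NeZero L] (hM : Even M) (hL : Even L) {K : ℕ} (hK : Even K)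
    (z : Bool) (i j : ℕ) :
    pt M L (((1 + K * i : ℕ) : ZMod M), (((if z then 1 else 0) + K * j : ℕ) : ZMod L)) = z := by
  unfold pt
  have h1 : ((1 + K * i : ℕ) : ZMod M).val % 2 = (1 + K * i) % 2 := by
    rw [ZMod.val_natCast]
    exact Nat.mod_mod_of_dvd _ (even_iff_two_dvd.1 hM)
  have h2 : (((if z then 1 else 0) + K * j : ℕ) : ZMod L).val % 2 =
      ((if z then 1 else 0) + K * j) % 2 := by
    rw [ZMod.val_natCast]
    exact Nat.mod_mod_of_dvd _ (even_iff_two_dvd.1 hL)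
  have h3 : (K * i) % 2 = 0 := Nat.even_iff.1 (hK.mul_right i)
  have h4 : (K * j) % 2 = 0 := Nat.even_iff.1 (hK.mul_right j)
  dsimp only
  generalize ((1 + K * i : ℕ) : ZMod M).val = a at h1 ⊢
  generalize (((if z then 1 else 0) + K * j : ℕ) : ZMod L).val = b at h2 ⊢
  cases z
  · simp only [Bool.false_eq_true, if_false] at h2
    rw [decide_eq_false_iff_not, Nat.even_iff]
    omega
  · simp only [if_true] at h2
    rw [decide_eq_true_iff, Nat.even_iff]
    omega

/-- the shift of configurations -/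
def shE (M L : ℕ) (u : Tor M L) : TOri M L ≃ TOri M L where
  toFun o := fun e => o (e.1 + u, e.2)
  invFun o := fun e => o (e.1 - u, e.2)
  left_inv o := by funext e; simp
  right_inv o := by funext e; simp

theorem sum_sh (hs : T_sh) {c : ℝ} (hc : 0 < c) {M L : ℕ} [NeZero M] [NeZero L] (hM : Even M)
    (hL : Even L) (t : ℝ) (v v2 : Tor M L) (h : pt M L v = pt M L v2) :
    ∑ o, bw6 c M L o * Real.exp (t * AB M L o) * dg M L true o v =
      ∑ o, bw6 c M L o * Real.exp (t * AB M L o) * dg M L true o v2 := by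
  have hp := pt_sub hM hL v v2 h
  rw [← (shE M L (v2 - v)).sum_comp]
  refine Finset.sum_congr rfl fun o _ => ?_
  obtain ⟨h1, h2, h3⟩ := (hs c M L hc hM hL).2.2 (v2 - v) o
  have h4 := h3 true v
  rw [hp] at h2 h4
  rw [add_sub_cancel] at h4
  change bw6 c M L (fun e => o (e.1 + (v2 - v), e.2)) *
    Real.exp (t * AB M L (fun e => o (e.1 + (v2 - v), e.2))) *
    dg M L true (fun e => o (e.1 + (v2 - v), e.2)) v = _
  rw [h1, h2, h4]
  simp [P152.sg]

theorem dg01 (M L : ℕ) (b : Bool) (o : TOri M L) (v : Tor M L) :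
    0 ≤ dg M L b o v ∧ dg M L b o v ≤ 1 := by
  unfold dg
  split_ifs <;> norm_num

theorem abs_AB (M L : ℕ) [NeZero M] [NeZero L] (o : TOri M L) : |AB M L o| ≤ M * L := by
  unfold AB
  refine (Finset.abs_sum_le_sum_abs _ _).trans ?_
  have h : ∀ v ∈ (univ : Finset (Tor M L)), |dg M L false o v - dg M L true o v| ≤ (1 : ℝ) := by
    intro v _
    have h1 := dg01 M L false o v
    have h2 := dg01 M L true o v
    rw [abs_le]
    constructor <;> linarith [h1.1, h1.2, h2.1, h2.2]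
  refine (Finset.sum_le_sum h).trans ?_
  simp [ZMod.card]

theorem div_big {M K : ℕ} (hK : 0 < K) (h : K ≤ M) : (M : ℝ) ≤ 2 * K * (M / K : ℕ) := by
  have h1 : 1 ≤ M / K := (Nat.le_div_iff_mul_le hK).2 (by omega)
  have h2 := Nat.div_add_mod M K
  have h3 := Nat.mod_lt M hK
  have h4 : K * 1 ≤ K * (M / K) := Nat.mul_le_mul_left K h1
  have h5 : M ≤ 2 * K * (M / K) := by
    rw [mul_assoc]
    omega
  exact_mod_cast h5

theorem num {n s x a M L K ε h : ℝ} (hs : 0 < s) (hs2 : s ≤ ε / 4) (hK : 0 < K) (hM : 0 < M)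
    (ha : a ≤ s * ε / (32 * K ^ 2)) (hL : 16 * K ^ 2 / (s * ε) ≤ L)
    (hn : M * L ≤ 4 * K ^ 2 * n)
    (H : n * s * x ≤ 2 * (a * (M * L)) + (M + n * (s * (h + ε / 4) + s ^ 2))) : x - h ≤ ε := by
  have hε : 0 < ε := by linarith
  have hsε : 0 < s * ε := mul_pos hs hε
  have hK2 : 0 < K ^ 2 := by positivity
  have hL0 : 0 < L := lt_of_lt_of_le (by positivity) hL
  have hML : 0 < M * L := mul_pos hM hL0
  have hn0 : 0 < n := by
    by_contra hh
    have : 4 * K ^ 2 * n ≤ 0 := mul_nonpos_of_nonneg_of_nonpos (by positivity) (not_lt.1 hh)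
    linarith
  have h1 : a * (M * L) ≤ n * s * (ε / 8) := by
    calc a * (M * L) ≤ s * ε / (32 * K ^ 2) * (M * L) := mul_le_mul_of_nonneg_right ha hML.le
      _ ≤ s * ε / (32 * K ^ 2) * (4 * K ^ 2 * n) := mul_le_mul_of_nonneg_left hn (by positivity)
      _ = n * s * (ε / 8) := by field_simp; ring
  have h2 : M ≤ n * s * (ε / 4) := by
    rw [div_le_iff₀ hsε] at hL
    have h3 : M * (16 * K ^ 2) ≤ M * (L * (s * ε)) := mul_le_mul_of_nonneg_left hL hM.le
    have h4 : M * L * (s * ε) ≤ 4 * K ^ 2 * n * (s * ε) := mul_le_mul_of_nonneg_right hn hsε.le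
    have h5 : (16 * K ^ 2) * M ≤ (16 * K ^ 2) * (n * s * (ε / 4)) := by nlinarith
    exact le_of_mul_le_mul_left h5 (by positivity)
  have h3 : n * s * s ≤ n * s * (ε / 4) := mul_le_mul_of_nonneg_left hs2 (by positivity)
  have h4 : n * s * (x - h) ≤ n * s * ε := by nlinarith
  exact le_of_mul_le_mul_left h4 (by positivity)

end Tm

theorem t_tm (hs : T_sh) (hj : T_jen) : T_tm := by
  intro c hc hm z
  obtain ⟨h, hh⟩ := hm z
  refine ⟨h, fun ε hε => ?_⟩
  obtain ⟨K, hK0, hKe, hK⟩ := hh (ε / 4) (by positivity)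
  have hKr : (0 : ℝ) < K := by exact_mod_cast hK0
  obtain ⟨s, hs0, hs1, hs2⟩ : ∃ s : ℝ, 0 < s ∧ s ≤ 1 ∧ s ≤ ε / 4 :=
    ⟨min 1 (ε / 4), lt_min one_pos (by positivity), min_le_left _ _, min_le_right _ _⟩
  refine ⟨s * ε / (32 * K ^ 2), by positivity,
    max (2 * K + 2) ⌈16 * (K : ℝ) ^ 2 / (s * ε)⌉₊, fun L _ hLe hL => ?_⟩
  have hL1 : 2 * K + 2 ≤ L := (le_max_left _ _).trans hL
  have hL2 : 16 * (K : ℝ) ^ 2 / (s * ε) ≤ L := Nat.ceil_le.1 ((le_max_right _ _).trans hL)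
  obtain ⟨M1, hM1⟩ := hK 1 s (Or.inl rfl) hs0.le hs1 L hLe hL1
  obtain ⟨M2, hM2⟩ := hK (-1) s (Or.inr rfl) hs0.le hs1 L hLe hL1
  refine ⟨max K (max M1 M2), fun M _ hMe hM u hu v hv => ?_⟩
  have hMK : K ≤ M := (le_max_left _ _).trans hM
  have hA := hM1 M hMe ((le_max_left _ _).trans ((le_max_right _ _).trans hM))
  have hB := hM2 M hMe ((le_max_right _ _).trans ((le_max_right _ _).trans hM))
  obtain ⟨hw0, hw1, -⟩ := hs c M L hc hMe hLe
  have hMr : (0 : ℝ) < M := by exact_mod_cast Nat.pos_of_ne_zero (NeZero.ne M)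
  have hcmp : ∀ o, Real.exp (-(|u| * (M * L))) * bw6 c M L o ≤
        bw6 c M L o * Real.exp (u * AB M L o) ∧
      bw6 c M L o * Real.exp (u * AB M L o) ≤
        Real.exp (2 * (|u| * (M * L))) * Real.exp (-(|u| * (M * L))) * bw6 c M L o := by
    intro o
    have h1 : |u * AB M L o| ≤ |u| * (M * L) := by
      rw [abs_mul]
      exact mul_le_mul_of_nonneg_left (Tm.abs_AB M L o) (abs_nonneg u)
    rw [abs_le] at h1
    rw [← Real.exp_add, mul_comm (bw6 c M L o)]
    exact ⟨mul_le_mul_of_nonneg_right (Real.exp_le_exp.2 h1.1) (hw0 o),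
      mul_le_mul_of_nonneg_right (Real.exp_le_exp.2 (by linarith [h1.2])) (hw0 o)⟩
  have hZ : 0 < ∑ o, bw6 c M L o * Real.exp (u * AB M L o) := by
    refine lt_of_lt_of_le ?_ (Finset.sum_le_sum fun o _ => (hcmp o).1)
    rw [← Finset.mul_sum]
    exact mul_pos (Real.exp_pos _) hw1
  obtain ⟨m, hmm⟩ : ∃ m : ℝ, ∑ o, bw6 c M L o * Real.exp (u * AB M L o) * dg M L true o v =
      m * ∑ o, bw6 c M L o * Real.exp (u * AB M L o) :=
    ⟨_, (div_mul_cancel₀ _ hZ.ne').symm⟩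
  have hn : (M : ℝ) * L ≤ 4 * (K : ℝ) ^ 2 * (M / K * (L / K) : ℕ) := by
    have h1 := Tm.div_big hK0 hMK
    have h2 := Tm.div_big hK0 (show K ≤ L by omega)
    calc (M : ℝ) * L ≤ (2 * K * (M / K : ℕ)) * (2 * K * (L / K : ℕ)) :=
          mul_le_mul h1 h2 (Nat.cast_nonneg _) (by positivity)
      _ = _ := by rw [Nat.cast_mul]; ring
  have key : ∀ d : ℝ,
      (∑ o, bw6 c M L o * ∏ i ∈ range (M / K) ×ˢ range (L / K), Real.exp (s * (d * dg M L true o
        (((1 + K * i.1 : ℕ) : ZMod M), (((if z then 1 else 0) + K * i.2 : ℕ) : ZMod L)))) ≤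
      Real.exp (M + (M / K * (L / K) : ℕ) * (s * (d * h + ε / 4) + s ^ 2)) *
        ∑ o, bw6 c M L o) → d * m - d * h ≤ ε := by
    intro d hd
    have H := hj (TOri M L) (ℕ × ℕ) (range (M / K) ×ˢ range (L / K)) (bw6 c M L)
      (fun o => bw6 c M L o * Real.exp (u * AB M L o))
      (fun i o => d * dg M L true o
        (((1 + K * i.1 : ℕ) : ZMod M), (((if z then 1 else 0) + K * i.2 : ℕ) : ZMod L)))
      _ _ (d * m) s _ hw0 hw1 (Real.exp_pos _) hs0.le hcmp (fun i _ => by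
        have h1 := Tm.sum_sh hs hc hMe hLe u v _ (hv.trans (Tm.pt_nat hMe hLe hKe z i.1 i.2).symm)
        rw [mul_assoc, ← hmm, h1, Finset.mul_sum]
        exact le_of_eq (Finset.sum_congr rfl fun o _ => by ring)) hd
    rw [Finset.card_product, Finset.card_range, Finset.card_range] at H
    exact Tm.num hs0 hs2 hKr hMr hu hL2 hn H
  have k1 := key 1 hA
  have k2 := key (-1) hB
  rw [hmm, ← sub_mul, abs_mul, abs_of_pos hZ]
  refine mul_le_mul_of_nonneg_right ?_ hZ.le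
  rw [abs_le]
  constructor <;> linarith

end Vale.Agent.P167.Q
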