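import Vale.Agent.P167.QStm
import Vale.Agent.P167.PcTr
import Vale.Agent.P167.PcFacA
import Vale.Agent.P167.PcGl

/-! P167, random-cluster loops: translation invariance, phases and locality. -/

open MeasureTheory Filter Topology Finset

namespace Vale.Agent.P167.Q

open Vale.Agent.P152 Vale.Agent.P167.Pc

namespace Tr

theorem pl_congr (hb : Pc.S_bas) (hp : S_per) (a : ℝ) {W : Finset Edge} (j : Edge → ℝ) {N : ℕ}
    {ω ω' : Bond} (h : ∀ v ∈ Pc.Gl.bx N, ω v = ω' v) (hg : Good W N ω) :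
    PL a W j ω = PL a W j ω' := by
  classical
  have hg' := Pc.Gl.good_congr h hg
  have hl : ∀ e ∈ W, loop ω e = loop ω' e := fun e he => by
    rw [Pc.Gl.loop_eq hb hp (hg e he), Pc.Gl.loop_eq hb hp (hg' e he)]
    simp only [Pc.Gl.iter_eq h (hg e he)]
  unfold PL
  refine prod_congr (image_congr fun e he => hl e he) fun l hlm => ?_
  obtain ⟨e, he, rfl⟩ := mem_image.1 hlm
  have : ∑ᶠ e' ∈ loop ω' e, kap pz ω e' = ∑ᶠ e' ∈ loop ω' e, kap pz ω' e' := by
    refine finsum_mem_congr rfl fun e' he' => ?_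
    rw [Pc.Gl.loop_eq hb hp (hg' e he)] at he'
    obtain ⟨k, rfl⟩ := he'
    exact Pc.Gl.kap_congr (h _ (Pc.Gl.hd_mem (hg' e he k)))
  rw [this]

theorem fac_le {a : ℝ} (h0 : 0 ≤ a) (h1 : a ≤ Real.pi / 3) (x : ℝ) :
    |Real.cos x / Real.cos a| ≤ 2 := by
  have h2 : 1 / 2 ≤ Real.cos a := by
    rw [← Real.cos_pi_div_three]
    exact Real.cos_le_cos_of_nonneg_of_le_pi h0 (by linarith [Real.pi_pos]) h1
  have h3 : 0 < Real.cos a := by linarith
  rw [abs_div, abs_of_pos h3, div_le_iff₀ h3]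
  linarith [Real.abs_cos_le_one x]

theorem pl_le {a : ℝ} (h0 : 0 ≤ a) (h1 : a ≤ Real.pi / 3) (W : Finset Edge) (j : Edge → ℝ)
    (ω : Bond) : |PL a W j ω| ≤ 2 ^ W.card := by
  classical
  unfold PL
  rw [abs_prod]
  exact (prod_le_prod (g := fun _ => (2 : ℝ)) (fun l _ => abs_nonneg _)
    fun l _ => fac_le h0 h1 _).trans
    ((prod_const _).le.trans (pow_le_pow_right₀ one_le_two card_image_le))

end Tr

theorem t_tr (h : Pc.S_bas) : T_tr := by
  intro α M L _ _ hM hL t ω ht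
  have p : ∀ x, pt M L (x + pv M L t) = pt M L x := fun ⟨a, b⟩ => by
    obtain ⟨a, rfl⟩ := ZMod.intCast_surjective a
    obtain ⟨b, rfl⟩ := ZMod.intCast_surjective b
    have k := (h.2.2.2.2.2 M L hM hL).2.1
    have e : ((a : ZMod M), (b : ZMod L)) + pv M L t = pv M L ((a, b) + t) := by simp [pv]
    rw [e, k, show ((a : ZMod M), (b : ZMod L)) = pv M L (a, b) from rfl, k, pz, pz,
      decide_eq_decide, Prod.fst_add, Prod.snd_add, add_add_add_comm, Int.even_add]
    simp [ht]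
  have g := Pc.Tr.gen ω p
  unfold SL
  symm
  refine Fintype.sum_equiv ((Pc.Tr.sh (pv M L t)).symm.arrowCongr (Equiv.refl _)) _ _ fun ε => ?_
  have c : ∀ e, ((Pc.Tr.sh (pv M L t)).symm.arrowCongr (Equiv.refl Bool)) ε e =
      ε (Pc.Tr.sh (pv M L t) e) := fun _ => rfl
  have b := Pc.Tr.bal (pv M L t) fun e => ε e == rf (pt M L) e
  have s := (Pc.Tr.sh (pv M L t)).sum_comp fun e => sg (ε e) * (α / 4 * kap (pt M L) ω e)
  have f := (Pc.Tr.sh (pv M L t)).forall_congr_right (q := fun e => ε (nx (pt M L) ω e) = ε e)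
  simp only [g] at b s f
  simp only [c, s, sum_empty]
  by_cases k : (∀ e, ε (nx (pt M L) ω e) = ε e) ∧ Bal M L fun e => ε e == rf (pt M L) e
  · exact (if_pos k).trans (if_pos ((and_congr f b).2 k)).symm
  · exact (if_neg k).trans (if_neg fun k' => k ((and_congr f b).1 k')).symm

theorem t_facA : T_facA := by
  classical
  intro a M L _ _ ω W j
  unfold SL aL
  refine Finset.sum_congr rfl fun ε _ => ?_
  simp only [mul_add, Finset.sum_add_distrib]
  rw [Pc.FacA.fib W (pe M L) (fun e => sg (ε e)) j (fun w => sg (rf pz w))]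

theorem t_gl (hb : Pc.S_bas) (hp : S_per) : T_gl := by
  intro a W j N h0 h1
  have hc : ∀ ω ω' : Bond, (∀ v ∈ Pc.Gl.bx N, ω v = ω' v) → (Good W N ω ↔ Good W N ω') :=
    fun ω ω' h => ⟨Pc.Gl.good_congr h, Pc.Gl.good_congr fun v hv => (h v hv).symm⟩
  refine ⟨⟨Pc.Gl.bx N, fun ω ω' h => ?_⟩, fun ω => Tr.pl_le h0 h1 W j ω⟩
  show chi (Good W N ω) * PL a W j ω = chi (Good W N ω') * PL a W j ω'
  by_cases hg : Good W N ω
  · rw [Tr.pl_congr hb hp a j h hg, propext (hc ω ω' h)]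
  · have hg' : ¬Good W N ω' := fun h' => hg ((hc ω ω' h).2 h')
    simp [chi, hg, hg']

end Vale.Agent.P167.Q
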