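import Vale.Agent.P167.QStm2
import Vale.Agent.P152.CGeo

/-! Windows in the cylinder. -/

open MeasureTheory Filter Topology Finset

namespace Vale.Agent.P167.Q

open Vale.Agent.P152 Vale.Agent.P167.Pc

namespace Win

/-- the shifted projection of the edges -/
def se (l : ℕ) (x y : ℤ) (m : Vx) : Cy l :=
  ((v6 m).1 + x, (((v6 m).2 + y : ℤ) : ZMod (2 * l + 2)))

theorem proj (l : ℕ) {x y : ℤ} (hxy : Even (x + y)) (m : Vx) : cev (se l x y m) = m.2 ∧
    csrc (se l x y m) = sp l x y (src m) ∧ ctgt (se l x y m) = sp l x y (tgt m) := by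
  have h : cev (se l x y m) = m.2 := by
    obtain ⟨⟨a, b⟩, s⟩ := m
    rw [Int.even_iff] at hxy
    rw [se, cev_cast]
    cases s <;> simp [v6, Int.even_iff] <;> omega
  refine ⟨h, ?_, ?_⟩
  · rw [csrc, h]
    obtain ⟨⟨a, b⟩, s⟩ := m
    cases s
    · refine Prod.ext ?_ ?_ <;> simp [se, sp, v6, src]
      ring
    · refine Prod.ext ?_ ?_ <;> simp [se, sp, v6, src] <;> ring
  · rw [ctgt, h]
    obtain ⟨⟨a, b⟩, s⟩ := m
    cases s <;> refine Prod.ext ?_ ?_ <;> simp [se, sp, v6, tgt, dir] <;> ring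

theorem key {l : ℕ} (p q : ℤ) (h : |q - p| < 2 * l + 2)
    (e : (p : ZMod (2 * l + 2)) = (q : ZMod (2 * l + 2))) : p = q := by
  have := Int.eq_zero_of_abs_lt_dvd ((ZMod.intCast_eq_intCast_iff_dvd_sub _ _ _).1 e)
    (by push_cast; exact h)
  omega

theorem inj1 {l r : ℕ} (hl : 2 * r + 4 ≤ l) (x y : ℤ) :
    Set.InjOn (sp l x y) {v | |v.1| ≤ r ∧ |v.2| ≤ r} := by
  rintro ⟨a, b⟩ ⟨h1, h2⟩ ⟨a', b'⟩ ⟨h3, h4⟩ e
  simp only [sp, Prod.mk.injEq] at e
  simp only [abs_le] at h1 h2 h3 h4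
  have h5 := key _ _ (by rw [abs_lt]; omega) e.2
  have h6 := e.1
  refine Prod.ext ?_ ?_ <;> simp only <;> omega

theorem inj2 {l r : ℕ} (hl : 2 * r + 4 ≤ l) (x y : ℤ) :
    Set.InjOn (se l x y) {m | |m.1.1| ≤ r ∧ |m.1.2| ≤ r} := by
  rintro ⟨⟨a, b⟩, s⟩ ⟨h1, h2⟩ ⟨⟨a', b'⟩, s'⟩ ⟨h3, h4⟩ e
  simp only [se, v6, Prod.mk.injEq] at e
  simp only [abs_le] at h1 h2 h3 h4
  have h5 := key _ _ (by rw [abs_lt]; cases s <;> cases s' <;> simp <;> omega) e.2
  have h6 := e.1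
  cases s <;> cases s' <;> simp at h5 ⊢ <;> omega

theorem edge (hb : P152.S_bas) {l : ℕ} {x y : ℤ} (hxy : Even (x + y)) {D : Finset Site}
    {v : Cy l} (h : csrc v ∈ (inn D).image (sp l x y) ∨ ctgt v ∈ (inn D).image (sp l x y)) :
    v ∈ (vin D).image (se l x y) := by
  rcases h with h | h <;> obtain ⟨z, hz, e⟩ := Finset.mem_image.1 h
  · obtain ⟨p1, p2, -⟩ := proj l hxy (z, cev v)
    exact Finset.mem_image.2 ⟨_, (hb.touch D z hz _).1, cgeo_src p1 (p2.trans e)⟩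
  · obtain ⟨p1, -, p2⟩ := proj l hxy (z - dir (cev v), cev v)
    have e1 : tgt (z - dir (cev v), cev v) = z := sub_add_cancel _ _
    rw [e1] at p2
    exact Finset.mem_image.2 ⟨_, (hb.touch D z hz _).2, cgeo_tgt p1 (p2.trans e)⟩

theorem tau_gex (hm : SX_mar) (hi : SX_is) {V E : Type} [DecidableEq V] {c : ℝ} (hc : 1 < c)
    (s t : E → V) (Λ : Finset V) (R : Finset E) (F : (V → Bool) → ℝ) :
    xav Λ (xm c s t Λ R) F = gex c s t Λ R fun ω => F fun v => ω (v, true) := by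
  rw [hm.dis _ _ c s t Λ R _ hc]
  congr 1
  funext τ
  have h : (fun σ : V → Bool => F fun v => xpr τ σ (v, true)) = fun _ => F τ := by
    funext σ
    simp [xpr]
  rw [h, xav_const (hi.pos _ _ c s t Λ _ hc)]

end Win

open Win in
theorem t_win (hb : P152.S_bas) (he : S_emb) (hmo : S_mono) (hm : SX_mar) (hi : SX_is) :
    T_win := by
  intro c D hc
  obtain ⟨r, h1, h2⟩ := cgeo_rad D
  refine ⟨2 * r + 4, fun l n x y hl hxy hx hn => ⟨?_, ?_, ?_⟩⟩
  · refine Finset.image_subset_iff.2 fun v hv => ?_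
    obtain ⟨a1, a2⟩ := h1 v hv
    rw [abs_le] at a1 a2
    rw [Int.even_iff] at hxy
    rw [cV, Finset.mem_filter, cE, Finset.mem_product, Finset.mem_Icc, sp, cev_cast,
      decide_eq_true_eq, Int.even_iff]
    simp only [Finset.mem_univ, and_true]
    omega
  · intro v hv
    obtain ⟨a1, a2⟩ := h1 v hv
    rw [abs_le] at a1 a2
    rw [abs_lt, abs_lt]
    omega
  · intro p hp p' hp' b
    have i1 := inj1 hl x y
    have i2 := inj2 hl x y
    have k := fun g => he _ _ _ _ c src tgt csrc ctgt _ (se l x y) _ (inn D) (vin D) g i1 h1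
      (i2.mono fun m h => (h2 m h).1) fun m h => ⟨(h2 m h).1, (h2 m h).2, (proj l hxy m).2⟩
    have sE : (vin D).image (se l x y) ⊆ cE l n := by
      refine Finset.image_subset_iff.2 fun m h => ?_
      obtain ⟨a1, a2⟩ := (h2 m h).1
      rw [abs_le, src] at a1 a2
      rw [cE, Finset.mem_product, Finset.mem_Icc, se, v6]
      simp only [Finset.mem_univ, and_true]
      omega
    have hf : Dp {v : Site × Bool | v.1 ∈ {v : Site | |v.1| ≤ r ∧ |v.2| ≤ r}}
        (fun ω : Spin => bb p p' b fun v => ω (v, true)) := by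
      intro ω ω' h
      simp only [bb, h (p, true) (h1 p hp), h (p', true) (h1 p' hp')]
    rw [tau_gex hm hi hc, hmo.cst _ _ c csrc ctgt _ ((vin D).image (se l x y)) _ _ hc sE
      fun v _ hv => not_or.1 fun h => hv (edge hb hxy h), ATD_gex, gex, gex, ← k _ hf,
      ← k 1 fun _ _ _ => rfl]
    rfl

end Vale.Agent.P167.Q
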