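import Vale.Agent.P167.QA0
import Vale.Agent.P167.QA1
import Vale.Agent.P167.QAb
import Vale.Agent.P167.QArm
import Vale.Agent.P167.QAt
import Vale.Agent.P167.QAut
import Vale.Agent.P167.QBad
import Vale.Agent.P167.QBk1
import Vale.Agent.P167.QBkx
import Vale.Agent.P167.QBky
import Vale.Agent.P167.QCau
import Vale.Agent.P167.QCh
import Vale.Agent.P167.QCmp
import Vale.Agent.P167.QCont
import Vale.Agent.P167.QCut
import Vale.Agent.P167.QCy
import Vale.Agent.P167.QDf1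
import Vale.Agent.P167.QDf2
import Vale.Agent.P167.QDf3
import Vale.Agent.P167.QDom
import Vale.Agent.P167.QFac
import Vale.Agent.P167.QFacB
import Vale.Agent.P167.QFacC
import Vale.Agent.P167.QFe
import Vale.Agent.P167.QFkg
import Vale.Agent.P167.QGlu
import Vale.Agent.P167.QHol
import Vale.Agent.P167.QIso
import Vale.Agent.P167.QLim
import Vale.Agent.P167.QLin
import Vale.Agent.P167.QLink
import Vale.Agent.P167.QLoc
import Vale.Agent.P167.QLoc1
import Vale.Agent.P167.QMc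
import Vale.Agent.P167.QMex
import Vale.Agent.P167.QMom
import Vale.Agent.P167.QMrg
import Vale.Agent.P167.QPfe
import Vale.Agent.P167.QPhi
import Vale.Agent.P167.QPl
import Vale.Agent.P167.QPos
import Vale.Agent.P167.QProd
import Vale.Agent.P167.QPrs
import Vale.Agent.P167.QPst
import Vale.Agent.P167.QQi
import Vale.Agent.P167.QQm
import Vale.Agent.P167.QRat
import Vale.Agent.P167.QSeq
import Vale.Agent.P167.QSh
import Vale.Agent.P167.QSj
import Vale.Agent.P167.QSm0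
import Vale.Agent.P167.QSm1
import Vale.Agent.P167.QSym
import Vale.Agent.P167.QTex
import Vale.Agent.P167.QTl
import Vale.Agent.P167.QTm
import Vale.Agent.P167.QTr
import Vale.Agent.P167.QWin
import Vale.Agent.P167.PcAll
import Vale.Agent.P152.XMain

/-! P167, random-cluster model: all steps. -/

namespace Vale.Agent.P167.Q

open Vale.Agent.P152 Vale.Agent.P167.Pc

theorem u_dom : T_dom := t_dom t_lin t_hol t_rat

theorem u_pl : T_pl := t_pl t_lin u_dom

theorem u_fe : T_fe := t_fe t_lin t_rat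

theorem u_qi : T_qi := t_qi t_lin (t_fkg t_lin t_hol t_rat) u_fe t_iso

theorem u_cont : T_cont :=
  t_cont u_pl t_lin t_iso t_aut
    (t_a1 t_lin t_iso t_aut (t_sm1 t_bas u_dom) (t_sj t_lin u_fe))
    (t_a0 t_lin t_iso t_aut (t_sm0 t_bas u_dom) (t_sj t_lin u_fe))

theorem u_fkm : T_fkm := t_fkm (t_cau t_lin u_pl t_dif s_int) (t_mex t_lin s_int)

theorem u_gl : T_gl := t_gl t_bas s_per

theorem u_fac : T_fac :=
  t_fac (s_abs s_bas1) t_tor t_bal t_facA (t_facB t_bas Pc.t_facA)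
    (t_facC t_bas s_per t_torA Pc.t_facA) Pc.t_gl

theorem u_cmp : T_cmp :=
  t_cmp t_tor u_fac (t_df1 t_bas t_rat (t_mrg s_bas1 s_per)) (t_df2 t_bas) (t_df3 t_bas)

theorem u_bkw : T_bkw := t_bkw t_bas (t_bk1 t_bas)

theorem u_loc : T_loc :=
  t_loc t_lin t_dif (t_loc1 t_lin (t_tl t_bas u_dom) t_prod t_jen s_int) s_int

theorem u_tex : T_tex := t_tex u_bkw u_fac u_cmp (t_tr t_bas) u_loc Pc.t_gl u_gl

theorem u_sym : T_sym := t_sym t_aut u_qi

theorem u_arm : T_arm :=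
  t_arm XCnx.nc1 (t_pst u_sym u_qi (t_qm t_lin u_pl t_dif s_int) s_int) (t_pfe u_sym u_qi s_int)
    u_sym s_bad t_bad Pc.t_gl s_int

theorem u_mom : T_mom :=
  t_mom (t_ch t_glu (t_pos bas_pf prim_pf (tm_pf bas_pf prim_pf)) (tm_pf bas_pf prim_pf))
    (t_cy cone_pf (cons_pf bas_pf) d1a_pf d1b_pf d2g_pf ex_pf sx_is)
    (t_mc (t_seq sx_hol (sx_mar cone_pf sx_is) sx_is)
      (t_win bas_pf emb_pf (mono_pf cone_pf (gks_pf cone_pf)) (sx_mar cone_pf sx_is) sx_is)
      (t_at bas_pf cone_pf) t_prod sx_is) tor_pf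

theorem u_ab : T_ab := t_ab (t_sh t_bas) (t_tm (t_sh t_bas) t_jen) t_bas

theorem u_ex {q : ℝ} (h1 : 1 ≤ q) (h4 : q ≤ 4) : ∃ φ, FKm √q φ := by
  obtain ⟨a0, a3, ac, b1, b2⟩ := ang h1 h4
  obtain ⟨c1, c2, -⟩ := cc a0 a3
  have h := t_prs t_lin u_cmp (t_bky u_bkw (t_bkx t_bas)) _ a0 a3
    (u_ab _ (by linarith) (u_mom _ c1 (mag_all c1 c2) (atx_all c1 c2)))
  rw [ac] at h
  exact u_fkm _ b1 (u_cont _ b1 b2 h)

end Vale.Agent.P167.Q
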