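import Vale.Agent.P167.PcDefs

/-! The random-cluster model on the square lattice whose vertices are the even unit squares. -/

open MeasureTheory

namespace Vale.Agent.P167.Q

open Vale.Agent.P167.Pc

/-- One end of the bond at `v`. -/
def ea (v : ℤ × ℤ) : ℤ × ℤ := if Even (v.1 + v.2) then v else v - (1, 0)

/-- The other end of the bond at `v`. -/
def eb (v : ℤ × ℤ) : ℤ × ℤ := if Even (v.1 + v.2) then v - (1, 1) else v - (0, 1)

/-- The open cluster of `x`. -/
def clus (ω : Bond) (x : ℤ × ℤ) : Set (ℤ × ℤ) :=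
  {y | Relation.EqvGen (fun u w => ∃ v, ω v = true ∧ ea v = u ∧ eb v = w) x y}

/-- The bonds of `A` are open, those of `S \ A` are closed, the others are as in `ξ`. -/
def cfg (S : Finset (ℤ × ℤ)) (ξ : Bond) (A : Finset (ℤ × ℤ)) : Bond :=
  fun v => if v ∈ S then decide (v ∈ A) else ξ v

/-- The random-cluster weight; the clusters that meet an end of a bond of `S` are counted. -/
noncomputable def fkw (p q : ℝ) (S : Finset (ℤ × ℤ)) (ξ : Bond) (A : Finset (ℤ × ℤ)) : ℝ :=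
  p ^ A.card * (1 - p) ^ (S.card - A.card) *
    q ^ (clus (cfg S ξ A) '' (ea '' (S : Set (ℤ × ℤ)) ∪ eb '' (S : Set (ℤ × ℤ)))).ncard

/-- Expectation in the volume `S` with boundary condition `ξ`. -/
noncomputable def fkE (p q : ℝ) (S : Finset (ℤ × ℤ)) (ξ : Bond) (F : Bond → ℝ) : ℝ :=
  (∑ A ∈ S.powerset, fkw p q S ξ A * F (cfg S ξ A)) / ∑ A ∈ S.powerset, fkw p q S ξ A

/-- `φ` is the infinite volume limit, uniformly in the boundary condition. -/
def IsFK (p q : ℝ) (φ : Measure Bond) : Prop :=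
  IsProbabilityMeasure φ ∧ ∀ (F : Bond → ℝ) (T : Finset (ℤ × ℤ)),
    (∀ ω ω' : Bond, (∀ v ∈ T, ω v = ω' v) → F ω = F ω') → ∀ ε > 0, ∃ S₀ : Finset (ℤ × ℤ),
      ∀ S, S₀ ⊆ S → ∀ ξ, |fkE p q S ξ F - ∫ ω, F ω ∂φ| ≤ ε

/-- The product over all finite loops; a loop of mass zero contributes the factor one. -/
noncomputable def Phq (q δ : ℝ) (f : ℝ × ℝ → ℝ) (ω : Bond) : ℝ :=
  ∏ᶠ l ∈ loops ω, 2 * Real.cos (Real.arccos (√q / 2) + mass δ f l) / √q

end Vale.Agent.P167.Q
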