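import Vale.Agent.P167.QStm
import Vale.Agent.P167.PcBk1

/-! P167, random-cluster model: the defect in the formula of Euler decreases. -/

open Finset

namespace Vale.Agent.P167.Q

open Vale.Agent.P152 Vale.Agent.P167.Pc

namespace Df1

theorem anti {E : Type} [Fintype E] [DecidableEq E] (f : (E → Bool) → ℤ)
    (h : ∀ ω v, ω v = false → f (Function.update ω v true) ≤ f ω) : Antitone f := by
  have k : ∀ (T : Finset E) (ω : E → Bool), f (fun v => if v ∈ T then true else ω v) ≤ f ω := by
    intro T ω
    induction T using Finset.induction_on with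
    | empty => simp
    | insert a T _ ih =>
      have e : (fun v => if v ∈ insert a T then true else ω v) =
          Function.update (fun v => if v ∈ T then true else ω v) a true := by
        funext v
        by_cases hv : v = a
        · simp [hv]
        · simp [hv]
      rw [e]
      refine le_trans ?_ ih
      generalize (fun v => if v ∈ T then true else ω v) = η
      cases ha : η a
      · exact h η a ha
      · rw [← ha, Function.update_eq_self]
  intro ω ω' hle
  have e : (fun v => if v ∈ univ.filter (fun v => ω' v = true) then true else ω v) = ω' := by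
    funext v
    have := hle v
    revert this
    cases h1 : ω v <;> cases h2 : ω' v <;> simp [h2]
  have := k (univ.filter fun v => ω' v = true) ω
  rwa [e] at this

variable {A B : Type} [Ring A] [Ring B]

/-- the even face of an edge -/
def lt (par : A × B → Bool) (e : (A × B) × Bool) : A × B :=
  if par e.1 then e.1 else (if e.2 then e.1 - (0, 1) else e.1 - (1, 0))

def fc (par : A × B → Bool) (v : A × B) (i : Bool) : A × B :=
  if i = par v then ta par v else tb par v

theorem lt_inc {par : A × B → Bool} (h : Chk par) (v : A × B) (i : Bool) :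
    lt par (Bk1.inc par v i) = fc par v i := by
  unfold lt fc Bk1.inc ta tb
  cases hp : par v <;> cases i <;> simp [Bk1.par_l h, Bk1.par_d h, hp, sub_sub]

theorem lt_out {par : A × B → Bool} (h : Chk par) (v : A × B) (i b : Bool) :
    lt par (Bk1.out par v i b) = fc par v (xor i b) := by
  unfold lt fc Bk1.out ta tb
  cases hp : par v <;> cases i <;> cases b <;> simp [Bk1.par_l h, Bk1.par_d h, hp, sub_sub]

theorem fc_cn {par : A × B → Bool} {ω : A × B → Bool} {v : A × B}
    (h : Cn (ta par) (tb par) nil ω (ta par v) (tb par v)) (i j : Bool) :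
    Cn (ta par) (tb par) nil ω (fc par v i) (fc par v j) := by
  unfold fc
  split_ifs
  · exact Relation.EqvGen.refl _
  · exact h
  · exact Relation.EqvGen.symm _ _ h
  · exact Relation.EqvGen.refl _

theorem step {par : A × B → Bool} (h : Chk par) (ω : A × B → Bool) (e : (A × B) × Bool) :
    Cn (ta par) (tb par) nil ω (lt par e) (lt par (nx par ω e)) := by
  rw [← Bk1.inc_hd h e, Bk1.nx_inc h, lt_inc h, lt_out h]
  cases hv : ω (hd par e)
  · rw [Bool.xor_false]
    exact Relation.EqvGen.refl _
  · exact fc_cn (Relation.EqvGen.rel _ _ (Or.inl ⟨_, hv, rfl, rfl⟩)) _ _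

theorem iter {par : A × B → Bool} (h : Chk par) (ω : A × B → Bool) (n : ℕ) (e : (A × B) × Bool) :
    Cn (ta par) (tb par) nil ω (lt par e) (lt par ((nx par ω)^[n] e)) := by
  induction n with
  | zero => exact Relation.EqvGen.refl _
  | succ n ih =>
    rw [Function.iterate_succ_apply']
    exact Relation.EqvGen.trans _ _ _ ih (step h ω _)

theorem cls_cn {par : A × B → Bool} (h : Chk par) (ω : A × B → Bool) (v : A × B)
    (hc : Cls (nx par ω) (Bk1.inc par v true) (Bk1.inc par v false)) :
    Cn (ta par) (tb par) nil ω (ta par v) (tb par v) := by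
  obtain ⟨a, b, e⟩ := hc
  have h1 := iter h ω a (Bk1.inc par v true)
  rw [e] at h1
  have h2 := Relation.EqvGen.trans _ _ _ h1
    (Relation.EqvGen.symm _ _ (iter h ω b (Bk1.inc par v false)))
  rw [lt_inc h, lt_inc h] at h2
  unfold fc at h2
  cases hp : par v
  · rw [hp] at h2
    exact Relation.EqvGen.symm _ _ h2
  · rw [hp] at h2
    exact h2

theorem other [DecidableEq (A × B)] {par : A × B → Bool} (h : Chk par) (ω : A × B → Bool)
    (v : A × B) (e : (A × B) × Bool) (h1 : e ≠ Bk1.inc par v true) (h2 : e ≠ Bk1.inc par v false) :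
    nx par (Function.update ω v true) e = nx par ω e := by
  have hne : hd par e ≠ v := by
    intro k
    have := Bk1.inc_hd h e
    rw [k] at this
    cases hr : rf par e
    · rw [hr] at this
      exact h1 this.symm
    · rw [hr] at this
      exact h2 this.symm
  unfold nx
  rw [Function.update_of_ne hne]

end Df1

theorem t_df1 (hb : Pc.S_bas) (hr : T_rat) (hm : T_mrg) : T_df1 := by
  intro M L _ _ hM hL
  have hc : Chk (pt M L) := (hb.2.2.2.2.2 M L hM hL).1
  refine Df1.anti _ fun ω v hv => ?_
  obtain ⟨r1, r2, -⟩ := hr _ _ (ta (pt M L)) (tb (pt M L)) nil univ ω v (mem_univ v) hv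
  obtain ⟨m1, m2⟩ := hm _ (nx (pt M L) ω) (nx (pt M L) (Function.update ω v true))
    (Bk1.inc (pt M L) v true) (Bk1.inc (pt M L) v false) (hb.1 _ _ _ ω hc).1
    (by rw [Bk1.nx_inc hc, Bk1.nx_inc hc, Function.update_self, hv]; simp [Bk1.out])
    (by rw [Bk1.nx_inc hc, Bk1.nx_inc hc, Function.update_self, hv]; simp [Bk1.out])
    (Df1.other hc ω v)
  unfold df
  by_cases k : Cn (ta (pt M L)) (tb (pt M L)) nil ω (ta (pt M L) v) (tb (pt M L) v)
  · rw [if_pos k] at r1
    omega
  · rw [if_neg k] at r1
    have := m2 fun c => k (Df1.cls_cn hc ω v c)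
    omega

end Vale.Agent.P167.Q
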