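import Vale.Agent.P167.QStm2

open MeasureTheory Filter Topology Finset

namespace Vale.Agent.P167.Q

open Vale.Agent.P152 Vale.Agent.P167.Pc

namespace Mc

theorem ssum_coe {V : Type} [DecidableEq V] (Λ : Finset V) (f : (V → Bool) → ℝ) :
    ∑ N : Λ.powerset, f (gsp N.1) = ssum Λ f :=
  Finset.sum_coe_sort Λ.powerset (fun N => f (gsp N))

theorem core (hp : T_prod) {V ι : Type} [DecidableEq V] [DecidableEq ι] (Λ : Finset V)
    (w : (V → Bool) → ℝ) (hw : ∀ τ, 0 < w τ) (I : Finset ι) (Y : ι → (V → Bool) → ℝ) (g s : ℝ)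
    (hY : ∀ i τ, |Y i τ| ≤ 1) (hs : 0 ≤ s) (hs1 : s ≤ 1)
    (h : ∀ J ⊆ I, ∀ i ∈ I, i ∉ J → xav Λ w (fun τ => Y i τ * ∏ j ∈ J, Real.exp (s * Y j τ)) ≤
      g * xav Λ w (fun τ => ∏ j ∈ J, Real.exp (s * Y j τ))) :
    xav Λ w (fun τ => ∏ i ∈ I, Real.exp (s * Y i τ)) ≤ Real.exp (I.card * (s * g + s ^ 2)) := by
  have hZ : 0 < ssum Λ w := Finset.sum_pos (fun _ _ => hw _) ⟨∅, Finset.empty_mem_powerset _⟩
  have h1 := hp Λ.powerset ι I (fun N => w (gsp N.1)) (fun i N => Y i (gsp N.1)) g 1 s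
    (fun _ => (hw _).le) (fun _ _ => hY _ _) hs (by linarith) (by
      intro J hJ i hi hiJ
      have h2 := h J hJ i hi hiJ
      rw [xav, xav, ← mul_div_assoc, div_le_div_iff_of_pos_right hZ, ← ssum_coe, ← ssum_coe] at h2
      exact h2)
  rw [xav, div_le_iff₀ hZ, ← ssum_coe, ← ssum_coe]
  rw [mul_one] at h1
  exact h1

/-- disagreement -/
noncomputable def dis {V : Type} (x y : V) (τ : V → Bool) : ℝ :=
  if (τ x == τ y) = true then 0 else 1

theorem dis_eq {V : Type} (x y : V) (τ : V → Bool) :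
    dis x y τ = 1 - if τ x = τ y then 1 else 0 := by
  unfold dis
  cases τ x <;> cases τ y <;> simp

theorem dis_flip {V : Type} (x y : V) (τ : V → Bool) : dis x y (fun v => !τ v) = dis x y τ := by
  rw [dis_eq, dis_eq]
  simp

theorem dis_abs {V : Type} (x y : V) (τ : V → Bool) (d : ℝ) (hd : d = 1 ∨ d = -1) :
    |d * dis x y τ| ≤ 1 := by
  unfold dis
  rcases hd with rfl | rfl <;> split_ifs <;> simp

theorem cond {V : Type} [DecidableEq V] (Λ : Finset V) (w H : (V → Bool) → ℝ) (x y : V)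
    (g ε d : ℝ) (hd : d = 1 ∨ d = -1)
    (h1 : (g - ε) * xav Λ w H ≤ xav Λ w (fun τ => (if τ x = τ y then 1 else 0) * H τ))
    (h2 : xav Λ w (fun τ => (if τ x = τ y then 1 else 0) * H τ) ≤ (g + ε) * xav Λ w H) :
    xav Λ w (fun τ => d * dis x y τ * H τ) ≤ (d * (1 - g) + ε) * xav Λ w H := by
  rcases hd with rfl | rfl
  · have e : (fun τ => 1 * dis x y τ * H τ) =
        fun τ => H τ - (if τ x = τ y then 1 else 0) * H τ := by
      funext τ; rw [dis_eq]; ring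
    rw [e, xav_sub]; linarith
  · have e : (fun τ => -1 * dis x y τ * H τ) =
        fun τ => (if τ x = τ y then 1 else 0) * H τ - H τ := by
      funext τ; rw [dis_eq]; ring
    rw [e, xav_sub]; linarith

theorem near (K a b e : ℤ) (he : |e| < K) (h : K * a = K * b + e) : a = b := by
  obtain ⟨h1, h2⟩ := abs_lt.1 he
  have hK : 0 < K := by omega
  rcases lt_trichotomy a b with h3 | h3 | h3
  · have : K * (a + 1) ≤ K * b := mul_le_mul_of_nonneg_left h3 hK.le
    linarith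
  · exact h3
  · have : K * (b + 1) ≤ K * a := mul_le_mul_of_nonneg_left h3 hK.le
    linarith

theorem sep (l r K k : ℕ) (hK : K = 2 * r + 2) (i j : ℕ × ℕ) (hi : i.2 < (2 * l + 2) / K)
    (hj : j.2 < (2 * l + 2) / K) (u v : Site) (hu : |u.1 + u.2| < r ∧ |u.1 - u.2| < r)
    (hv : |v.1 + v.2| < r ∧ |v.1 - v.2| < r)
    (h : sp l (K * i.1 + k) (K * i.2) u = sp l (K * j.1 + k) (K * j.2) v) : i = j := by
  obtain ⟨h1, h2⟩ := Prod.mk.inj h
  obtain ⟨hu1, hu2⟩ := hu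
  obtain ⟨hv1, hv2⟩ := hv
  rw [abs_lt] at hu1 hu2 hv1 hv2
  have hKz : (K : ℤ) = 2 * r + 2 := by exact_mod_cast hK
  have e1 : (i.1 : ℤ) = j.1 := near K _ _ (v.1 + v.2 - (u.1 + u.2))
    (abs_lt.2 ⟨by omega, by omega⟩) (by linarith)
  rw [ZMod.intCast_eq_intCast_iff_dvd_sub] at h2
  have hi' : K * (i.2 + 1) ≤ 2 * l + 2 :=
    (Nat.mul_le_mul_left K hi).trans (Nat.mul_div_le _ _)
  have hj' : K * (j.2 + 1) ≤ 2 * l + 2 :=
    (Nat.mul_le_mul_left K hj).trans (Nat.mul_div_le _ _)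
  have hi2 : (K : ℤ) * i.2 + K ≤ ((2 * l + 2 : ℕ) : ℤ) := by exact_mod_cast hi'
  have hj2 : (K : ℤ) * j.2 + K ≤ ((2 * l + 2 : ℕ) : ℤ) := by exact_mod_cast hj'
  have hi0 : (0 : ℤ) ≤ K * i.2 := by positivity
  have hj0 : (0 : ℤ) ≤ K * j.2 := by positivity
  have h3 := Int.eq_zero_of_abs_lt_dvd h2 (abs_lt.2 ⟨by linarith, by linarith⟩)
  have e2 : (i.2 : ℤ) = j.2 := near K _ _ (v.1 - v.2 - (u.1 - u.2))
    (abs_lt.2 ⟨by omega, by omega⟩) (by linarith)
  exact Prod.ext (by exact_mod_cast e1) (by exact_mod_cast e2)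

theorem ends (l K k : ℕ) (z : Bool) (hK : Even K) (hk : Even k) (i : ℕ × ℕ) :
    csrc (((1 + K * i.1 + k : ℕ), ((if z then 1 else 0) + K * i.2 : ℕ)) : Cy l) =
      sp l (K * i.1 + k) (K * i.2) (0, 0) ∧
    ctgt (((1 + K * i.1 + k : ℕ), ((if z then 1 else 0) + K * i.2 : ℕ)) : Cy l) =
      sp l (K * i.1 + k) (K * i.2) (if z then (1, 0) else (0, 1)) := by
  have hc : cev (((1 + K * i.1 + k : ℕ), ((if z then 1 else 0) + K * i.2 : ℕ)) : Cy l) = z := by
    rw [← Int.cast_natCast (R := ZMod (2 * l + 2)), cev_cast, ← Nat.cast_add]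
    simp only [Int.even_coe_nat]
    cases z <;> simp [parity_simps, hK, hk]
  rw [csrc, ctgt, hc]
  cases z
  · refine ⟨Prod.ext ?_ ?_, Prod.ext ?_ ?_⟩ <;> simp [sp] <;> ring
  · refine ⟨Prod.ext ?_ ?_, Prod.ext ?_ ?_⟩ <;> simp [sp] <;> ring

end Mc

open Mc in
theorem t_mc (hs : T_seq) (hw : T_win) (ha : T_at) (hp : T_prod) (hi : SX_is) : T_mc := by
  intro c hc hM hA z
  obtain ⟨p', hp'⟩ : ∃ p' : Site, p' = if z then (1, 0) else (0, 1) := ⟨_, rfl⟩
  obtain ⟨g, hg⟩ := ha c hc hM hA (0, 0) p'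
  refine ⟨1 - g, fun ε hε => ?_⟩
  obtain ⟨D, hD0, hD1, hg1, hg0⟩ := hg ε hε
  obtain ⟨r, hr⟩ := hw c D hc
  obtain ⟨K, hK⟩ : ∃ K : ℕ, K = 2 * r + 2 := ⟨_, rfl⟩
  have hKe : Even K := ⟨r + 1, by omega⟩
  refine ⟨K, by omega, hKe, ?_⟩
  intro d s l n k m hd hs0 hs1 hl hk hKk hn
  have hwin : ∀ i ∈ range m ×ˢ range ((2 * l + 2) / K), _ := fun (i : ℕ × ℕ) hi' =>
    hr l n (K * i.1 + k) (K * i.2) (by omega) (by
      have : Even (K * i.1 + k + K * i.2) := by simp [parity_simps, hKe, hk]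
      exact_mod_cast this) (by
      have : r ≤ K * i.1 + k := by omega
      exact_mod_cast this) (by
      have h1 : K * i.1 ≤ K * m :=
        Nat.mul_le_mul_left K (mem_range.1 (mem_product.1 hi').1).le
      have : K * i.1 + k + r ≤ n := by omega
      exact_mod_cast this)
  have hsep : ∀ i ∈ range m ×ˢ range ((2 * l + 2) / K), ∀ j ∈ range m ×ˢ range ((2 * l + 2) / K),
      ∀ u ∈ inn D, ∀ v ∈ inn D,
      sp l (K * i.1 + k) (K * i.2) u = sp l (K * j.1 + k) (K * j.2) v → i = j :=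
    fun i hi' j hj u hu v hv h => sep l r K k hK i j (mem_range.1 (mem_product.1 hi').2)
      (mem_range.1 (mem_product.1 hj).2) u v ((hwin i hi').2.1 u hu) ((hwin i hi').2.1 v hv) h
  have hpos : ∀ τ, 0 < xm c csrc ctgt (cV l n) (cE l n) τ := fun τ =>
    hi.pos _ _ c _ _ _ _ hc
  have key := core hp (cV l n) _ hpos (range m ×ˢ range ((2 * l + 2) / K))
    (fun i τ => d * dis (sp l (K * i.1 + k) (K * i.2) (0, 0)) (sp l (K * i.1 + k) (K * i.2) p') τ)
    (d * (1 - g) + ε) s (fun _ _ => dis_abs _ _ _ d hd) hs0 hs1 (by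
      intro J hJ i hi' hiJ
      obtain ⟨h1, -, h3⟩ := hwin i hi'
      have hH : ∀ τ : Cy l → Bool, 0 < ∏ j ∈ J, Real.exp (s * (d *
          dis (sp l (K * j.1 + k) (K * j.2) (0, 0)) (sp l (K * j.1 + k) (K * j.2) p') τ)) :=
        fun τ => Finset.prod_pos fun _ _ => Real.exp_pos _
      obtain ⟨h4, h5⟩ := hs _ _ c csrc ctgt (cV l n) _ (cE l n)
        (sp l (K * i.1 + k) (K * i.2) (0, 0)) (sp l (K * i.1 + k) (K * i.2) p') _ hc h1 hH (by
          intro τ τ' hτ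
          refine Finset.prod_congr rfl fun j hj => ?_
          have hno : ∀ u ∈ inn D, τ (sp l (K * j.1 + k) (K * j.2) u) =
              τ' (sp l (K * j.1 + k) (K * j.2) u) := by
            intro u hu
            refine hτ _ fun hm => ?_
            obtain ⟨v, hv, hv'⟩ := Finset.mem_image.1 (Finset.mem_coe.1 hm)
            exact hiJ (hsep i hi' j (hJ hj) v hv u hu hv' ▸ hj)
          rw [dis, dis, hno _ hD0, hno _ hD1]) (by
          intro τ
          exact Finset.prod_congr rfl fun j _ => by rw [dis_flip])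
      rw [h3 _ hD0 _ hD1] at h4 h5
      have h0 : 0 ≤ xav (cV l n) (xm c csrc ctgt (cV l n) (cE l n)) fun τ => ∏ j ∈ J,
          Real.exp (s * (d * dis (sp l (K * j.1 + k) (K * j.2) (0, 0))
            (sp l (K * j.1 + k) (K * j.2) p') τ)) :=
        div_nonneg (Finset.sum_nonneg fun _ _ => (mul_pos (hpos _) (hH _)).le)
          (Finset.sum_nonneg fun _ _ => (hpos _).le)
      exact cond _ _ _ _ _ g ε d hd ((mul_le_mul_of_nonneg_right hg0 h0).trans h4)
        (h5.trans (mul_le_mul_of_nonneg_right hg1 h0)))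
  rw [card_product, card_range, card_range] at key
  refine le_trans (le_of_eq ?_) key
  congr 1
  funext τ
  rw [Finset.prod_image]
  · refine Finset.prod_congr rfl fun i _ => ?_
    rw [(ends l K k z hKe hk i).1, (ends l K k z hKe hk i).2, ← hp']
    rfl
  · intro i hi' j hj h
    refine hsep i hi' j hj _ hD0 _ hD0 ?_
    rw [← (ends l K k z hKe hk i).1, ← (ends l K k z hKe hk j).1]
    exact congrArg csrc h

end Vale.Agent.P167.Q
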