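import Vale.Agent.P167.QStm

/-! P167, random-cluster model: the torus with a closed seam. -/

open MeasureTheory Filter Topology Finset

namespace Vale.Agent.P167.Q

open Vale.Agent.P152 Vale.Agent.P167.Pc

namespace Sm0

variable {M L : ℕ}

/-- representatives -/
def si (y : Tor M L) : ℤ × ℤ := ((y.1.val : ℤ), (y.2.val : ℤ))

theorem mem_rc {e : ℤ × ℤ} : e ∈ rc M L ↔ (1 ≤ e.1 ∧ e.1 < M) ∧ 1 ≤ e.2 ∧ e.2 < L := by
  simp only [rc, mem_product, mem_Ico]

variable [NeZero M] [NeZero L]

theorem si_pv {x : ℤ × ℤ} (h1 : 0 ≤ x.1) (h2 : x.1 < M) (h3 : 0 ≤ x.2) (h4 : x.2 < L) :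
    si (pv M L x) = x := by
  refine Prod.ext ?_ ?_
  · exact (ZMod.val_intCast x.1).trans (Int.emod_eq_of_lt h1 h2)
  · exact (ZMod.val_intCast x.2).trans (Int.emod_eq_of_lt h3 h4)

theorem pv_si (y : Tor M L) : pv M L (si y) = y := by
  refine Prod.ext ?_ ?_
  · exact (Int.cast_natCast _).trans (ZMod.natCast_zmod_val y.1)
  · exact (Int.cast_natCast _).trans (ZMod.natCast_zmod_val y.2)

theorem si_rc {e : ℤ × ℤ} (he : e ∈ rc M L) : si (pv M L e) = e := by
  rw [mem_rc] at he
  exact si_pv (by omega) he.1.2 (by omega) he.2.2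

theorem si_mem {u : Tor M L} (h : ¬(u.1 = 0 ∨ u.2 = 0)) : si u ∈ rc M L := by
  have h1 : u.1.val ≠ 0 := fun k => h (Or.inl ((ZMod.val_eq_zero _).1 k))
  have h2 : u.2.val ≠ 0 := fun k => h (Or.inr ((ZMod.val_eq_zero _).1 k))
  have h3 := ZMod.val_lt u.1
  have h4 := ZMod.val_lt u.2
  rw [mem_rc]
  simp only [si]
  omega

theorem seam {u : Tor M L} (h : u.1 = 0 ∨ u.2 = 0) : u ∉ pv M L '' (rc M L : Set (ℤ × ℤ)) := by
  rintro ⟨e, he, rfl⟩
  have h1 := si_rc (mem_coe.1 he)
  have h2 := mem_rc.1 (mem_coe.1 he)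
  rw [← h1] at h2
  rcases h with h | h
  · have := h2.1.1
    simp [si, h] at this
  · have := h2.2.1
    simp [si, h] at this

theorem ends (hp : ∀ x, pt M L (pv M L x) = pz x) {e : ℤ × ℤ} (he : e ∈ rc M L) :
    si (ta (pt M L) (pv M L e)) = ea e ∧ si (tb (pt M L) (pv M L e)) = eb e := by
  have h := mem_rc.1 he
  have k : ∀ i j : ℤ, 0 ≤ i → i ≤ 1 → 0 ≤ j → j ≤ 1 →
      si (pv M L e - ((i : ZMod M), (j : ZMod L))) = e - (i, j) := fun i j _ _ _ _ => by
    have e1 : pv M L e - ((i : ZMod M), (j : ZMod L)) = pv M L (e - (i, j)) := by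
      simp [pv]
    rw [e1]
    refine si_pv ?_ ?_ ?_ ?_ <;> simp only [Prod.fst_sub, Prod.snd_sub] <;> omega
  have k1 := k 1 0 (by omega) (by omega) (by omega) (by omega)
  have k2 := k 1 1 (by omega) (by omega) (by omega) (by omega)
  have k3 := k 0 1 (by omega) (by omega) (by omega) (by omega)
  simp only [Int.cast_one, Int.cast_zero] at k1 k2 k3
  rw [ta, tb, ea, eb, hp, pz]
  by_cases c : Even (e.1 + e.2)
  · simp only [c, decide_true, if_true, k2, si_rc he, and_self]
  · simp only [c, decide_false, Bool.false_eq_true, if_false, k1, k3, and_self]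

end Sm0

open Sm0

theorem t_sm0 (hb : Pc.S_bas) (hd : T_dom) : T_sm0 := by
  intro r M L _ _ hr hM hL v hv
  have hp := (hb.2.2.2.2.2 M L hM hL).2.1
  refine (hd (Tor M L) (Tor M L) (ℤ × ℤ) (ℤ × ℤ) r (ta (pt M L)) (tb (pt M L)) nil univ
    (fun _ => false) ea eb nil (rc M L) (fun _ => false) (pv M L) (op v) (sem M L false) hr
    (fun x hx y hy e => ?_) (fun _ _ => mem_univ _) (fun ω ω' h => ?_) (fun ω ω' h => ?_)
    (fun ω => ?_) fun ω ω' h => ?_).1 fun ω ω' hH _ _ hle e he hc => ?_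
  · rw [← si_rc (mem_coe.1 hx), e, si_rc (mem_coe.1 hy)]
  · have := h v
    unfold op
    revert this
    cases ω v <;> cases ω' v <;> simp
  · rw [op, op, h v (mem_coe.2 hv)]
  · unfold sem chi
    split_ifs <;> norm_num
  · exact congrArg chi (propext (forall_congr' fun u => forall_congr' fun k => by
      rw [h u (seam k)]))
  · have h0 : ∀ u : Tor M L, u.1 = 0 ∨ u.2 = 0 → ω u = false := by
      by_contra k
      exact hH (if_neg k)
    have key : ∀ x y, Cn (ta (pt M L)) (tb (pt M L)) nil ω x y →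
        Cn ea eb nil ω' (si x) (si y) := by
      intro x y h
      induction h with
      | rel x y h =>
        obtain ⟨u, hu, rfl, rfl⟩ | h := h
        · have h1 := si_mem (u := u) fun k => by simp [h0 u k] at hu
          have h2 := hle _ h1
          have h3 := ends hp h1
          rw [pv_si] at h2 h3
          rw [hu] at h2
          exact Relation.EqvGen.rel _ _ (Or.inl ⟨si u, top_le_iff.1 h2, h3.1.symm, h3.2.symm⟩)
        · exact h.elim
      | refl x => exact Relation.EqvGen.refl _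
      | symm x y _ ih => exact Relation.EqvGen.symm _ _ ih
      | trans x y z _ _ ih ih' => exact Relation.EqvGen.trans _ _ _ ih ih'
    have := key _ _ hc
    rwa [(ends hp he).1, (ends hp he).2] at this

end Vale.Agent.P167.Q
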