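import Vale.Agent.P167.QDefs
import Vale.Agent.P167.PcStm3

/-! P167, random-cluster model for `1 ≤ q ≤ 4`: objects and step statements. -/

open MeasureTheory Filter Topology Finset

namespace Vale.Agent.P167.Q

open Vale.Agent.P152 Vale.Agent.P167.Pc

noncomputable section

/-! ### Finite volume measures on a graph -/

section gen

variable {X E : Type} [DecidableEq E]

def cf (S : Finset E) (ξ : E → Bool) (A : Finset E) : E → Bool :=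
  fun v => if v ∈ S then decide (v ∈ A) else ξ v

/-- connection by open edges and `R` -/
def Cn (a b : E → X) (R : X → X → Prop) (ω : E → Bool) : X → X → Prop :=
  Relation.EqvGen fun u w => (∃ v, ω v = true ∧ a v = u ∧ b v = w) ∨ R u w

/-- number of clusters that meet an end of an edge of `S` -/
def kk (a b : E → X) (R : X → X → Prop) (S : Finset E) (ω : E → Bool) : ℕ :=
  ((fun x => {y | Cn a b R ω x y}) '' (a '' (S : Set E) ∪ b '' (S : Set E))).ncard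

/-- number of open edges -/
def cnt (S : Finset E) (ω : E → Bool) : ℕ := (S.filter fun v => ω v = true).card

def wt (r : ℝ) (a b : E → X) (R : X → X → Prop) (S : Finset E) (ω : E → Bool) : ℝ :=
  r ^ cnt S ω * r ^ (2 * kk a b R S ω)

def sm (S : Finset E) (ξ : E → Bool) (f : (E → Bool) → ℝ) : ℝ := ∑ A ∈ S.powerset, f (cf S ξ A)

/-- expectation -/
def ex (r : ℝ) (a b : E → X) (R : X → X → Prop) (S : Finset E) (ξ : E → Bool)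
    (F : (E → Bool) → ℝ) : ℝ :=
  sm S ξ (fun ω => wt r a b R S ω * F ω) / sm S ξ (wt r a b R S)

/-- `F` only depends on the edges in `Y` -/
def Dep (Y : Set E) (F : (E → Bool) → ℝ) : Prop :=
  ∀ ω ω' : E → Bool, (∀ v ∈ Y, ω v = ω' v) → F ω = F ω'

end gen

/-- the empty relation -/
def nil {X : Type} (_ _ : X) : Prop := False

/-- elementary properties -/
def T_lin : Prop := ∀ (X E : Type) [DecidableEq E] (r : ℝ) (a b : E → X) (R : X → X → Prop)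
  (S : Finset E) (ξ : E → Bool), 0 < r → (∀ x : ℝ, ex r a b R S ξ (fun _ => x) = x) ∧
  (∀ F G, ex r a b R S ξ (fun ω => F ω + G ω) = ex r a b R S ξ F + ex r a b R S ξ G) ∧
  (∀ (x : ℝ) F, ex r a b R S ξ (fun ω => x * F ω) = x * ex r a b R S ξ F) ∧
  (∀ F G, (∀ ω, F ω ≤ G ω) → ex r a b R S ξ F ≤ ex r a b R S ξ G) ∧
  (∀ (ι : Type) (I : Finset ι) (F : ι → (E → Bool) → ℝ),
    ex r a b R S ξ (fun ω => ∑ i ∈ I, F i ω) = ∑ i ∈ I, ex r a b R S ξ (F i)) ∧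
  ∀ [Fintype E] F, S = univ → ex r a b R S ξ F =
    (∑ ω, wt r a b R univ ω * F ω) / ∑ ω, wt r a b R univ ω

/-- the inequality of Holley -/
def T_hol : Prop := ∀ (E : Type) [DecidableEq E] (S : Finset E) (u u' f : Finset E → ℝ),
  (∀ A, 0 < u A) → (∀ A, 0 < u' A) → (∀ A A', A ⊆ A' → A' ⊆ S → f A ≤ f A') →
  (∀ A A' e, A ⊆ A' → A' ⊆ S → e ∈ S → e ∉ A' → u (insert e A) * u' A' ≤ u A * u' (insert e A')) →
  (∑ A ∈ S.powerset, u A * f A) * ∑ A ∈ S.powerset, u' A ≤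
    (∑ A ∈ S.powerset, u' A * f A) * ∑ A ∈ S.powerset, u A

open Classical in
/-- opening an edge -/
def T_rat : Prop := ∀ (X E : Type) [DecidableEq E] (a b : E → X) (R : X → X → Prop)
  (S : Finset E) (ω : E → Bool) (e : E), e ∈ S → ω e = false →
  kk a b R S (Function.update ω e true) + (if Cn a b R ω (a e) (b e) then 0 else 1) =
    kk a b R S ω ∧ cnt S (Function.update ω e true) = cnt S ω + 1 ∧ ∀ r : ℝ, 0 < r →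
  wt r a b R S (Function.update ω e true) =
    wt r a b R S ω * if Cn a b R ω (a e) (b e) then r else r⁻¹

/-- comparison of a conditional measure with the measure of a window -/
def T_dom : Prop := ∀ (X E X' E' : Type) [DecidableEq E] [DecidableEq E'] (r : ℝ) (a b : E → X)
  (R : X → X → Prop) (S : Finset E) (ξ : E → Bool) (a' b' : E' → X') (R' : X' → X' → Prop)
  (S' : Finset E') (ξ' : E' → Bool) (ρ : E' → E) (F : (E' → Bool) → ℝ) (H : (E → Bool) → ℝ),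
  1 ≤ r → Set.InjOn ρ S' → (∀ e ∈ S', ρ e ∈ S) → Monotone F → Dep (S' : Set E') F →
  (∀ ω, 0 ≤ H ω) → Dep (ρ '' (S' : Set E'))ᶜ H →
  ((∀ ω ω', H ω ≠ 0 → (∀ e ∉ S, ω e = ξ e) → (∀ e ∉ S', ω' e = ξ' e) →
      (∀ e ∈ S', ω (ρ e) ≤ ω' e) → ∀ e ∈ S', Cn a b R ω (a (ρ e)) (b (ρ e)) →
        Cn a' b' R' ω' (a' e) (b' e)) →
    ex r a b R S ξ (fun ω => F (ω ∘ ρ) * H ω) ≤ ex r a' b' R' S' ξ' F * ex r a b R S ξ H) ∧
  ((∀ ω ω', H ω ≠ 0 → (∀ e ∉ S, ω e = ξ e) → (∀ e ∉ S', ω' e = ξ' e) →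
      (∀ e ∈ S', ω' e ≤ ω (ρ e)) → ∀ e ∈ S', Cn a' b' R' ω' (a' e) (b' e) →
        Cn a b R ω (a (ρ e)) (b (ρ e))) →
    ex r a' b' R' S' ξ' F * ex r a b R S ξ H ≤ ex r a b R S ξ (fun ω => F (ω ∘ ρ) * H ω))

/-- positive association -/
def T_fkg : Prop := ∀ (X E : Type) [DecidableEq E] (r : ℝ) (a b : E → X) (R : X → X → Prop)
  (S : Finset E) (ξ : E → Bool) (F G : (E → Bool) → ℝ), 1 ≤ r → Monotone F → Monotone G →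
  ex r a b R S ξ F * ex r a b R S ξ G ≤ ex r a b R S ξ fun ω => F ω * G ω

/-- finite energy -/
def T_fe : Prop := ∀ (X E : Type) [DecidableEq E] (r : ℝ) (a b : E → X) (R : X → X → Prop)
  (S T : Finset E) (ξ : E → Bool) (s : Bool) (G : (E → Bool) → ℝ), 1 ≤ r → T ⊆ S →
  (∀ ω, 0 ≤ G ω) → ex r a b R S ξ (fun ω => G fun v => if v ∈ T then s else ω v) ≤
    (1 + r) ^ T.card * ex r a b R S ξ fun ω => G ω * chi (∀ v ∈ T, ω v = s)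

/-! ### The plane -/

/-- both points are ends of bonds outside `S` -/
def Bd (S : Finset (ℤ × ℤ)) (x y : ℤ × ℤ) : Prop :=
  (∃ v ∉ S, x = ea v ∨ x = eb v) ∧ ∃ v ∉ S, y = ea v ∨ y = eb v

/-- boundary condition `ξ`, free, wired -/
def fx (r : ℝ) (S : Finset (ℤ × ℤ)) (ξ : Bond) (F : Bond → ℝ) : ℝ := ex r ea eb nil S ξ F
def f0 (r : ℝ) (S : Finset (ℤ × ℤ)) (F : Bond → ℝ) : ℝ := fx r S (fun _ => false) F
def f1 (r : ℝ) (S : Finset (ℤ × ℤ)) (F : Bond → ℝ) : ℝ := ex r ea eb (Bd S) S (fun _ => false) F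

/-- the state of one bond -/
def op {E : Type} (v : E) (ω : E → Bool) : ℝ := if ω v then 1 else 0

def T_pl : Prop := ∀ (r : ℝ) (S S' : Finset (ℤ × ℤ)) (F : Bond → ℝ), 1 ≤ r → S ⊆ S' →
  Monotone F → Dep (S : Set (ℤ × ℤ)) F → f1 r S' F ≤ f1 r S F ∧
  ∀ (ξ : Bond) (H : Bond → ℝ), (∀ ω, 0 ≤ H ω) → Dep (S : Set (ℤ × ℤ))ᶜ H →
    f0 r S F * fx r S' ξ H ≤ fx r S' ξ (fun ω => F ω * H ω) ∧
    fx r S' ξ (fun ω => F ω * H ω) ≤ f1 r S F * fx r S' ξ H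

/-- automorphisms -/
def Aut (ρ π : ℤ × ℤ ≃ ℤ × ℤ) : Prop := ∀ v,
  (ea (ρ v) = π (ea v) ∧ eb (ρ v) = π (eb v)) ∨ (ea (ρ v) = π (eb v) ∧ eb (ρ v) = π (ea v))

def T_iso : Prop := ∀ (r : ℝ) ρ π, Aut ρ π → ∀ (S : Finset (ℤ × ℤ)) (F : Bond → ℝ),
  f0 r (S.map ρ.toEmbedding) (fun ω => F (ω ∘ ρ)) = f0 r S F ∧
  f1 r (S.map ρ.toEmbedding) (fun ω => F (ω ∘ ρ)) = f1 r S F

def T_aut : Prop :=
  (∀ t : ℤ × ℤ, Even (t.1 + t.2) → ∃ ρ π, Aut ρ π ∧ ∀ v, ρ v = v + t) ∧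
  (∃ ρ π, Aut ρ π ∧ ∀ v, ρ v = (v.1, 1 - v.2)) ∧ (∃ ρ π, Aut ρ π ∧ ∀ v, ρ v = (1 - v.1, 1 - v.2)) ∧
  (∃ ρ π, Aut ρ π ∧ ∀ v, ρ v = (v.2, v.1)) ∧ ∀ v, ∃ ρ π, Aut ρ π ∧ ρ (0, 0) = v

/-- free and wired densities agree -/
def Cont (r : ℝ) : Prop := ∀ v : ℤ × ℤ, ∀ ε > 0, ∃ S, v ∈ S ∧ f1 r S (op v) - f0 r S (op v) ≤ ε

/-- local functions are differences of monotone ones -/
def T_dif : Prop := ∀ (T : Finset (ℤ × ℤ)) (F : Bond → ℝ) (b : ℝ), (∀ ω, |F ω| ≤ b) →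
  Dep (T : Set (ℤ × ℤ)) F → Monotone (fun ω => 2 * b * ∑ v ∈ T, op v ω + F ω) ∧
    Monotone (fun ω => 2 * b * ∑ v ∈ T, op v ω - F ω) ∧ Monotone fun ω => 2 * b * ∑ v ∈ T, op v ω

def T_cau : Prop := ∀ r : ℝ, 1 ≤ r → Cont r → ∀ F : Bond → ℝ, Loc F → ∃ m : ℝ, ∀ ε > 0,
  ∃ S₀, ∀ S, S₀ ⊆ S → (∀ ξ, |fx r S ξ F - m| ≤ ε) ∧ |f1 r S F - m| ≤ ε

def T_mex : Prop := ∀ r : ℝ, 0 < r →
  (∀ F : Bond → ℝ, Loc F → ∃ m, Tendsto (fun S => f0 r S F) atTop (𝓝 m)) →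
  ∃ φ : Measure Bond, IsProbabilityMeasure φ ∧
    ∀ F : Bond → ℝ, Loc F → Tendsto (fun S => f0 r S F) atTop (𝓝 (∫ ω, F ω ∂φ))

/-- the infinite volume measure -/
def FKm (r : ℝ) (φ : Measure Bond) : Prop := IsProbabilityMeasure φ ∧ ∀ F : Bond → ℝ, Loc F →
  ∀ ε > 0, ∃ S₀, ∀ S, S₀ ⊆ S → (∀ ξ, |fx r S ξ F - ∫ ω, F ω ∂φ| ≤ ε) ∧ |f1 r S F - ∫ ω, F ω ∂φ| ≤ ε

def T_fkm : Prop := ∀ r : ℝ, 1 ≤ r → Cont r → ∃ φ, FKm r φ

def T_link : Prop := ∀ (q : ℝ) φ, 0 < q → FKm √q φ → IsFK (√q / (1 + √q)) q φ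

/-- invariance, association, finite energy -/
def T_qi : Prop := ∀ (r : ℝ) φ, 1 ≤ r → FKm r φ →
  (∀ ρ π F, Aut ρ π → Loc F → ∫ ω, F (ω ∘ ρ) ∂φ = ∫ ω, F ω ∂φ) ∧
  (∀ F G : Bond → ℝ, Loc F → Loc G → Monotone F → Monotone G →
    (∫ ω, F ω ∂φ) * ∫ ω, G ω ∂φ ≤ ∫ ω, F ω * G ω ∂φ) ∧
  ∀ (T : Finset (ℤ × ℤ)) (G : Bond → ℝ), Loc G → (∀ ω, 0 ≤ G ω) →
    ∫ ω, G (fun v => if v ∈ T then false else ω v) ∂φ ≤ (1 + r) ^ T.card * ∫ ω, G ω ∂φ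

/-- mixing -/
def T_qm : Prop := ∀ (r : ℝ) φ, 1 ≤ r → FKm r φ → ∀ F : Bond → ℝ, Loc F → ∀ ε > 0,
  ∃ S : Finset (ℤ × ℤ), ∀ (T : Finset (ℤ × ℤ)) (H : Bond → ℝ), Dep (T : Set (ℤ × ℤ)) H →
    Disjoint S T → (∀ ω, |H ω| ≤ 1) →
    |∫ ω, F ω * H ω ∂φ - (∫ ω, F ω ∂φ) * ∫ ω, H ω ∂φ| ≤ ε

/-! ### The torus -/

section tor

variable {A B : Type} [Ring A] [Ring B]

def ta (par : A × B → Bool) (v : A × B) : A × B := if par v then v else v - (1, 0)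
def tb (par : A × B → Bool) (v : A × B) : A × B := if par v then v - (1, 1) else v - (0, 1)

end tor

abbrev Tor (M L : ℕ) := ZMod M × ZMod L

/-- weight and expectation on the torus -/
def wT (r : ℝ) (M L : ℕ) [NeZero M] [NeZero L] (ω : Tor M L → Bool) : ℝ :=
  wt r (ta (pt M L)) (tb (pt M L)) nil univ ω
def tE (r : ℝ) (M L : ℕ) [NeZero M] [NeZero L] (F : (Tor M L → Bool) → ℝ) : ℝ :=
  ex r (ta (pt M L)) (tb (pt M L)) nil univ (fun _ => false) F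

/-- windows in the torus -/
def T_tl : Prop := ∀ (r : ℝ) (M L : ℕ) [NeZero M] [NeZero L] (k : ℕ) (S : Finset (ℤ × ℤ))
  (t : ℤ × ℤ) (F : Bond → ℝ) (H : (Tor M L → Bool) → ℝ), 1 ≤ r → Even M → Even L →
  2 * k + 4 ≤ L → L ≤ M → (∀ v ∈ S, |v.1| ≤ k ∧ |v.2| ≤ k) → Even (t.1 + t.2) → Monotone F →
  Dep (S : Set (ℤ × ℤ)) F → (∀ ω, 0 ≤ H ω) →
  Dep ((fun v => pv M L (v + t)) '' (S : Set (ℤ × ℤ)))ᶜ H →
  f0 r S F * tE r M L H ≤ tE r M L (fun ω => F (fun v => ω (pv M L (v + t))) * H ω) ∧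
  tE r M L (fun ω => F (fun v => ω (pv M L (v + t))) * H ω) ≤ f1 r S F * tE r M L H

/-- the torus cut open -/
def rc (M L : ℕ) : Finset (ℤ × ℤ) := Finset.Ico (1 : ℤ) M ×ˢ Finset.Ico (1 : ℤ) L

/-- the bonds of the seam are in the state `s` -/
def sem (M L : ℕ) (s : Bool) (ω : Tor M L → Bool) : ℝ := chi (∀ v, v.1 = 0 ∨ v.2 = 0 → ω v = s)

def T_sm0 : Prop := ∀ (r : ℝ) (M L : ℕ) [NeZero M] [NeZero L], 1 ≤ r → Even M → Even L →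
  ∀ v ∈ rc M L, tE r M L (fun ω => op (pv M L v) ω * sem M L false ω) ≤
    f0 r (rc M L) (op v) * tE r M L (sem M L false)

def T_sm1 : Prop := ∀ (r : ℝ) (M L : ℕ) [NeZero M] [NeZero L], 1 ≤ r → Even M → Even L →
  ∀ v ∈ rc M L, f1 r (rc M L) (op v) * tE r M L (sem M L true) ≤
    tE r M L fun ω => op (pv M L v) ω * sem M L true ω

/-- exponential moments of the number of open bonds -/
def Prs (r : ℝ) : Prop := ∃ C : ℝ, ∀ ε > 0, ∃ t0 > 0, ∀ t : ℝ, |t| ≤ t0 → ∃ L0 : ℕ,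
  ∀ (L : ℕ) [NeZero L], Even L → L0 ≤ L → ∃ M0 : ℕ, ∀ (M : ℕ) [NeZero M], Even M → M0 ≤ M →
    tE r M L (fun ω => Real.exp (t * cnt univ ω)) ≤ Real.exp ((t / 2 + ε * |t|) * (M * L) + C * M)

/-- the conditional form of the inequality of Jensen -/
def T_sj : Prop := ∀ (r : ℝ) (M L : ℕ) [NeZero M] [NeZero L] (s : Bool) (t x : ℝ), 1 ≤ r →
  r ≤ 2 → L ≤ M → x * tE r M L (sem M L s) ≤ tE r M L (fun ω => t * cnt univ ω * sem M L s ω) →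
  Real.exp x ≤ Real.exp (4 * M) * tE r M L fun ω => Real.exp (t * cnt univ ω)

def T_a1 : Prop := ∀ r : ℝ, 1 ≤ r → r ≤ 2 → Prs r → ∀ ε > 0,
  ∃ S, (0, 0) ∈ S ∧ f1 r S (op (0, 0)) ≤ 1 / 2 + ε

def T_a0 : Prop := ∀ r : ℝ, 1 ≤ r → r ≤ 2 → Prs r → ∀ ε > 0,
  ∃ S, (0, 0) ∈ S ∧ 1 / 2 - ε ≤ f0 r S (op (0, 0))

def T_cont : Prop := ∀ r : ℝ, 1 ≤ r → r ≤ 2 → Prs r → Cont r

/-! ### Loops and clusters -/

open Classical in
/-- number of orbits -/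
def nl {E : Type} [Fintype E] (g : E → E) : ℕ := (univ.image fun e => {e' | Cls g e e'}).card

def T_mrg : Prop := ∀ (E : Type) [Fintype E] (g g' : E → E) (x y : E), Function.Injective g →
  g' x = g y → g' y = g x → (∀ e, e ≠ x → e ≠ y → g' e = g e) →
  nl g' ≤ nl g + 1 ∧ (¬ Cls g x y → nl g' + 1 ≤ nl g)

/-- the defect in the formula of Euler -/
def df (M L : ℕ) [NeZero M] [NeZero L] (ω : Tor M L → Bool) : ℤ :=
  (nl (nx (pt M L) ω) : ℤ) - 2 * kk (ta (pt M L)) (tb (pt M L)) nil univ ω - cnt univ ω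

def T_df1 : Prop := ∀ (M L : ℕ) [NeZero M] [NeZero L], Even M → Even L → Antitone (df M L)

def T_df2 : Prop := ∀ (M L : ℕ) [NeZero M] [NeZero L], Even M → Even L → ∀ s : Bool,
  2 * nl (nx (pt M L) fun _ => s) = M * L

def T_df3 : Prop := ∀ (M L : ℕ) [NeZero M] [NeZero L], Even M → Even L →
  kk (ta (pt M L)) (tb (pt M L)) nil univ (fun _ => true) ≤ 1 ∧
  M * L ≤ 2 * kk (ta (pt M L)) (tb (pt M L)) nil univ fun _ => false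

/-! ### The correspondence of Baxter, Kelland and Wu -/

open Classical in
def SL (a : ℝ) (M L : ℕ) [NeZero M] [NeZero L] (W : Finset Edge) (j : Edge → ℝ)
    (ω : Tor M L → Bool) : ℂ :=
  ∑ ε : TOri M L, if (∀ e, ε (nx (pt M L) ω e) = ε e) ∧ Bal M L (fun e => ε e == rf (pt M L) e) then
    Complex.exp (Complex.I * (∑ e, sg (ε e) * (a / 4 * kap (pt M L) ω e) +
      ∑ e ∈ W, j e * (sg (ε (pe M L e)) * sg (rf pz e)) : ℝ)) else 0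

open Classical in
def T_bk1 : Prop := ∀ (a : ℝ) (M L : ℕ) [NeZero M] [NeZero L], Even M → Even L → ∀ ε : TOri M L,
  (twt (2 * Real.cos (a / 2)) M L (fun e => ε e == rf (pt M L) e) : ℂ) =
    ∑ ω : Tor M L → Bool, if ∀ e, ε (nx (pt M L) ω e) = ε e then
      Complex.exp (Complex.I * (∑ e, sg (ε e) * (a / 4 * kap (pt M L) ω e) : ℝ)) else 0

open Classical in
def T_bkw : Prop := ∀ (a : ℝ) (M L : ℕ) [NeZero M] [NeZero L], Even M → Even L →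
  ∀ (W : Finset Edge) (j : Edge → ℝ),
  (∑ o : TOri M L, if Bal M L o then (twt (2 * Real.cos (a / 2)) M L o : ℂ) *
    Complex.exp (Complex.I * (∑ e ∈ W, j e * sg (lift M L o e) : ℝ)) else 0) = ∑ ω, SL a M L W j ω

def T_tr : Prop := ∀ (a : ℝ) (M L : ℕ) [NeZero M] [NeZero L], Even M → Even L →
  ∀ (t : ℤ × ℤ) (ω : Tor M L → Bool), Even (t.1 + t.2) →
    SL a M L ∅ 0 (fun v => ω (v + pv M L t)) = SL a M L ∅ 0 ω

open Classical in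
def PL (a : ℝ) (W : Finset Edge) (j : Edge → ℝ) (ω : Bond) : ℝ :=
  ∏ l ∈ W.image (loop ω),
    Real.cos (a / 4 * (∑ᶠ e ∈ l, kap pz ω e : ℤ) + ∑ e ∈ W, j e * ul l e) / Real.cos a

open Classical in
def aL (a : ℝ) (M L : ℕ) (W : Finset Edge) (j : Edge → ℝ) (ω : Tor M L → Bool)
    (e : Tor M L × Bool) : ℝ :=
  a / 4 * kap (pt M L) ω e + ∑ w ∈ W.filter (fun w => pe M L w = e), j w * sg (rf pz w)

open Classical in
/-- the contractible loops -/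
def cl (M L : ℕ) [NeZero M] [NeZero L] (ω : Tor M L → Bool) : Finset (Finset (Tor M L × Bool)) :=
  (univ.filter (Ctr M L ω)).image fun e => univ.filter (Cls (nx (pt M L) ω) e)

open Classical in
def T_facA : Prop := ∀ (a : ℝ) (M L : ℕ) [NeZero M] [NeZero L] (ω : Tor M L → Bool)
  (W : Finset Edge) (j : Edge → ℝ), SL a M L W j ω =
    ∑ ε : TOri M L, if (∀ e, ε (nx (pt M L) ω e) = ε e) ∧ Bal M L (fun e => ε e == rf (pt M L) e)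
      then Complex.exp (Complex.I * (∑ e, sg (ε e) * aL a M L W j ω e : ℝ)) else 0

def T_facB : Prop := ∀ (a : ℝ) (M L : ℕ) [NeZero M] [NeZero L], 0 ≤ a → a ≤ Real.pi / 3 →
  Even M → Even L → L ≤ M → ∀ (ω : Tor M L → Bool) (W : Finset Edge) (j : Edge → ℝ),
    |∏ l ∈ cl M L ω, Real.cos (∑ e ∈ l, aL a M L W j ω e) / Real.cos a| ≤ 2 ^ W.card ∧
    (W = ∅ → ∏ l ∈ cl M L ω, Real.cos (∑ e ∈ l, aL a M L W j ω e) / Real.cos a = 1)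

def T_facC : Prop := ∀ (a : ℝ) (M L : ℕ) [NeZero M] [NeZero L], 0 ≤ a → a ≤ Real.pi / 3 →
  Even M → Even L → L ≤ M → ∀ (ω : Tor M L → Bool) (W : Finset Edge) (j : Edge → ℝ) (N : ℕ),
    2 * N < L → Good W N (lf M L ω) →
    ∏ l ∈ cl M L ω, Real.cos (∑ e ∈ l, aL a M L W j ω e) / Real.cos a = PL a W j (lf M L ω)

def T_fac : Prop := ∀ (a : ℝ) (M L : ℕ) [NeZero M] [NeZero L], 0 ≤ a → a ≤ Real.pi / 3 →
  Even M → Even L → L ≤ M → ∀ ω : Tor M L → Bool, ∃ T : ℝ,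
    (2 * Real.cos a) ^ (cl M L ω).card ≤ T ∧ T ≤ 2 ^ M * (2 * Real.cos a) ^ (cl M L ω).card ∧
    SL a M L ∅ 0 ω = T ∧ ∀ (W : Finset Edge) (j : Edge → ℝ), ‖SL a M L W j ω‖ ≤ 2 ^ W.card * T ∧
      ∀ N : ℕ, 2 * N < L → Good W N (lf M L ω) → SL a M L W j ω = (PL a W j (lf M L ω) * T : ℝ)

/-- the two weights are comparable -/
def T_cmp : Prop := ∀ (a : ℝ) (M L : ℕ) [NeZero M] [NeZero L], 0 ≤ a → a ≤ Real.pi / 3 →
  Even M → Even L → L ≤ M → ∃ κ > 0, ∀ ω : Tor M L → Bool,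
    κ * wT (2 * Real.cos a) M L ω ≤ (SL a M L ∅ 0 ω).re ∧
    (SL a M L ∅ 0 ω).re ≤ Real.exp (3 * M) * κ * wT (2 * Real.cos a) M L ω

def T_gl : Prop := ∀ (a : ℝ) (W : Finset Edge) (j : Edge → ℝ) (N : ℕ), 0 ≤ a → a ≤ Real.pi / 3 →
  Loc (fun ω => chi (Good W N ω) * PL a W j ω) ∧ ∀ ω, |PL a W j ω| ≤ 2 ^ W.card

def T_phi : Prop := ∀ (q : ℝ) δ f X g W j, 1 ≤ q → q ≤ 4 → Rep δ f X g W j → ∀ ω,
  (∀ e ∈ W, (loop ω e).Finite) → Phq q δ f ω = PL (Real.arccos (√q / 2)) W j ω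

/-! ### Entropy -/

def T_prod : Prop := ∀ (Ω ι : Type) [Fintype Ω] [DecidableEq ι] (I : Finset ι) (w : Ω → ℝ)
  (Y : ι → Ω → ℝ) (g b s : ℝ), (∀ ω, 0 ≤ w ω) → (∀ i ω, |Y i ω| ≤ b) → 0 ≤ s → s * b ≤ 1 →
  (∀ J ⊆ I, ∀ i ∈ I, i ∉ J → ∑ ω, w ω * (Y i ω * ∏ j ∈ J, Real.exp (s * Y j ω)) ≤
    g * ∑ ω, w ω * ∏ j ∈ J, Real.exp (s * Y j ω)) →
  ∑ ω, w ω * ∏ i ∈ I, Real.exp (s * Y i ω) ≤
    Real.exp (I.card * (s * g + (s * b) ^ 2)) * ∑ ω, w ω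

def T_jen : Prop := ∀ (Ω ι : Type) [Fintype Ω] (I : Finset ι) (w U : Ω → ℝ) (Y : ι → Ω → ℝ)
  (κ K x s y : ℝ), (∀ ω, 0 ≤ w ω) → 0 < ∑ ω, w ω → 0 < κ → 0 ≤ s →
  (∀ ω, κ * w ω ≤ U ω ∧ U ω ≤ Real.exp K * κ * w ω) →
  (∀ i ∈ I, x * ∑ ω, U ω ≤ ∑ ω, U ω * Y i ω) →
  ∑ ω, w ω * ∏ i ∈ I, Real.exp (s * Y i ω) ≤ Real.exp y * ∑ ω, w ω → I.card * s * x ≤ K + y

/-- the tilt is not seen locally -/
def T_loc : Prop := ∀ (r : ℝ) φ, 1 ≤ r → FKm r φ → ∀ G : Bond → ℝ, Loc G → ∀ ε > 0, ∃ L0 : ℕ,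
  ∀ (M L : ℕ) [NeZero M] [NeZero L], Even M → Even L → L0 ≤ L → L ≤ M →
  ∀ (U : (Tor M L → Bool) → ℝ) (κ : ℝ), 0 < κ →
  (∀ ω, κ * wT r M L ω ≤ U ω ∧ U ω ≤ Real.exp (3 * M) * κ * wT r M L ω) →
  (∀ (t : ℤ × ℤ) ω, Even (t.1 + t.2) → U (fun v => ω (v + pv M L t)) = U ω) →
  |(∑ ω, U ω * G (lf M L ω)) / ∑ ω, U ω - ∫ ω, G ω ∂φ| ≤ ε

/-- the same for monotone functions -/
def T_loc1 : Prop := ∀ (r : ℝ) (S : Finset (ℤ × ℤ)) (G : Bond → ℝ), 1 ≤ r → Monotone G →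
  Dep (S : Set (ℤ × ℤ)) G → ∀ ε > 0, ∃ L0 : ℕ,
  ∀ (M L : ℕ) [NeZero M] [NeZero L], Even M → Even L → L0 ≤ L → L ≤ M →
  ∀ (U : (Tor M L → Bool) → ℝ) (κ : ℝ), 0 < κ →
  (∀ ω, κ * wT r M L ω ≤ U ω ∧ U ω ≤ Real.exp (3 * M) * κ * wT r M L ω) →
  (∀ (t : ℤ × ℤ) ω, Even (t.1 + t.2) → U (fun v => ω (v + pv M L t)) = U ω) →
  f0 r S G - ε ≤ (∑ ω, U ω * G (lf M L ω)) / ∑ ω, U ω ∧
    (∑ ω, U ω * G (lf M L ω)) / ∑ ω, U ω ≤ f1 r S G + ε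

/-- long loops are rare -/
def ArmQ (φ : Measure Bond) : Prop := ∀ W : Finset Edge,
  Tendsto (fun N => ∫ ω, chi (Good W N ω) ∂φ) atTop (𝓝 1)

def T_tex : Prop := ∀ (a : ℝ) φ, 0 ≤ a → a ≤ Real.pi / 3 → FKm (2 * Real.cos a) φ →
  ∀ (W : Finset Edge) (j : Edge → ℝ) (N : ℕ), ∀ ε > 0, ∃ L0 : ℕ,
  ∀ (M L : ℕ) [NeZero M] [NeZero L], Even M → Even L → L0 ≤ L → L ≤ M →
  |texp (2 * Real.cos (a / 2)) M L (fun o => Real.cos (∑ e ∈ W, j e * sg (o e))) -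
    ∫ ω, chi (Good W N ω) * PL a W j ω ∂φ| ≤ 2 ^ W.card * (1 - ∫ ω, chi (Good W N ω) ∂φ) + ε

def T_cut : Prop := ∀ (a : ℝ) (φ : Measure Bond), 0 ≤ a → a ≤ Real.pi / 3 →
  IsProbabilityMeasure φ → ArmQ φ → ∀ (W : Finset Edge) (j : Edge → ℝ) (Φ : Bond → ℝ),
  (∀ ω, (∀ e ∈ W, (loop ω e).Finite) → Φ ω = PL a W j ω) →
  (∀ᵐ ω ∂φ, ∀ e ∈ W, (loop ω e).Finite) ∧ Integrable Φ φ ∧
    Tendsto (fun N => ∫ ω, chi (Good W N ω) * PL a W j ω ∂φ) atTop (𝓝 (∫ ω, Φ ω ∂φ))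

end

end Vale.Agent.P167.Q
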