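import Vale.Agent.P167.QStm
import Vale.Agent.P167.PcStm2
import Vale.Agent.P152.XDefs

/-! P167, random-cluster model: arms, and exponential moments in the six vertex model. -/

open MeasureTheory Filter Topology Finset

namespace Vale.Agent.P167.Q

open Vale.Agent.P152 Vale.Agent.P167.Pc

noncomputable section

/-! ### Arms -/

/-- the bond at a site of the refined lattice -/
def iv (x : ℤ × ℤ) : ℤ × ℤ := ((x.1 + x.2 + 1) / 2, (x.2 - x.1 + 1) / 2)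

/-- the colouring of the refined lattice -/
def cq (ω : Bond) : Col := col fun x => !ω (iv x)

def pq (φ : Measure Bond) : PFn := fun F => ∫ ω, F (cq ω) ∂φ

def T_sym : Prop := ∀ (r : ℝ) φ, 1 ≤ r → FKm r φ → ∀ F, CLoc F → Pc.Loc (fun ω => F (cq ω)) ∧
  (∀ t, pq φ (cmv (tr2 t) F) = pq φ F) ∧ pq φ (cmv Prod.swap F) = pq φ F ∧
  pq φ (cmv Neg.neg F) = pq φ F ∧ pq φ (cmv (fun x => (-x.1, x.2)) F) = pq φ F

def T_pst : Prop := ∀ (r : ℝ) φ, 1 ≤ r → FKm r φ → PSt (pq φ)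

def T_pfe : Prop := ∀ (r : ℝ) φ, 1 ≤ r → FKm r φ → FE1 (pq φ)

/-- a long loop gives a long arm of the other colour -/
def T_bad : Prop := ∀ e : Edge, ∃ (x : Site) (C : ℕ), ∀ (s : Bond) (R : ℕ),
  ¬ Good {e} (R + C) (om s) → col s ∈ Arm NNa false x R

def T_arm : Prop := ∀ (r : ℝ) φ, 1 ≤ r → FKm r φ → ArmQ φ

/-! ### The six vertex model -/

/-- the even (`b = true`) or odd faces at `v` have different heights -/
def dg (M L : ℕ) (b : Bool) (o : TOri M L) (v : Tor M L) : ℝ :=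
  if (if b then (ab4 (pt M L v) (o ((v.1 - 1, v.2), true)) (o (v, true)) (o ((v.1, v.2 - 1), false))).1
    else (ab4 (pt M L v) (o ((v.1 - 1, v.2), true)) (o (v, true)) (o ((v.1, v.2 - 1), false))).2)
  then 0 else 1

def AB (M L : ℕ) [NeZero M] [NeZero L] (o : TOri M L) : ℝ := ∑ v, (dg M L false o v - dg M L true o v)

open Classical in
/-- weight of the balanced configurations -/
def bw6 (c : ℝ) (M L : ℕ) [NeZero M] [NeZero L] (o : TOri M L) : ℝ :=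
  if Bal M L o then twt c M L o else 0

open Classical in
/-- the correspondence with a fugacity for the open bonds -/
def T_bkx : Prop := ∀ (a t : ℝ) (M L : ℕ) [NeZero M] [NeZero L], 0 ≤ a → a ≤ Real.pi / 3 →
  |t| ≤ 1 → Even M → Even L → ∀ ε : TOri M L,
  ‖∑ ω : Tor M L → Bool, if ∀ e, ε (nx (pt M L) ω e) = ε e then (Real.exp (t * cnt univ ω) : ℂ) *
      Complex.exp (Complex.I * (∑ e, sg (ε e) * (a / 4 * kap (pt M L) ω e) : ℝ)) else 0‖ ≤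
    Real.exp ((t / 2 + t ^ 2) * (M * L)) *
      (twt (2 * Real.cos (a / 2)) M L (fun e => ε e == rf (pt M L) e) *
        Real.exp (t / 2 * AB M L fun e => ε e == rf (pt M L) e))

def T_bky : Prop := ∀ (a t : ℝ) (M L : ℕ) [NeZero M] [NeZero L], 0 ≤ a → a ≤ Real.pi / 3 →
  |t| ≤ 1 → Even M → Even L →
  ∑ ω : Tor M L → Bool, Real.exp (t * cnt univ ω) * (SL a M L ∅ 0 ω).re ≤
    Real.exp ((t / 2 + t ^ 2) * (M * L)) *
      ∑ o, bw6 (2 * Real.cos (a / 2)) M L o * Real.exp (t / 2 * AB M L o) ∧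
  ∑ ω : Tor M L → Bool, (SL a M L ∅ 0 ω).re = ∑ o, bw6 (2 * Real.cos (a / 2)) M L o

/-- from the torus to the cylinder -/
def T_ch : Prop := ∀ (c : ℝ) (l : ℕ), 0 < c → ∃ k0 : ℕ, ∀ k ≥ k0, ∃ C : ℝ, ∀ᶠ M : ℕ in atTop,
  0 < chn (tm c l) (fun s t => tm c l t s) M 0 1 ∧
  0 < chn (tm c l) (fun s t => uL s * uR t) (M + 2 * k + 1) k 1 ∧
  ∀ G : (ℤ → Colc l) → ℝ, (∀ o, 0 ≤ G o) →
    (∀ o o' : ℤ → Colc l, (∀ x : ℤ, 0 ≤ x → x ≤ M → o x = o' x) → G o = G o') →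
    chn (tm c l) (fun s t => tm c l t s) M 0 G / chn (tm c l) (fun s t => tm c l t s) M 0 1 ≤
      C * (chn (tm c l) (fun s t => uL s * uR t) (M + 2 * k + 1) k G /
        chn (tm c l) (fun s t => uL s * uR t) (M + 2 * k + 1) k 1)

/-- the gluing inequality -/
def T_glu : Prop := ∀ (S : Type) [Fintype S] [DecidableEq S] (A : Matrix S S ℝ) (u w : S → ℝ)
  (k M : ℕ) (C : ℝ), (∀ s t, 0 ≤ A s t) →
  (∀ s t, A t s ≤ C * ((∑ x, u x * (A ^ k) x s) * ∑ y, (A ^ (k + 1)) t y * w y)) →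
  (∀ n a, chn A (fun s t => u s * w t) n a 1 = ∑ x, ∑ y, u x * w y * (A ^ n) x y) ∧
  chn A (fun s t => A t s) M 0 1 = ∑ s, ∑ t, A t s * (A ^ M) s t ∧
  ∀ G : (ℤ → S) → ℝ, (∀ o, 0 ≤ G o) →
    (∀ o o' : ℤ → S, (∀ x : ℤ, 0 ≤ x → x ≤ M → o x = o' x) → G o = G o') →
    chn A (fun s t => A t s) M 0 G ≤ C * chn A (fun s t => u s * w t) (M + 2 * k + 1) k G

/-- positivity of the end vectors -/
def T_pos : Prop := ∀ (c : ℝ) (l : ℕ), 0 < c → ∃ k0 : ℕ, ∀ k ≥ k0, ∀ s t, tm c l t s ≠ 0 →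
  0 < ∑ x, uL x * (tm c l ^ k) x s ∧ 0 < ∑ y, (tm c l ^ (k + 1)) t y * uR y

/-- the law of tau on the cylinder -/
def T_cy : Prop := ∀ (c : ℝ) (l n a : ℕ) (W : Finset (Cy l)) (f : Bool → ℝ), 1 < c → Even n →
  W ⊆ cE l n →
  chn (tm c l) (fun s t => uL s * uR t) n a (fun o => ∏ v ∈ W, f (ab4 (cev v)
      (o (v.1 - a - 1) (v.2, true)) (o (v.1 - a) (v.2, true)) (o (v.1 - a) (v.2 - 1, false))).1) /
    chn (tm c l) (fun s t => uL s * uR t) n a 1 =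
  xav (cV l n) (xm c csrc ctgt (cV l n) (cE l n)) fun τ => ∏ v ∈ W, f (τ (csrc v) == τ (ctgt v))

/-- both spins have the sign `b` -/
def bb {V : Type} (x y : V) (b : Bool) (τ : V → Bool) : ℝ := if τ x = b ∧ τ y = b then 1 else 0

/-- conditional agreement probabilities -/
def T_seq : Prop := ∀ (V E : Type) [DecidableEq V] (c : ℝ) (s t : E → V) (Λ Λ' : Finset V)
  (R : Finset E) (x y : V) (H : (V → Bool) → ℝ), 1 < c → Λ' ⊆ Λ → (∀ τ, 0 < H τ) →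
  Dp (Λ' : Set V)ᶜ H → (∀ τ, H (fun v => !τ v) = H τ) →
  2 * xav Λ' (xm c s t Λ' R) (bb x y false) * xav Λ (xm c s t Λ R) H ≤
    xav Λ (xm c s t Λ R) (fun τ => (if τ x = τ y then 1 else 0) * H τ) ∧
  xav Λ (xm c s t Λ R) (fun τ => (if τ x = τ y then 1 else 0) * H τ) ≤
    2 * xav Λ' (xm c s t Λ' R) (bb x y true) * xav Λ (xm c s t Λ R) H

/-- the shifted projection onto the cylinder -/
def sp (l : ℕ) (x y : ℤ) (v : Site) : Cy l := (v.1 + v.2 + x, ((v.1 - v.2 + y : ℤ) : ZMod (2 * l + 2)))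

/-- windows in the cylinder -/
def T_win : Prop := ∀ (c : ℝ) (D : Finset Site), 1 < c → ∃ r : ℕ, ∀ (l n : ℕ) (x y : ℤ), r ≤ l →
  Even (x + y) → (r : ℤ) ≤ x → x + r ≤ n → (inn D).image (sp l x y) ⊆ cV l n ∧
  (∀ v ∈ inn D, |v.1 + v.2| < r ∧ |v.1 - v.2| < r) ∧
  ∀ p ∈ inn D, ∀ p' ∈ inn D, ∀ b,
    xav ((inn D).image (sp l x y)) (xm c csrc ctgt ((inn D).image (sp l x y)) (cE l n))
      (bb (sp l x y p) (sp l x y p') b) = ATD c D fun ω => bb p p' b fun v => ω (v, true)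

/-- the plus state is symmetric in the limit -/
def T_at : Prop := ∀ c : ℝ, 1 < c → Mag c → ATX c → ∀ p p' : Site, ∃ g : ℝ, ∀ ε > 0,
  ∃ D : Finset Site, p ∈ inn D ∧ p' ∈ inn D ∧
    2 * ATD c D (fun ω => bb p p' true fun v => ω (v, true)) ≤ g + ε ∧
    g - ε ≤ 2 * ATD c D fun ω => bb p p' false fun v => ω (v, true)

/-- exponential moments on the cylinder -/
def T_mc : Prop := ∀ c : ℝ, 1 < c → Mag c → ATX c → ∀ z : Bool, ∃ h : ℝ, ∀ ε > 0, ∃ K : ℕ,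
  0 < K ∧ Even K ∧ ∀ (d s : ℝ) (l n k m : ℕ), (d = 1 ∨ d = -1) → 0 ≤ s → s ≤ 1 → K ≤ l → Even k →
    K ≤ k → k + K * m + K ≤ n →
    xav (cV l n) (xm c csrc ctgt (cV l n) (cE l n)) (fun τ =>
      ∏ v ∈ (range m ×ˢ range ((2 * l + 2) / K)).image (fun i : ℕ × ℕ =>
        (((1 + K * i.1 + k : ℕ), ((if z then 1 else 0) + K * i.2 : ℕ)) : Cy l)),
        Real.exp (s * (d * if (τ (csrc v) == τ (ctgt v)) = true then 0 else 1))) ≤
      Real.exp ((m * ((2 * l + 2) / K) : ℕ) * (s * (d * h + ε) + s ^ 2))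

/-- exponential moments on the torus -/
def Mom (c : ℝ) : Prop := ∀ z : Bool, ∃ h : ℝ, ∀ ε > 0, ∃ K : ℕ, 0 < K ∧ Even K ∧
  ∀ (d s : ℝ), (d = 1 ∨ d = -1) → 0 ≤ s → s ≤ 1 → ∀ (L : ℕ) [NeZero L], Even L → 2 * K + 2 ≤ L →
  ∃ M0 : ℕ, ∀ (M : ℕ) [NeZero M], Even M → M0 ≤ M →
    ∑ o, bw6 c M L o * ∏ i ∈ range (M / K) ×ˢ range (L / K), Real.exp (s * (d * dg M L true o
      (((1 + K * i.1 : ℕ) : ZMod M), (((if z then 1 else 0) + K * i.2 : ℕ) : ZMod L)))) ≤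
    Real.exp (M + (M / K * (L / K) : ℕ) * (s * (d * h + ε) + s ^ 2)) * ∑ o, bw6 c M L o

def T_mom : Prop := ∀ c : ℝ, 1 < c → Mag c → ATX c → Mom c

/-- translations -/
def T_sh : Prop := ∀ (c : ℝ) (M L : ℕ) [NeZero M] [NeZero L], 0 < c → Even M → Even L →
  (∀ o, 0 ≤ bw6 c M L o) ∧ 0 < ∑ o, bw6 c M L o ∧ ∀ (u : Tor M L) (o : TOri M L),
    bw6 c M L (fun e => o (e.1 + u, e.2)) = bw6 c M L o ∧
    AB M L (fun e => o (e.1 + u, e.2)) = sg (pt M L u) * AB M L o ∧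
    ∀ b v, dg M L b (fun e => o (e.1 + u, e.2)) v = dg M L (b == pt M L u) o (v + u)

/-- local means in the tilted model -/
def T_tm : Prop := ∀ c : ℝ, 0 < c → Mom c → ∀ z : Bool, ∃ h : ℝ, ∀ ε > 0, ∃ u0 > 0, ∃ L0 : ℕ,
  ∀ (L : ℕ) [NeZero L], Even L → L0 ≤ L → ∃ M0 : ℕ, ∀ (M : ℕ) [NeZero M], Even M → M0 ≤ M →
  ∀ u : ℝ, |u| ≤ u0 → ∀ v : Tor M L, pt M L v = z →
    |∑ o, bw6 c M L o * Real.exp (u * AB M L o) * dg M L true o v -
      h * ∑ o, bw6 c M L o * Real.exp (u * AB M L o)| ≤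
      ε * ∑ o, bw6 c M L o * Real.exp (u * AB M L o)

def Abm (c : ℝ) : Prop := ∀ ε > 0, ∃ u0 > 0, ∃ L0 : ℕ,
  ∀ (L : ℕ) [NeZero L], Even L → L0 ≤ L → ∃ M0 : ℕ, ∀ (M : ℕ) [NeZero M], Even M → M0 ≤ M →
  ∀ u : ℝ, |u| ≤ u0 → ∑ o, bw6 c M L o * Real.exp (u * AB M L o) ≤
    Real.exp (ε * |u| * (M * L)) * ∑ o, bw6 c M L o

def T_ab : Prop := ∀ c : ℝ, 0 < c → Mom c → Abm c

def T_prs : Prop := ∀ a : ℝ, 0 ≤ a → a ≤ Real.pi / 3 → Abm (2 * Real.cos (a / 2)) →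
  Prs (2 * Real.cos a)

end

end Vale.Agent.P167.Q
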