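import Vale.Agent.P167.Clus

/-! P167: the signs of the clusters have the law of the height representation. -/

namespace Vale.Agent.P167

open Vale.Agent.P152 Vale.Agent.P145 Vale.Agent.P145.AT Vale.Agent.P145.Lk Finset

variable {P : Pol} {D : Finset Site} {A : Finset Vx}

theorem fkw_eq (h : Good P D) (hA : A ⊆ vx D) : fkw P (2 / 3) 4 A =
    4 * 2 ^ (inn D).card / (3 ^ (vx D).card * (SS D ∅).card) * 2 ^ (A \ vin D).card *
      (Col P A).ncard := by
  have e1 : ((SS D ∅).card : ℝ) * (2 ^ (A ∩ vin D).card * (TT D A).card) =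
      2 ^ (inn D).card * (SS D A).card := by exact_mod_cast euler h.cc A
  have e2 : (2 : ℝ) ^ ncl P A = 2 * (TT D A).card := by exact_mod_cast ncl_eq h hA
  have e3 : (4 : ℝ) ^ ncl P A = (2 ^ ncl P A) ^ 2 := by rw [← pow_mul, mul_comm, pow_mul]; norm_num
  have e4 : (0 : ℝ) < (SS D ∅).card := by exact_mod_cast SS_pos
  rw [fkw, edge_eq h, ← coe_sdiff, Set.ncard_coe_finset, col_card h, e3, e2,
    ← card_sdiff_add_card_eq_card hA, ← card_sdiff_add_card_inter A (vin D),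
    show (1 - 2 / 3 : ℝ) = 1 / 3 by norm_num]
  simp only [div_pow, one_pow, pow_add]
  push_cast
  field_simp
  linear_combination (4 * (TT D A).card) * e1

/-- weight of an open edge -/
def wa (D T : Finset Site) (m : Vx) : ℝ :=
  if m ∈ vin D then (if (src m ∈ T ↔ tgt m ∈ T) then 1 else 0) else 2

/-- weight of a closed edge -/
def wb (D s : Finset Site) (m : Vx) : ℝ :=
  if m ∈ vin D then (if (fa m ∈ s ↔ fb m ∈ s) then 1 else 0) else 1

theorem prod_wa {T : Finset Site} (hT : T ⊆ inn D) :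
    ∏ m ∈ A, wa D T m = if T ∈ TT D A then 2 ^ (A \ vin D).card else 0 := by
  split_ifs with h
  · rw [← prod_const, sdiff_eq_filter, prod_filter]
    refine prod_congr rfl fun m hm => ?_
    rw [wa, if_pos ((mem_TT.1 h).2 m hm), ite_not]
  · rw [mem_TT, and_iff_right hT] at h
    push Not at h
    obtain ⟨m, hm, h⟩ := h
    have k : m ∈ vin D := h.elim (fun e => vin_of_src (hT e.1)) fun e => vin_of_tgt (hT e.2)
    exact prod_eq_zero hm (by rw [wa, if_pos k, if_neg (by tauto)])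

theorem prod_wb {s : Finset Site} (hs : s ⊆ D) :
    ∏ m ∈ vx D \ A, wb D s m = if s ∈ SS D A then 1 else 0 := by
  split_ifs with h
  · refine prod_eq_one fun m hm => ?_
    rw [wb]
    split_ifs with k1 k2
    · rfl
    · exact absurd ((mem_SS.1 h).2 m k1 (mem_sdiff.1 hm).2) k2
    · rfl
  · rw [mem_SS, and_iff_right hs] at h
    push Not at h
    obtain ⟨m, hm, h1, h⟩ := h
    exact prod_eq_zero (mem_sdiff.2 ⟨filter_subset _ _ hm, h1⟩)
      (by rw [wb, if_pos hm, if_neg (by tauto)])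

theorem wt_eq (h : Good P D) {p : Finset Site × Finset Site} (hp : p ∈ XSum.AA D) :
    ∏ m ∈ vx D, (wa D p.1 m + wb D p.2 m) =
      3 ^ (vx D \ vin D).card * 2 ^ (vin D).card * P.wt 2⁻¹ (mk2 D p) := by
  obtain ⟨h1, -, h3⟩ := XSum.mem_AA.1 hp
  have e1 : {e : AT.V × Bool | e.1 ∈ P.vert ∧ tg e ∈ P.vert ∧
      (mk2 D p).1 e.1 ≠ (mk2 D p).1 (tg e)} =
      ((vin D).filter fun m => ¬ (src m ∈ p.1 ↔ tgt m ∈ p.1) : Finset Vx) := by
    ext m
    simp only [Set.mem_ofPred_eq, coe_filter, mk2, mkS, Ne, XSum.ite_iff]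
    refine ⟨fun ⟨_, _, k⟩ => ⟨by_contra fun hm => k (iff_of_false
      (fun e => hm (vin_of_src (h1 e))) fun e => hm (vin_of_tgt (h1 e))), k⟩, fun ⟨hm, k⟩ =>
      ⟨XWt.vert h (mem_vin.1 hm).1 (XWt.cor_fa m).1, XWt.vert h (mem_vin.1 hm).1 (XWt.cor_fa m).2, k⟩⟩
  have e2 : {e : AT.V × Bool | e.1 ∈ P.face ∧ ot e ∈ P.face ∧
      (mk2 D p).2 e.1 ≠ (mk2 D p).2 (ot e)} =
      ((vin D).filter fun m => ¬ (fa m ∈ p.2 ↔ fb m ∈ p.2) : Finset Vx) := by
    ext m
    simp only [Set.mem_ofPred_eq, coe_filter, ot_eq, ← h.coe, mem_vin, and_assoc]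
    refine and_congr_right fun a => and_congr_right fun b => ?_
    simp only [mk2, mkS, Ne, XSum.ite_iff, a, b, true_and, not_iff_not, fa]
  rw [Pol.wt, e1, e2, Set.ncard_coe_finset, Set.ncard_coe_finset, mul_assoc, mul_comm (2 ^ _),
    XWt.alg _ _ _ h3 two_pos, ← prod_sdiff (show vin D ⊆ vx D from filter_subset _ _), ← prod_const]
  refine congrArg₂ _ (prod_congr rfl fun m hm => ?_) (prod_congr rfl fun m hm => ?_)
  · rw [wa, wb, if_neg (mem_sdiff.1 hm).2, if_neg (mem_sdiff.1 hm).2]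
    norm_num
  · have k := h3 m hm
    rw [wa, wb, if_pos hm, if_pos hm]
    by_cases a : (src m ∈ p.1 ↔ tgt m ∈ p.1) <;> by_cases b : (fa m ∈ p.2 ↔ fb m ∈ p.2)
    · rw [if_pos a, if_pos b, if_pos ⟨a, b⟩]; norm_num
    · rw [if_pos a, if_neg b, if_neg fun e => b e.2, add_zero]
    · rw [if_neg a, if_pos b, if_neg fun e => a e.1, zero_add]
    · exact absurd k (by tauto)

theorem main_sum (h : Good P D) : ∃ C : ℝ, 0 < C ∧ ∀ F : AT.Spin → ℝ,
    ∑ A ∈ (vx D).powerset, fkw P (2 / 3) 4 A * ((∑ᶠ s ∈ Col P A, F s) / (Col P A).ncard) =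
      C * ∑ᶠ s ∈ P.Conf, P.wt 2⁻¹ s * F s := by
  have e4 : (0 : ℝ) < (SS D ∅).card := by exact_mod_cast SS_pos
  refine ⟨4 * 2 ^ (inn D).card / (3 ^ (vx D).card * (SS D ∅).card) *
    (3 ^ (vx D \ vin D).card * 2 ^ (vin D).card), by positivity, fun F => ?_⟩
  have h1 : ∀ A ∈ (vx D).powerset,
      fkw P (2 / 3) 4 A * ((∑ᶠ s ∈ Col P A, F s) / (Col P A).ncard) =
      4 * 2 ^ (inn D).card / (3 ^ (vx D).card * (SS D ∅).card) * ∑ p ∈ XSum.AA D,
        ((∏ m ∈ A, wa D p.1 m) * ∏ m ∈ vx D \ A, wb D p.2 m) * F (mk2 D p) := fun A hA => by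
    have k : ((Col P A).ncard : ℝ) ≠ 0 := by
      rw [col_card h]
      exact_mod_cast (mul_pos TT_pos SS_pos).ne'
    rw [fkw_eq h (mem_powerset.1 hA), mul_assoc, mul_div_cancel₀ _ k, mul_assoc, col_sum h, mul_sum,
      ← sum_subset (sub_AA (A := A)) fun p hp hn => ?_]
    · refine congrArg _ (sum_congr rfl fun p hp => ?_)
      obtain ⟨a, b⟩ := mem_product.1 hp
      rw [prod_wa (mem_TT.1 a).1, prod_wb (mem_SS.1 b).1, if_pos a, if_pos b, mul_one]
    · rw [prod_wa (XSum.mem_AA.1 hp).1, prod_wb (XSum.mem_AA.1 hp).2.1]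
      rw [mem_product, not_and_or] at hn
      rcases hn with a | a <;> simp [a]
  rw [sum_congr rfl h1, ← mul_sum, sum_comm, ← XSum.img h, finsum_mem_image (XSum.inj D),
    finsum_mem_coe_finset, mul_assoc]
  refine congrArg _ ?_
  rw [mul_sum]
  refine sum_congr rfl fun p hp => ?_
  rw [← sum_mul, ← prod_add, wt_eq h hp, mul_assoc]
  rfl

theorem fkex_eq (h : Good P D) (F : AT.Spin → ℝ) : fkex P (2 / 3) 4 F = P.ex 2⁻¹ F := by
  obtain ⟨C, hC, k⟩ := main_sum h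
  have e : {A : Finset Vx | ↑A ⊆ edge P} = ↑(vx D).powerset := by
    ext A
    rw [edge_eq h, mem_coe, mem_powerset, Set.mem_ofPred_eq, coe_subset]
  have k1 : ∑ A ∈ (vx D).powerset, fkw P (2 / 3) 4 A = C * ∑ᶠ s ∈ P.Conf, P.wt 2⁻¹ s := by
    have k2 := k fun _ => 1
    simp only [mul_one] at k2
    rw [← k2]
    refine sum_congr rfl fun A _ => ?_
    have k3 : (0 : ℝ) < (TT D A).card * (SS D A).card := by exact_mod_cast mul_pos TT_pos SS_pos
    rw [col_sum h, col_card h, sum_const, card_product, nsmul_eq_mul, mul_one, Nat.cast_mul,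
      div_self k3.ne', mul_one]
  rw [fkex, e, finsum_mem_coe_finset, finsum_mem_coe_finset, k, k1, mul_div_mul_left _ _ hC.ne',
    Pol.ex]

theorem nest_of {a : ℝ} (hc : AT.Conv 2⁻¹ a) : Nest (2 / 3) 4 a := by
  intro ψ P δ hψ hA
  obtain ⟨h1, h2⟩ := hc ψ P δ hψ hA
  choose D hD using fun n => good_all (P n)
  refine ⟨fun n => ⟨vert_eq (hD n) ▸ finite_toSet _, edge_eq (hD n) ▸ finite_toSet _, fun A _ =>
    ⟨(h1 n).1.subset col_sub, ?_, fun s hs => (h1 n).2.2 s (col_sub hs)⟩⟩, fun H hH k φ hφ => ?_⟩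
  · rw [col_eq (hD n)]
    exact Set.Nonempty.image _ (coe_nonempty.2 (card_pos.1 (by
      rw [card_product]; exact mul_pos TT_pos SS_pos)))
  · simp only [fun n => fkex_eq (hD n)]
    exact h2 H (fun n s hs => by
      obtain ⟨A, a1, a2⟩ := conf_col (hD n) hs
      exact hH n A a1 s a2) k φ hφ

end Vale.Agent.P167
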