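import Vale.Agent.P167.ZStm

namespace Vale.Agent.P167.Q

open Vale.Agent.P167.Pc Finset

namespace ZAnn

theorem c1 {p : Prop} (h : p) : chi p = 1 := by simp [chi, h]

theorem c0 {p : Prop} (h : ¬p) : chi p = 0 := by simp [chi, h]

theorem cnn (p : Prop) : 0 ≤ chi p := by
  by_cases h : p
  · rw [c1 h]; norm_num
  · rw [c0 h]

theorem cle (p : Prop) : chi p ≤ 1 := by
  by_cases h : p
  · rw [c1 h]
  · rw [c0 h]; norm_num

theorem dep_mono {Y Y' : Set (ℤ × ℤ)} {F : Bond → ℝ} (h : Dep Y F) (hY : Y ⊆ Y') : Dep Y' F :=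
  fun ω ω' hω => h ω ω' fun v hv => hω v (hY hv)

theorem prod_low (hl : T_lin) (hf : T_fkg) (r : ℝ) (hr : 1 ≤ r) (A : Finset (ℤ × ℤ))
    (D : ℤ × ℤ → Bond → ℝ) (J : Finset (ℤ × ℤ)) (h0 : ∀ p ω, 0 ≤ D p ω)
    (ha : ∀ p, Antitone (D p)) (hh : ∀ p ∈ J, 1 / 2 ≤ f1 r A (D p)) :
    (1 / 2 : ℝ) ^ J.card ≤ f1 r A fun ω => ∏ p ∈ J, D p ω := by
  obtain ⟨l1, -, l3, -, -, -⟩ := hl _ _ r ea eb (Bd A) A (fun _ => false) (by linarith)
  induction J using Finset.induction_on with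
  | empty =>
    simp only [card_empty, pow_zero, prod_empty]
    exact (l1 1).ge
  | insert p J hp ih =>
    have ih' := ih fun q hq => hh q (mem_insert_of_mem hq)
    have h1 := hh p (mem_insert_self _ _)
    have hm : Antitone fun ω => ∏ q ∈ J, D q ω := fun ω ω' h =>
      prod_le_prod (fun q _ => h0 q _) fun q _ => ha q h
    have h2 := hf _ _ r ea eb (Bd A) A (fun _ => false) (fun ω => -1 * D p ω)
      (fun ω => -1 * ∏ q ∈ J, D q ω) hr
      (fun ω ω' h => by have := ha p h; simp only; linarith)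
      (fun ω ω' h => by have := hm h; simp only at this ⊢; linarith)
    rw [l3, l3] at h2
    have e : (fun ω => -1 * D p ω * (-1 * ∏ q ∈ J, D q ω)) =
        fun ω => ∏ q ∈ insert p J, D q ω := by
      funext ω
      rw [prod_insert hp]
      ring
    rw [e] at h2
    rw [card_insert_of_notMem hp, pow_succ]
    unfold f1 at ih' h1 ⊢
    have h3 : (0 : ℝ) ≤ (1 / 2) ^ J.card := by positivity
    have h4 := mul_le_mul ih' h1 (by norm_num) (h3.trans ih')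
    linarith

theorem geo (g a : ℕ) (ha : 1 ≤ a) (i j : ℤ) (hi : |i| ≤ g + 2) (hj : |j| ≤ g + 2)
    (hij : |i| = g + 2 ∨ |j| = g + 2) :
    zb (((2 * a : ℕ) : ℤ) * i, ((2 * a : ℕ) : ℤ) * j) (g * (2 * a) + 1) ⊆
      zb 0 ((4 * g + 8) * a) \ zb 0 a := by
  intro x hx
  rw [mem_sdiff, mem_zb, mem_zb]
  rw [mem_zb] at hx
  simp only [Prod.fst_zero, Prod.snd_zero] at hx ⊢
  push_cast at hx ⊢
  have ha' : (1 : ℤ) ≤ a := by exact_mod_cast ha
  have hg : (0 : ℤ) ≤ g := Int.natCast_nonneg g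
  obtain ⟨hi1, hi2⟩ := abs_le.1 hi
  obtain ⟨hj1, hj2⟩ := abs_le.1 hj
  obtain ⟨x1, x2, x3, x4⟩ := hx
  have b1 := mul_le_mul_of_nonneg_left hi1 (by linarith : (0 : ℤ) ≤ a)
  have b2 := mul_le_mul_of_nonneg_left hi2 (by linarith : (0 : ℤ) ≤ a)
  have b3 := mul_le_mul_of_nonneg_left hj1 (by linarith : (0 : ℤ) ≤ a)
  have b4 := mul_le_mul_of_nonneg_left hj2 (by linarith : (0 : ℤ) ≤ a)
  refine ⟨⟨by linarith, by linarith, by linarith, by linarith⟩, ?_⟩
  rintro ⟨y1, y2, y3, y4⟩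
  rcases hij with h | h
  · rcases (abs_eq (by linarith)).1 h with h | h <;> subst h <;> linarith
  · rcases (abs_eq (by linarith)).1 h with h | h <;> subst h <;> linarith

end ZAnn

open ZAnn in
theorem z_ann (hl : T_lin) (hp : T_pl) (hf : T_fkg) (hz : Z_dep) : Z_ann := by
  intro r hr hW
  obtain ⟨g, u₀, hg, hW⟩ := hW
  obtain ⟨z1, z2, z3⟩ := hz
  set I : Finset (ℤ × ℤ) := (Icc (-((g : ℤ) + 2)) (g + 2) ×ˢ Icc (-((g : ℤ) + 2)) (g + 2)).filter
    fun p => |p.1| = g + 2 ∨ |p.2| = g + 2 with hI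
  have mI : ∀ p : ℤ × ℤ, p ∈ I ↔
      (|p.1| ≤ g + 2 ∧ |p.2| ≤ g + 2) ∧ (|p.1| = g + 2 ∨ |p.2| = g + 2) := fun p => by
    simp only [hI, mem_filter, mem_product, mem_Icc, abs_le]
  refine ⟨4 * g + 8, u₀ + 1, (1 / 2) ^ I.card, by omega, by omega, by positivity, ?_⟩
  intro a ha S hS H hH hHd
  have ha1 : 1 ≤ a := by omega
  set A : Finset (ℤ × ℤ) := zb 0 ((4 * g + 8) * a) \ zb 0 a with hA
  set z : ℤ × ℤ → ℤ × ℤ := fun p => (((2 * a : ℕ) : ℤ) * p.1, ((2 * a : ℕ) : ℤ) * p.2) with hzd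
  set D : ℤ × ℤ → Bond → ℝ := fun p ω => 1 + -1 * chi (Ar (z p) (2 * a) (g * (2 * a)) ω) with hD
  have hsub : ∀ p ∈ I, zb (z p) (g * (2 * a) + 1) ⊆ A := fun p hp' =>
    geo g a ha1 p.1 p.2 ((mI p).1 hp').1.1 ((mI p).1 hp').1.2 ((mI p).1 hp').2
  have hu : 2 * a ≤ g * (2 * a) := Nat.le_mul_of_pos_left _ (by omega)
  have h0 : ∀ p ω, 0 ≤ D p ω := fun p ω => by
    have := cle (Ar (z p) (2 * a) (g * (2 * a)) ω)
    simp only [hD]
    linarith
  have h1 : ∀ p ω, D p ω ≤ 1 := fun p ω => by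
    have := cnn (Ar (z p) (2 * a) (g * (2 * a)) ω)
    simp only [hD]
    linarith
  have hant : ∀ p, Antitone (D p) := fun p ω ω' h => by
    have := z1 (z p) (2 * a) (g * (2 * a)) h
    simp only [hD] at this ⊢
    linarith
  have hhalf : ∀ p ∈ I, 1 / 2 ≤ f1 r A (D p) := fun p hp' => by
    obtain ⟨l1, l2, l3, -, -, -⟩ := hl _ _ r ea eb (Bd A) A (fun _ => false) (by linarith)
    have e1 := (hp r _ A _ hr (hsub p hp') (z1 (z p) (2 * a) (g * (2 * a)))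
      (z2 (z p) _ _ hu)).1
    have e2 := hW (2 * a) (by omega) (z p) ⟨a * p.1 + a * p.2, by
      simp only [hzd]; push_cast; ring⟩
    have e3 : f1 r A (D p) = 1 + -1 * f1 r A fun ω => chi (Ar (z p) (2 * a) (g * (2 * a)) ω) := by
      unfold f1
      exact (l2 (fun _ => 1) fun ω => -1 * chi (Ar (z p) (2 * a) (g * (2 * a)) ω)).trans
        (by rw [l1, l3])
    linarith
  have hlow := prod_low hl hf r hr A D I h0 hant hhalf
  have hm : Monotone fun ω => -1 * ∏ q ∈ I, D q ω := fun ω ω' h => by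
    have : ∏ q ∈ I, D q ω' ≤ ∏ q ∈ I, D q ω :=
      prod_le_prod (fun q _ => h0 q _) fun q _ => hant q h
    simp only
    linarith
  have hdep : Dep (A : Set (ℤ × ℤ)) fun ω => -1 * ∏ q ∈ I, D q ω := fun ω ω' h => by
    have : ∏ q ∈ I, D q ω = ∏ q ∈ I, D q ω' := prod_congr rfl fun q hq => by
      have := dep_mono (z2 (z q) _ _ hu) (coe_subset.2 (hsub q hq)) ω ω' h
      simp only [hD] at this ⊢
      rw [this]
    simp only
    rw [this]
  have key := ((hp r A S _ hr (sdiff_subset.trans hS) hm hdep).2 (fun _ => false) H hH hHd).2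
  obtain ⟨-, -, l3, -, -, -⟩ := hl _ _ r ea eb (Bd A) A (fun _ => false) (by linarith)
  obtain ⟨k1, -, k3, k4, -, -⟩ := hl _ _ r ea eb nil S (fun _ => false) (by linarith)
  have hpt : ∀ ω, -1 * (H ω * chi (¬ Ar 0 (a + 1) ((4 * g + 8) * a - 1) ω)) ≤
      -1 * (∏ q ∈ I, D q ω) * H ω := fun ω => by
    have : ∏ q ∈ I, D q ω ≤ chi (¬ Ar 0 (a + 1) ((4 * g + 8) * a - 1) ω) := by
      by_cases h : Ar 0 (a + 1) ((4 * g + 8) * a - 1) ω
      · obtain ⟨i, j, hi, hj, hij, har⟩ := z3 g (2 * a) _ _ ω (by omega) (by omega)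
          (Nat.le_sub_one_of_lt (by nlinarith)) h
        rw [c0 (not_not.2 h)]
        refine le_of_eq (prod_eq_zero ((mI (i, j)).2 ⟨⟨hi, hj⟩, hij⟩) ?_)
        simp only [hD, hzd]
        rw [c1 har]
        norm_num
      · rw [c1 h]
        exact prod_le_one (fun q _ => h0 q _) fun q _ => h1 q _
    have := mul_le_mul_of_nonneg_left this (hH ω)
    linarith
  have k5 := k4 _ _ hpt
  rw [k3] at k5
  have k6 := k4 (fun _ => 0) H hH
  rw [k1] at k6
  unfold f1 at key hlow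
  rw [l3] at key
  unfold f0 fx at *
  have k7 := mul_le_mul_of_nonneg_right hlow k6
  linarith

end Vale.Agent.P167.Q
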