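import Vale.Agent.P167.ZStm

/-! P167, random-cluster model: locality and geometry of arms. -/

namespace Vale.Agent.P167.Q

open Vale.Agent.P167.Pc Finset

namespace ZDep

theorem geo (v : ℤ × ℤ) : (v.1 - 1 ≤ (ea v).1 ∧ (ea v).1 ≤ v.1 ∧ v.2 - 1 ≤ (ea v).2 ∧
    (ea v).2 ≤ v.2) ∧ v.1 - 1 ≤ (eb v).1 ∧ (eb v).1 ≤ v.1 ∧ v.2 - 1 ≤ (eb v).2 ∧ (eb v).2 ≤ v.2 := by
  unfold ea eb
  split_ifs <;> simp

theorem inv {ω : Bond} (P : ℤ × ℤ → Prop)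
    (h : ∀ v x y : ℤ × ℤ, ω v = true → (∀ ω' : Bond, ω' v = true → Cn ea eb nil ω' x y) →
      (v.1 - 1 ≤ x.1 ∧ x.1 ≤ v.1 ∧ v.2 - 1 ≤ x.2 ∧ x.2 ≤ v.2) →
      (v.1 - 1 ≤ y.1 ∧ y.1 ≤ v.1 ∧ v.2 - 1 ≤ y.2 ∧ y.2 ≤ v.2) → P x → P y)
    {a b : ℤ × ℤ} (H : Cn ea eb nil ω a b) : P a ↔ P b := by
  induction H with
  | rel u w h' =>
    rcases h' with ⟨v, hv, rfl, rfl⟩ | h'
    · exact ⟨h v _ _ hv (fun ω' h' => .rel _ _ (.inl ⟨v, h', rfl, rfl⟩)) (geo v).1 (geo v).2,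
        h v _ _ hv (fun ω' h' => .symm _ _ (.rel _ _ (.inl ⟨v, h', rfl, rfl⟩))) (geo v).2
          (geo v).1⟩
    · exact h'.elim
  | refl => rfl
  | symm _ _ _ ih => exact ih.symm
  | trans _ _ _ _ _ i1 i2 => exact i1.trans i2

theorem mono {z : ℤ × ℤ} {a b : ℕ} {ω ω' : Bond} (h : ω ≤ ω') (H : Ar z a b ω) : Ar z a b ω' := by
  obtain ⟨x, hx, y, hy, H⟩ := H
  refine ⟨x, hx, y, hy, Relation.EqvGen.mono ?_ _ _ H⟩
  rintro u w (⟨v, hv, h1, h2⟩ | h')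
  · exact .inl ⟨v, Bool.le_iff_imp.1 (h v) hv, h1, h2⟩
  · exact .inr h'

theorem dep {z : ℤ × ℤ} {a b : ℕ} (hab : a ≤ b) {ω ω' : Bond}
    (h : ∀ v ∈ (zb z (b + 1) : Set (ℤ × ℤ)), ω v = ω' v) (H : Ar z a b ω) : Ar z a b ω' := by
  obtain ⟨x₀, hx, y₀, hy, H⟩ := H
  have k := (inv (fun y => Ar z a b ω' ∨ (y ∈ zb z b ∧ Cn ea eb nil ω' x₀ y)) (by
    rintro v x y hv hc g1 g2 (k | ⟨k1, k2⟩)
    · exact .inl k
    have hv' : ω' v = true := (h v (by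
      rw [mem_coe, mem_zb]
      rw [mem_zb] at k1
      omega)).symm.trans hv
    have c := Relation.EqvGen.trans _ _ _ k2 (hc ω' hv')
    by_cases m : y ∈ zb z b
    · exact .inr ⟨m, c⟩
    · exact .inl ⟨x₀, hx, y, m, c⟩) H).1
    (.inr ⟨by rw [mem_zb] at hx ⊢; omega, .refl _⟩)
  exact k.resolve_right fun k => hy k.1

theorem dv (G u c : ℤ) (hG : 0 ≤ G) (hu : 0 < u) (h1 : -(G * u) ≤ c) (h2 : c ≤ G * u) :
    ∃ i, |i| ≤ G ∧ u * i ≤ c ∧ c < u * i + u ∧ (c = G * u ∨ c = -(G * u) → |i| = G) := by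
  have e := Int.mul_ediv_add_emod c u
  have e1 := Int.emod_nonneg c hu.ne'
  have e2 := Int.emod_lt_of_pos c hu
  refine ⟨c / u, abs_le.2 ⟨?_, ?_⟩, by linarith, by linarith, ?_⟩
  · exact Int.lt_add_one_iff.1 (lt_of_mul_lt_mul_left (a := u) (by linarith) hu.le)
  · exact le_of_mul_le_mul_left (a := u) (by linarith) hu
  · rintro (rfl | rfl)
    · rw [Int.mul_ediv_cancel _ hu.ne', abs_of_nonneg hG]
    · rw [← neg_mul, Int.mul_ediv_cancel _ hu.ne', abs_neg, abs_of_nonneg hG]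

theorem far {g u a : ℕ} (h : a < 2 * u) {i c : ℤ} (hi : |i| = g + 2) (h1 : -(a : ℤ) ≤ c)
    (h2 : c ≤ a) (h3 : u * i - (g * u : ℕ) ≤ c) (h4 : c ≤ u * i + (g * u : ℕ)) : False := by
  have h' : (a : ℤ) < 2 * u := by exact_mod_cast h
  push_cast at h3 h4
  rcases (abs_eq (by positivity)).1 hi with rfl | rfl <;> linarith

end ZDep

theorem z_dep : Z_dep := by
  refine ⟨fun z a b ω ω' h => ?_, fun z a b hab ω ω' h => ?_, fun g u a b ω hu ha hb H => ?_⟩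
  · simp only [chi]
    split_ifs with h1 h2
    exacts [le_rfl, absurd (ZDep.mono h h1) h2, zero_le_one, le_rfl]
  · exact congrArg chi (propext ⟨ZDep.dep hab h, ZDep.dep hab fun v hv => (h v hv).symm⟩)
  obtain ⟨x₀, hx, y₀, hy, H⟩ := H
  rw [mem_zb] at hx hy
  simp only [Prod.fst_zero, Prod.snd_zero, zero_sub, zero_add] at hx hy
  have u0 : (0 : ℤ) < u := by exact_mod_cast hu
  have ha' : (a : ℤ) < 2 * u := by exact_mod_cast ha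
  have hb' : ((g : ℤ) + 2) * u ≤ b := by exact_mod_cast hb
  have g0 : 0 ≤ (g : ℤ) * u := by positivity
  have r0 : 2 * (u : ℤ) ≤ ((g : ℤ) + 2) * u := by linarith
  have k := (ZDep.inv (fun y => (∃ i j : ℤ, |i| ≤ g + 2 ∧ |j| ≤ g + 2 ∧
      (|i| = g + 2 ∨ |j| = g + 2) ∧ Ar (u * i, u * j) u (g * u) ω) ∨
      ((-(((g : ℤ) + 2) * u) < y.1 ∧ y.1 < ((g : ℤ) + 2) * u ∧ -(((g : ℤ) + 2) * u) < y.2 ∧
        y.2 < ((g : ℤ) + 2) * u) ∧ Cn ea eb nil ω x₀ y)) (by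
    rintro v x y hv hc g1 g2 (k | ⟨k1, k2⟩)
    · exact .inl k
    have c := Relation.EqvGen.trans _ _ _ k2 (hc ω hv)
    by_cases m : -(((g : ℤ) + 2) * u) < y.1 ∧ y.1 < ((g : ℤ) + 2) * u ∧
      -(((g : ℤ) + 2) * u) < y.2 ∧ y.2 < ((g : ℤ) + 2) * u
    · exact .inr ⟨m, c⟩
    obtain ⟨i, i1, i2, i3, i4⟩ := ZDep.dv (g + 2) u y.1 (by positivity) u0 (by omega) (by omega)
    obtain ⟨j, j1, j2, j3, j4⟩ := ZDep.dv (g + 2) u y.2 (by positivity) u0 (by omega) (by omega)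
    have o : |i| = g + 2 ∨ |j| = g + 2 := by
      by_cases n : y.1 = ((g : ℤ) + 2) * u ∨ y.1 = -(((g : ℤ) + 2) * u)
      · exact .inl (i4 n)
      · exact .inr (j4 (by omega))
    refine .inl ⟨i, j, i1, j1, o, y, mem_zb.2 ⟨by linarith, i3.le, by linarith, j3.le⟩, x₀,
      fun n => ?_, .symm _ _ c⟩
    rw [mem_zb] at n
    exact o.elim (fun o => ZDep.far ha o hx.1 hx.2.1 n.1 n.2.1)
      fun o => ZDep.far ha o hx.2.2.1 hx.2.2.2 n.2.2.1 n.2.2.2) H).1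
    (.inr ⟨by omega, .refl _⟩)
  exact k.resolve_right fun k => hy (by omega)

end Vale.Agent.P167.Q
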