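import Vale.Agent.P167.ZStm

/-! P167, random-cluster model: the domain Markov property. -/

namespace Vale.Agent.P167.Q

open Vale.Agent.P167.Pc Finset

namespace ZDmp

theorem cn_mono {ω ω' : Bond} (h : ∀ v, ω v ≤ ω' v) {x y : ℤ × ℤ} (hc : Cn ea eb nil ω x y) :
    Cn ea eb nil ω' x y := by
  refine Relation.EqvGen.mono (fun u w huw => ?_) x y hc
  rcases huw with ⟨v, h1, h2⟩ | h1
  · exact Or.inl ⟨v, Bool.eq_true_of_true_le (h1 ▸ h v), h2⟩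
  · exact Or.inr h1

theorem mono (hd : T_dom) {r : ℝ} {S S₁ : Finset (ℤ × ℤ)} {F H : Bond → ℝ} (hr : 1 ≤ r)
    (hS : S₁ ⊆ S) (hm : Monotone F) (hF : Dep (S₁ : Set (ℤ × ℤ)) F) (h0 : ∀ ω, 0 ≤ H ω)
    (hH : Dep (S₁ : Set (ℤ × ℤ))ᶜ H)
    (hc : ∀ ω, H ω ≠ 0 → (∀ v ∉ S, ω v = false) → ∀ e ∈ S₁, Cn ea eb nil ω (ea e) (eb e) →
      Cn ea eb nil (fun v => if v ∈ S₁ then ω v else false) (ea e) (eb e)) :
    f0 r S (fun ω => F ω * H ω) = f0 r S₁ F * f0 r S H := by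
  obtain ⟨a1, a2⟩ := hd (ℤ × ℤ) (ℤ × ℤ) (ℤ × ℤ) (ℤ × ℤ) r ea eb nil S (fun _ => false) ea eb nil S₁
    (fun _ => false) id F H hr (Set.injOn_id _) (fun e he => hS he) hm hF h0
    (by rwa [Set.image_id])
  refine le_antisymm (a1 fun ω ω' h1 h2 _ h4 e he h5 => ?_) (a2 fun ω ω' _ _ h3 h4 e _ h5 => ?_)
  · refine cn_mono (fun v => ?_) (hc ω h1 h2 e he h5)
    split_ifs with hv
    · exact h4 v hv
    · exact Bool.false_le _
  · refine cn_mono (fun v => ?_) h5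
    by_cases hv : v ∈ S₁
    · exact h4 v hv
    · rw [h3 v hv]
      exact Bool.false_le _

end ZDmp

open ZDmp

theorem z_dmp (hl : T_lin) (hd : T_dom) (hf : T_dif) (hi : S_int) : Z_dmp := by
  intro r S S₁ F H hr hS hF h0 hH hc
  obtain ⟨-, ⟨b, hb⟩, -⟩ := hi S₁ F fun ω ω' e => hF ω ω' fun v hv => e v (mem_coe.1 hv)
  obtain ⟨m1, -, m2⟩ := hf S₁ F b hb hF
  have d2 : Dep (S₁ : Set (ℤ × ℤ)) fun ω : Bond => 2 * b * ∑ v ∈ S₁, op v ω := fun ω ω' e => by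
    simp only
    rw [sum_congr rfl fun v hv => show op v ω = op v ω' by simp only [op, e v (mem_coe.2 hv)]]
  have d1 : Dep (S₁ : Set (ℤ × ℤ)) fun ω : Bond => 2 * b * ∑ v ∈ S₁, op v ω + F ω :=
    fun ω ω' e => congrArg₂ (· + ·) (d2 ω ω' e) (hF ω ω' e)
  have a1 := mono hd hr hS m1 d1 h0 hH hc
  have a2 := mono hd hr hS m2 d2 h0 hH hc
  have r0 : 0 < r := by linarith
  have l1 := (hl _ _ r ea eb nil S (fun _ => false) r0).2.1
    (fun ω : Bond => (2 * b * ∑ v ∈ S₁, op v ω) * H ω) fun ω => F ω * H ω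
  have l2 := (hl _ _ r ea eb nil S₁ (fun _ => false) r0).2.1
    (fun ω : Bond => 2 * b * ∑ v ∈ S₁, op v ω) F
  simp only [add_mul] at a1
  simp only [f0, fx] at a1 a2 ⊢
  rw [l1, l2, a2, add_mul] at a1
  exact add_left_cancel a1

end Vale.Agent.P167.Q
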