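import Vale.Agent.P167.ZStm

/-! P167: exploration of the clusters of a set. -/

open Finset

namespace Vale.Agent.P167.Q

open Vale.Agent.P167.Pc

namespace ZExp

variable {V : Set (ℤ × ℤ)} {S S₁ : Finset (ℤ × ℤ)} {ω ω' : Bond}

/-- the bond `v` is not touched by the clusters of `V` -/
def Fr (V : Set (ℤ × ℤ)) (ω : Bond) (v : ℤ × ℤ) : Prop :=
  ∀ x ∈ V, ¬ Cn ea eb nil ω x (ea v) ∧ ¬ Cn ea eb nil ω x (eb v)

open Classical in
/-- the unexplored bonds -/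
noncomputable def Un (V : Set (ℤ × ℤ)) (S : Finset (ℤ × ℤ)) (ω : Bond) : Finset (ℤ × ℤ) :=
  S.filter (Fr V ω)

theorem mem_Un {v : ℤ × ℤ} : v ∈ Un V S ω ↔ v ∈ S ∧ Fr V ω v := by simp [Un]

theorem ind (Q : ℤ × ℤ → Prop) (h : ∀ v, ω v = true → (Q (ea v) ↔ Q (eb v))) {a b : ℤ × ℤ}
    (hab : Cn ea eb nil ω a b) : Q a ↔ Q b := by
  induction hab with
  | rel u w huw =>
    rcases huw with ⟨v, hv, rfl, rfl⟩ | huw
    · exact h v hv
    · exact huw.elim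
  | refl u => exact Iff.rfl
  | symm u w _ ih => exact ih.symm
  | trans u w z _ _ ih1 ih2 => exact ih1.trans ih2

theorem step {v : ℤ × ℤ} (hv : ω v = true) (x : ℤ × ℤ) :
    Cn ea eb nil ω x (ea v) ↔ Cn ea eb nil ω x (eb v) := by
  have h : Cn ea eb nil ω (ea v) (eb v) := Relation.EqvGen.rel _ _ (Or.inl ⟨v, hv, rfl, rfl⟩)
  exact ⟨fun k => k.trans _ _ _ h, fun k => k.trans _ _ _ (h.symm _ _)⟩

theorem stop (hS : ∀ v ∈ S₁, Fr V ω v) (hag : ∀ v ∉ S₁, ω v = ω' v) {x : ℤ × ℤ} (hx : x ∈ V)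
    (y : ℤ × ℤ) : Cn ea eb nil ω x y ↔ Cn ea eb nil ω' x y := by
  refine ⟨fun h => ?_, fun h => ?_⟩
  · refine ((ind (fun y => Cn ea eb nil ω x y ∧ Cn ea eb nil ω' x y) (fun v hv => ?_) h).1
      ⟨.refl _, .refl _⟩).2
    by_cases h1 : v ∈ S₁
    · exact iff_of_false (fun k => (hS v h1 x hx).1 k.1) fun k => (hS v h1 x hx).2 k.1
    · exact and_congr (step hv x) (step (hag v h1 ▸ hv) x)
  · refine (ind (fun y => Cn ea eb nil ω x y) (fun v hv => ?_) h).1 (.refl _)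
    by_cases h1 : v ∈ S₁
    · exact iff_of_false (hS v h1 x hx).1 (hS v h1 x hx).2
    · exact step ((hag v h1).trans hv) x

theorem fr_of (h : Un V S ω = S₁) : ∀ v ∈ S₁, Fr V ω v := fun _ hv => (mem_Un.1 (h ▸ hv)).2

theorem un_eq (h : Un V S ω = S₁) (hag : ∀ v ∉ S₁, ω v = ω' v) : Un V S ω' = S₁ := by
  rw [← h]
  ext v
  rw [mem_Un, mem_Un]
  refine and_congr_right fun _ => forall₂_congr fun x hx => ?_
  rw [stop (fr_of h) hag hx, stop (fr_of h) hag hx]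

theorem dep {H : Bond → ℝ} (hH : Dep {v | ea v ∈ V ∨ eb v ∈ V} H) :
    Dep (S₁ : Set (ℤ × ℤ))ᶜ fun ω => H ω * chi (Un V S ω = S₁) := by
  intro ω ω' hag
  have e : Un V S ω = S₁ ↔ Un V S ω' = S₁ :=
    ⟨fun h => un_eq h hag, fun h => un_eq h fun v hv => (hag v hv).symm⟩
  show H ω * chi (Un V S ω = S₁) = H ω' * chi (Un V S ω' = S₁)
  rw [← e]
  by_cases h : Un V S ω = S₁
  · rw [hH ω ω' fun v hv => hag v fun h1 => hv.elim
      (fun k => (fr_of h v h1 _ k).1 (.refl _)) fun k => (fr_of h v h1 _ k).2 (.refl _)]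
  · simp [chi, h]

theorem cut (h : Un V S ω = S₁) (h0 : ∀ v ∉ S, ω v = false) {e : ℤ × ℤ} (he : e ∈ S₁)
    (hc : Cn ea eb nil ω (ea e) (eb e)) :
    Cn ea eb nil (fun v => if v ∈ S₁ then ω v else false) (ea e) (eb e) := by
  refine ((ind (fun y => Cn ea eb nil (fun v => if v ∈ S₁ then ω v else false) (ea e) y ∧
    Cn ea eb nil ω (ea e) y) (fun v hv => ?_) hc).1 ⟨.refl _, .refl _⟩).1
  by_cases h1 : v ∈ S₁
  · exact and_congr (step (by simp only [if_pos h1, hv]) _) (step hv _)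
  have h2 : v ∈ S := by
    by_contra h2
    simp [h0 v h2] at hv
  have h3 : ¬ Cn ea eb nil ω (ea e) (ea v) := fun k => h1 <| h ▸ mem_Un.2 ⟨h2, fun x hx => by
    have h4 : ¬ Cn ea eb nil ω x (ea v) :=
      fun l => (fr_of h e he x hx).1 (l.trans _ _ _ (k.symm _ _))
    exact ⟨h4, fun l => h4 ((step hv x).2 l)⟩⟩
  exact iff_of_false (fun k => h3 k.2) fun k => h3 ((step hv _).2 k.2)

theorem chi_sum {Y : Finset (ℤ × ℤ)} (hY : Y ⊆ S) (ω : Bond) :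
    chi (Nt V Y ω) = ∑ T ∈ S.powerset.filter (Y ⊆ ·), chi (Un V S ω = T) := by
  have e : Nt V Y ω ↔ Un V S ω ∈ S.powerset.filter (Y ⊆ ·) := by
    rw [mem_filter, mem_powerset]
    exact ⟨fun h => ⟨fun v hv => (mem_Un.1 hv).1, fun v hv => mem_Un.2 ⟨hY hv, h v hv⟩⟩,
      fun h v hv => (mem_Un.1 (h.2 hv)).2⟩
  by_cases h : Nt V Y ω
  · rw [sum_eq_single_of_mem _ (e.1 h) fun T _ hT => by simp [chi, Ne.symm hT]]
    simp [chi, h]
  · rw [sum_eq_zero fun T hT => by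
      have : Un V S ω ≠ T := fun k => h (e.2 (k ▸ hT))
      simp [chi, this]]
    simp [chi, h]

end ZExp

open ZExp in
theorem z_exp (hl : T_lin) (hd : Z_dmp) : Z_exp := by
  intro r S Y V F H m hr hY hF h0 hH hm
  obtain ⟨l1, -, -, l4, l5, -⟩ := hl _ _ r ea eb nil S (fun _ => false) (by linarith)
  have hn : ∀ T ω, 0 ≤ H ω * chi (Un V S ω = T) := fun T ω =>
    mul_nonneg (h0 ω) (by unfold chi; split_ifs <;> norm_num)
  simp only [chi_sum hY, mul_sum]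
  unfold f0 fx
  rw [l5, l5, mul_sum]
  refine sum_le_sum fun T hT => ?_
  obtain ⟨hT1, hT2⟩ := mem_filter.1 hT
  have h1 := hd r S T F (fun ω => H ω * chi (Un V S ω = T)) hr (mem_powerset.1 hT1)
    (fun ω ω' k => hF ω ω' fun v hv => k v (hT2 hv)) (hn T) (dep hH) fun ω k k0 e he hc => by
      refine cut (V := V) ?_ k0 he hc
      by_contra k1
      simp [chi, k1] at k
  have h2 := l4 (fun _ => 0) _ (hn T)
  rw [l1] at h2
  exact (mul_le_mul_of_nonneg_right (hm T hT2 (mem_powerset.1 hT1)) h2).trans h1.ge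

end Vale.Agent.P167.Q
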