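import Vale.Agent.P167.ZStm

/-! P167: free measures are comparable. -/

namespace Vale.Agent.P167.Q

open Vale.Agent.P167.Pc Finset

namespace ZIn

theorem chi_nonneg (p : Prop) : 0 ≤ chi p := by
  unfold chi; split_ifs <;> norm_num

theorem chi_le_one (p : Prop) : chi p ≤ 1 := by
  unfold chi; split_ifs <;> norm_num

theorem chi_mono {p q : Prop} (h : p → q) : chi p ≤ chi q := by
  unfold chi
  by_cases hp : p
  · simp [hp, h hp]
  · simp only [hp, if_false]; split_ifs <;> norm_num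

theorem chi_ne {p : Prop} (h : chi p ≠ 0) : p := by
  by_contra hp
  exact h (by unfold chi; simp [hp])

theorem dep_mono {Y Y' : Set (ℤ × ℤ)} (h : Y ⊆ Y') {F : Bond → ℝ} (hF : Dep Y F) : Dep Y' F :=
  fun ω ω' hω => hF ω ω' fun v hv => hω v (h hv)

theorem ea_out {n : ℕ} (hn : 1 ≤ n) {v : ℤ × ℤ} (hv : v ∉ zb 0 n) : ea v ∉ zb 0 (n - 1) := by
  rw [mem_zb] at hv ⊢
  have h1 : ((n - 1 : ℕ) : ℤ) = (n : ℤ) - 1 := by omega
  rw [h1]
  unfold ea
  split_ifs <;> simp only [Prod.fst_zero, Prod.snd_zero, Prod.fst_sub, Prod.snd_sub] at hv ⊢ <;>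
    omega

theorem eb_out {n : ℕ} (hn : 1 ≤ n) {v : ℤ × ℤ} (hv : v ∉ zb 0 n) : eb v ∉ zb 0 (n - 1) := by
  rw [mem_zb] at hv ⊢
  have h1 : ((n - 1 : ℕ) : ℤ) = (n : ℤ) - 1 := by omega
  rw [h1]
  unfold eb
  split_ifs <;> simp only [Prod.fst_zero, Prod.snd_zero, Prod.fst_sub, Prod.snd_sub] at hv ⊢ <;>
    omega

theorem ea_in {n : ℕ} {v : ℤ × ℤ} (hv : v ∈ zb 0 n) : ea v ∈ zb 0 (n + 1) := by
  rw [mem_zb] at hv ⊢
  push_cast
  unfold ea
  split_ifs <;> simp only [Prod.fst_zero, Prod.snd_zero, Prod.fst_sub, Prod.snd_sub] at hv ⊢ <;>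
    omega

theorem zb_mono {m n : ℕ} (h : m ≤ n) : zb 0 m ⊆ zb 0 n := by
  intro v hv
  rw [mem_zb] at hv ⊢
  simp only [Prod.fst_zero, Prod.snd_zero] at hv ⊢
  omega

end ZIn

open ZIn in
theorem z_in (hl : T_lin) (hp : T_pl) (he : T_fe) (hd : Z_dmp) (hx : Z_exp) : Z_in := by
  intro r K a₀ c hr hK ha₀ hc hA a ha S S' hS hSS F hF0 hF
  have hr0 : 0 < r := by linarith
  have hKa : a ≤ K * a := Nat.le_mul_of_pos_left a (by omega)
  have hKa1 : 1 ≤ K * a := by omega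
  set Y : Finset (ℤ × ℤ) := S' \ S with hY
  set D : Bond → ℝ := fun ω => chi (∀ v ∈ Y, ω v = false) with hD
  have hD0 : ∀ ω, 0 ≤ D ω := fun ω => chi_nonneg _
  have hDY : Dep (Y : Set (ℤ × ℤ)) D := by
    intro ω ω' h
    have : (∀ v ∈ Y, ω v = false) ↔ ∀ v ∈ Y, ω' v = false :=
      forall₂_congr fun v hv => by rw [h v (Finset.mem_coe.2 hv)]
    simp only [hD, this]
  have hYS : Y ⊆ S' := sdiff_subset
  have hFS : Dep (S : Set (ℤ × ℤ)) F :=
    dep_mono (fun v hv => Finset.mem_coe.2 (hS (zb_mono hKa (Finset.mem_coe.1 hv)))) hF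
  -- (i)
  have h1 : f0 r S' (fun ω => F ω * D ω) = f0 r S F * f0 r S' D := by
    refine hd r S' S F D hr hSS hFS hD0 (dep_mono ?_ hDY) ?_
    · intro v hv
      exact fun h => (mem_sdiff.1 (Finset.mem_coe.1 hv)).2 (Finset.mem_coe.1 h)
    · intro ω hω hout e _ hcn
      have h0 := chi_ne hω
      have : (fun v => if v ∈ S then ω v else false) = ω := by
        funext v
        by_cases hv : v ∈ S
        · simp [hv]
        · simp only [hv, if_false]
          by_cases hv' : v ∈ S'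
          · exact (h0 v (mem_sdiff.2 ⟨hv', hv⟩)).symm
          · exact (hout v hv').symm
      rw [this]
      exact hcn
  have lin := fun T : Finset (ℤ × ℤ) => hl (ℤ × ℤ) (ℤ × ℤ) r ea eb nil T (fun _ => false) hr0
  -- (ii)
  have h2 := hx r S' Y (zb 0 (a + 1) : Set (ℤ × ℤ)) D F (f0 r S' D) hr hYS hDY hF0
    (dep_mono (fun v hv => Or.inl (Finset.mem_coe.2 (ea_in (Finset.mem_coe.1 hv)))) hF) (by
      intro S₁ hY1 h1S
      have hm : Monotone fun ω => (-1 : ℝ) * D ω := by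
        intro ω ω' hω
        have : D ω' ≤ D ω := chi_mono fun h v hv => by
          have h3 := hω v
          rw [h v hv] at h3
          exact le_antisymm h3 (Bool.false_le _)
        simp only
        linarith
      have hdep : Dep (S₁ : Set (ℤ × ℤ)) fun ω => (-1 : ℝ) * D ω := fun ω ω' h => by
        simp only
        rw [dep_mono (Finset.coe_subset.2 hY1) hDY ω ω' h]
      have h3 := ((hp r S₁ S' _ hr h1S hm hdep).2 (fun _ => false) (fun _ => 1)
        (fun _ => zero_le_one) (fun _ _ _ => rfl)).1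
      simp only [mul_one] at h3
      have e1 : fx r S' (fun _ => false) (fun _ => (1 : ℝ)) = 1 := (lin S').1 1
      have e2 : f0 r S₁ (fun ω => (-1 : ℝ) * D ω) = -1 * f0 r S₁ D := (lin S₁).2.2.1 (-1) D
      have e3 : fx r S' (fun _ => false) (fun ω => (-1 : ℝ) * D ω) = -1 * f0 r S' D :=
        (lin S').2.2.1 (-1) D
      rw [e1, e2, e3] at h3
      linarith)
  -- (iii)
  have h3 := hA a ha S' (hS.trans hSS) F hF0 (dep_mono (by
    intro v hv h
    exact (mem_sdiff.1 (Finset.mem_coe.1 h)).2 (Finset.mem_coe.1 hv)) hF)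
  have h4 : f0 r S' (fun ω => F ω * chi (¬ Ar 0 (a + 1) (K * a - 1) ω)) ≤
      f0 r S' (fun ω => F ω * chi (Nt (zb 0 (a + 1) : Set (ℤ × ℤ)) Y ω)) := by
    refine (lin S').2.2.2.1 _ _ fun ω => mul_le_mul_of_nonneg_left (chi_mono ?_) (hF0 ω)
    intro hn v hv x hx'
    have hv' : v ∉ zb 0 (K * a) := fun h => (mem_sdiff.1 hv).2 (hS h)
    exact ⟨fun h => hn ⟨x, Finset.mem_coe.1 hx', _, ea_out hKa1 hv', h⟩,
      fun h => hn ⟨x, Finset.mem_coe.1 hx', _, eb_out hKa1 hv', h⟩⟩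
  have h5 : f0 r S' (fun ω => D ω * (F ω * chi (Nt (zb 0 (a + 1) : Set (ℤ × ℤ)) Y ω))) ≤
      f0 r S' (fun ω => F ω * D ω) := by
    refine (lin S').2.2.2.1 _ _ fun ω => ?_
    have := chi_le_one (Nt (zb 0 (a + 1) : Set (ℤ × ℤ)) Y ω)
    have h6 := mul_nonneg (hF0 ω) (hD0 ω)
    nlinarith
  -- (iv)
  have h6 : 0 < f0 r S' D := by
    have h7 := he (ℤ × ℤ) (ℤ × ℤ) r ea eb nil S' Y (fun _ => false) false (fun _ => 1) hr hYS
      (fun _ => zero_le_one)
    simp only [one_mul] at h7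
    rw [(lin S').1 1] at h7
    have h8 : (0 : ℝ) < (1 + r) ^ Y.card := by positivity
    have h9 : 1 ≤ (1 + r) ^ Y.card * f0 r S' D := h7
    by_contra hn
    have : (1 + r) ^ Y.card * f0 r S' D ≤ 0 := mul_nonpos_of_nonneg_of_nonpos h8.le (not_lt.1 hn)
    linarith
  have h7 : f0 r S' D * (c * f0 r S' F) ≤ f0 r S' D * f0 r S F := by
    have := mul_le_mul_of_nonneg_left (h3.trans h4) h6.le
    rw [mul_comm (f0 r S' D) (f0 r S F), ← h1]
    exact this.trans (h2.trans h5)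
  exact le_of_mul_le_mul_left h7 h6

end Vale.Agent.P167.Q
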