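import Vale.Agent.P167.ZStm

/-! P167, random-cluster model: lower ratio mixing in infinite volume. -/

open MeasureTheory Filter Topology Finset

namespace Vale.Agent.P167.Q

open Vale.Agent.P167.Pc

namespace ZLrm

theorem lim {r : ℝ} {φ : Measure Bond} (h : FKm r φ) {F : Bond → ℝ} (hF : Pc.Loc F) :
    Tendsto (fun S => f0 r S F) atTop (𝓝 (∫ ω, F ω ∂φ)) := by
  refine Metric.tendsto_nhds.2 fun ε hε => ?_
  obtain ⟨S₀, h0⟩ := h.2 F hF (ε / 2) (half_pos hε)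
  filter_upwards [eventually_ge_atTop S₀] with S hS
  exact ((h0 S hS).1 _).trans_lt (half_lt_self hε)

theorem zb_mono {s t : ℕ} (h : s ≤ t) : zb 0 s ⊆ zb 0 t := by
  intro x hx
  rw [mem_zb] at hx ⊢
  simp only [Prod.fst_zero, Prod.snd_zero] at hx ⊢
  omega

theorem dep_mono {Y Y' : Set (ℤ × ℤ)} {F : Bond → ℝ} (h : Dep Y F) (hY : Y ⊆ Y') : Dep Y' F :=
  fun ω ω' k => h ω ω' fun v hv => k v (hY hv)

theorem ea_out {n : ℕ} {v : ℤ × ℤ} (hv : v ∉ zb 0 n) : ea v ∉ zb 0 (n - 1) ∨ n = 0 := by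
  rcases Nat.eq_zero_or_pos n with h | h
  · exact Or.inr h
  refine Or.inl fun hc => hv ?_
  rw [mem_zb] at hc ⊢
  unfold ea at hc
  split_ifs at hc
  · simp only [Prod.fst_zero, Prod.snd_zero] at hc ⊢
    omega
  · simp only [Prod.fst_zero, Prod.snd_zero, Prod.fst_sub, Prod.snd_sub] at hc ⊢
    omega

theorem ends_in {n : ℕ} {v : ℤ × ℤ} (hv : v ∈ zb 0 n) :
    ea v ∈ zb 0 (n + 1) ∧ eb v ∈ zb 0 (n + 1) := by
  rw [mem_zb] at hv
  rw [mem_zb, mem_zb]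
  unfold ea eb
  split_ifs
  · simp only [Prod.fst_zero, Prod.snd_zero, Prod.fst_sub, Prod.snd_sub] at hv ⊢
    omega
  · simp only [Prod.fst_zero, Prod.snd_zero, Prod.fst_sub, Prod.snd_sub] at hv ⊢
    omega

theorem chi_mono {p q : Prop} (h : p → q) : chi p ≤ chi q := by
  unfold chi
  by_cases hp : p
  · rw [if_pos hp, if_pos (h hp)]
  · rw [if_neg hp]
    split_ifs <;> norm_num

theorem chi_le (p : Prop) : chi p ≤ 1 := by
  unfold chi
  split_ifs <;> norm_num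

end ZLrm

theorem z_lrm (hl : T_lin) (ha : Z_ann) (hi : Z_in) (hx : Z_exp) : Z_lrm := by
  intro r φ hr h hW
  obtain ⟨K, a₀, c, hK, ha₀, hc, hA⟩ := ha r hr hW
  refine ⟨K * K, a₀, c * c, mul_pos hc hc, fun a haa F G F0 G0 dF lG dG => ?_⟩
  obtain ⟨b, hb⟩ : ∃ b, b = K * a := ⟨_, rfl⟩
  have hab : a ≤ b := by rw [hb]; exact Nat.le_mul_of_pos_left a (by omega)
  have hbb : b ≤ K * b := Nat.le_mul_of_pos_left b (by omega)
  have hk : K * b ≤ 2 ^ (K * K) * a := by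
    rw [hb, ← mul_assoc]
    exact Nat.mul_le_mul_right a Nat.lt_two_pow_self.le
  have dG' : Dep (zb 0 (K * b) : Set (ℤ × ℤ))ᶜ G :=
    ZLrm.dep_mono dG (Set.compl_subset_compl.2 (Finset.coe_subset.2 (ZLrm.zb_mono hk)))
  have lF : Pc.Loc F := ⟨zb 0 a, fun ω ω' k => dF ω ω' fun v hv => k v hv⟩
  have l : Pc.Loc fun ω => F ω * G ω := by
    obtain ⟨S, hS⟩ := lF
    obtain ⟨S', hS'⟩ := lG
    exact ⟨S ∪ S', fun ω ω' k => by
      dsimp only
      rw [hS ω ω' fun v hv => k v (Finset.mem_union_left _ hv),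
        hS' ω ω' fun v hv => k v (Finset.mem_union_right _ hv)]⟩
  refine le_of_tendsto_of_tendsto (((ZLrm.lim h lF).mul (ZLrm.lim h lG)).const_mul _)
    (ZLrm.lim h l) ?_
  filter_upwards [eventually_ge_atTop (zb 0 (K * b))] with S hS
  have hS' : zb 0 (K * b) ⊆ S := hS
  have mono : ∀ A B : Bond → ℝ, (∀ ω, A ω ≤ B ω) → f0 r S A ≤ f0 r S B :=
    (hl _ _ r ea eb nil S (fun _ => false) (by linarith)).2.2.2.1
  have hF0 : 0 ≤ f0 r S F := by
    have e : f0 r S (fun _ => 0) = 0 := (hl _ _ r ea eb nil S (fun _ => false) (by linarith)).1 0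
    rw [← e]
    exact mono _ _ F0
  have h1 := hx r S (zb 0 b) (zb 0 (K * b - 1) : Set (ℤ × ℤ))ᶜ F G (c * f0 r S F) hr
    ((ZLrm.zb_mono hbb).trans hS')
    (ZLrm.dep_mono dF (Finset.coe_subset.2 (ZLrm.zb_mono hab))) G0
    (ZLrm.dep_mono dG' fun v hv => Or.inl ((ZLrm.ea_out hv).resolve_right (by omega)))
    (fun S₁ k1 k2 => hi r K a₀ c hr hK ha₀ hc hA a haa S₁ S (hb ▸ k1) k2 F F0 dF)
  have h2 := hA b (by omega) S hS' G G0 (ZLrm.dep_mono dG'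
    (Set.compl_subset_compl.2 (Finset.coe_subset.2 Finset.sdiff_subset)))
  have h3 : f0 r S (fun ω => G ω * chi (¬ Ar 0 (b + 1) (K * b - 1) ω)) ≤
      f0 r S fun ω => G ω * chi (Nt (zb 0 (K * b - 1) : Set (ℤ × ℤ))ᶜ (zb 0 b) ω) := by
    refine mono _ _ fun ω => mul_le_mul_of_nonneg_left (ZLrm.chi_mono fun hn => ?_) (G0 ω)
    intro v hv x hx'
    exact ⟨fun k => hn ⟨_, (ZLrm.ends_in hv).1, x, hx', Relation.EqvGen.symm _ _ k⟩,
      fun k => hn ⟨_, (ZLrm.ends_in hv).2, x, hx', Relation.EqvGen.symm _ _ k⟩⟩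
  have h4 : f0 r S (fun ω => F ω * (G ω * chi (Nt (zb 0 (K * b - 1) : Set (ℤ × ℤ))ᶜ (zb 0 b) ω))) ≤
      f0 r S fun ω => F ω * G ω :=
    mono _ _ fun ω => mul_le_mul_of_nonneg_left
      (mul_le_of_le_one_right (G0 ω) (ZLrm.chi_le _)) (F0 ω)
  have h5 := mul_le_mul_of_nonneg_left (h2.trans h3) (mul_nonneg hc.le hF0)
  calc c * c * (f0 r S F * f0 r S G) = c * f0 r S F * (c * f0 r S G) := by ring
    _ ≤ _ := h5.trans (h1.trans h4)

end Vale.Agent.P167.Q
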