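import Vale.Agent.P167.QStm

/-! P167, random-cluster model: lower ratio mixing from a bound on wired arms. -/

open MeasureTheory Filter Topology Finset

namespace Vale.Agent.P167.Q

open Vale.Agent.P167.Pc

noncomputable section

def zb (z : ℤ × ℤ) (s : ℕ) : Finset (ℤ × ℤ) :=
  Icc (z.1 - s) (z.1 + s) ×ˢ Icc (z.2 - s) (z.2 + s)

theorem mem_zb {z x : ℤ × ℤ} {s : ℕ} : x ∈ zb z s ↔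
    z.1 - s ≤ x.1 ∧ x.1 ≤ z.1 + s ∧ z.2 - s ≤ x.2 ∧ x.2 ≤ z.2 + s := by
  simp only [zb, mem_product, mem_Icc, and_assoc]

/-- an open path from `zb z a` out of `zb z b` -/
def Ar (z : ℤ × ℤ) (a b : ℕ) (ω : Bond) : Prop :=
  ∃ x ∈ zb z a, ∃ y, y ∉ zb z b ∧ Cn ea eb nil ω x y

/-- wired arms are not likely -/
def WA (r : ℝ) : Prop := ∃ g u₀ : ℕ, 2 ≤ g ∧ ∀ u ≥ u₀, ∀ z : ℤ × ℤ, Even (z.1 + z.2) →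
  f1 r (zb z (g * u + 1)) (fun ω => chi (Ar z u (g * u) ω)) ≤ 1 / 2

/-- locality and geometry of arms -/
def Z_dep : Prop := (∀ z a b, Monotone fun ω => chi (Ar z a b ω)) ∧
  (∀ z (a b : ℕ), a ≤ b → Dep (zb z (b + 1) : Set (ℤ × ℤ)) fun ω => chi (Ar z a b ω)) ∧
  ∀ (g u a b : ℕ) (ω : Bond), 1 ≤ u → a < 2 * u → (g + 2) * u ≤ b → Ar 0 a b ω →
    ∃ i j : ℤ, |i| ≤ g + 2 ∧ |j| ≤ g + 2 ∧ (|i| = g + 2 ∨ |j| = g + 2) ∧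
      Ar (u * i, u * j) u (g * u) ω

/-- no arm with positive probability, whatever happens outside the annulus -/
def Ann (r : ℝ) (K a₀ : ℕ) (c : ℝ) : Prop := ∀ a ≥ a₀, ∀ S : Finset (ℤ × ℤ), zb 0 (K * a) ⊆ S →
  ∀ H : Bond → ℝ, (∀ ω, 0 ≤ H ω) → Dep ((zb 0 (K * a) \ zb 0 a : Finset (ℤ × ℤ)) : Set (ℤ × ℤ))ᶜ H →
    c * f0 r S H ≤ f0 r S fun ω => H ω * chi (¬ Ar 0 (a + 1) (K * a - 1) ω)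

def Z_ann : Prop := ∀ r : ℝ, 1 ≤ r → WA r →
  ∃ (K a₀ : ℕ) (c : ℝ), 2 ≤ K ∧ 1 ≤ a₀ ∧ 0 < c ∧ Ann r K a₀ c

/-- the domain Markov property -/
def Z_dmp : Prop := ∀ (r : ℝ) (S S₁ : Finset (ℤ × ℤ)) (F H : Bond → ℝ), 1 ≤ r → S₁ ⊆ S →
  Dep (S₁ : Set (ℤ × ℤ)) F → (∀ ω, 0 ≤ H ω) → Dep (S₁ : Set (ℤ × ℤ))ᶜ H →
  (∀ ω, H ω ≠ 0 → (∀ v ∉ S, ω v = false) → ∀ e ∈ S₁, Cn ea eb nil ω (ea e) (eb e) →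
    Cn ea eb nil (fun v => if v ∈ S₁ then ω v else false) (ea e) (eb e)) →
  f0 r S (fun ω => F ω * H ω) = f0 r S₁ F * f0 r S H

/-- the clusters of `V` do not touch the bonds of `Y` -/
def Nt (V : Set (ℤ × ℤ)) (Y : Finset (ℤ × ℤ)) (ω : Bond) : Prop :=
  ∀ v ∈ Y, ∀ x ∈ V, ¬ Cn ea eb nil ω x (ea v) ∧ ¬ Cn ea eb nil ω x (eb v)

/-- exploration of the clusters of `V` -/
def Z_exp : Prop := ∀ (r : ℝ) (S Y : Finset (ℤ × ℤ)) (V : Set (ℤ × ℤ)) (F H : Bond → ℝ) (m : ℝ),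
  1 ≤ r → Y ⊆ S → Dep (Y : Set (ℤ × ℤ)) F → (∀ ω, 0 ≤ H ω) → Dep {v | ea v ∈ V ∨ eb v ∈ V} H →
  (∀ S₁, Y ⊆ S₁ → S₁ ⊆ S → m ≤ f0 r S₁ F) →
  m * f0 r S (fun ω => H ω * chi (Nt V Y ω)) ≤ f0 r S fun ω => F ω * (H ω * chi (Nt V Y ω))

/-- free measures are comparable -/
def Z_in : Prop := ∀ (r : ℝ) (K a₀ : ℕ) (c : ℝ), 1 ≤ r → 2 ≤ K → 1 ≤ a₀ → 0 < c → Ann r K a₀ c →
  ∀ a ≥ a₀, ∀ S S' : Finset (ℤ × ℤ), zb 0 (K * a) ⊆ S → S ⊆ S' → ∀ F : Bond → ℝ, (∀ ω, 0 ≤ F ω) →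
    Dep (zb 0 a : Set (ℤ × ℤ)) F → c * f0 r S' F ≤ f0 r S F

/-- lower ratio mixing -/
def Lrm (φ : Measure Bond) : Prop := ∃ k a₀ : ℕ, ∃ c > 0, ∀ a ≥ a₀, ∀ F G : Bond → ℝ,
  (∀ ω, 0 ≤ F ω) → (∀ ω, 0 ≤ G ω) → Dep (zb 0 a : Set (ℤ × ℤ)) F → Loc G →
  Dep (zb 0 (2 ^ k * a) : Set (ℤ × ℤ))ᶜ G →
  c * ((∫ ω, F ω ∂φ) * ∫ ω, G ω ∂φ) ≤ ∫ ω, F ω * G ω ∂φ

def Z_lrm : Prop := ∀ (r : ℝ) φ, 1 ≤ r → FKm r φ → WA r → Lrm φ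

end

end Vale.Agent.P167.Q
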